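import Mathlib

/-!
Row 221, block K (helper11): generic definitions (pure Mathlib).

* `dN N w f` derivative of `f` along the field `p ↦ N p w`, `itr N ws f` iterated (head first),
* `PolN Ω N A k f`: all derivatives of order `k` along fields `N · w`, `w ∈ A`, vanish on `Ω`,
* `Flat Ω p₀ f`: `f` is smooth on `Ω` and all its derivatives vanish at `p₀`,
* `Gr L r v`: `‖L^j v‖` grows like `e^{r j}`, `j ∈ ℤ`, up to subexponential factors.
-/

set_option autoImplicit false

open Set Filter Topology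
open scoped ContDiff

noncomputable section

namespace Crest.Agent.N221.K

variable {V W : Type} [NormedAddCommGroup V] [NormedSpace ℝ V] [NormedAddCommGroup W]
  [NormedSpace ℝ W]

/-- derivative along a vector field -/
def dX (X : V → V) (f : V → ℝ) (p : V) : ℝ := fderiv ℝ f p (X p)

/-- derivative along the field `p ↦ N p w` -/
def dN (N : V → W →L[ℝ] V) (w : W) (f : V → ℝ) (p : V) : ℝ := fderiv ℝ f p (N p w)

/-- iterated derivatives, the head of the list is applied first -/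
def itr (N : V → W →L[ℝ] V) : List W → (V → ℝ) → V → ℝ
  | [], f => f
  | w :: ws, f => itr N ws (dN N w f)

@[simp] lemma itr_nil (N : V → W →L[ℝ] V) (f : V → ℝ) : itr N [] f = f := rfl

@[simp] lemma itr_cons (N : V → W →L[ℝ] V) (w : W) (ws : List W) (f : V → ℝ) :
    itr N (w :: ws) f = itr N ws (dN N w f) := rfl

/-- product of the norms -/
def nprod (ws : List W) : ℝ := (ws.map fun w => ‖w‖).prod

/-- "polynomial of degree `< k`" along the fields `N · w`, `w ∈ A` -/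
def PolN (Ω : Set V) (N : V → W →L[ℝ] V) (A : Set W) : ℕ → (V → ℝ) → Prop
  | 0, f => ∀ p ∈ Ω, f p = 0
  | k + 1, f => ContDiffOn ℝ ∞ f Ω ∧ ∀ w ∈ A, PolN Ω N A k (dN N w f)

/-- the derivatives of order `< k` vanish at `p₀` -/
def FlatK (Ω : Set V) (p₀ : V) : ℕ → (V → ℝ) → Prop
  | 0, f => ContDiffOn ℝ ∞ f Ω
  | k + 1, f => ContDiffOn ℝ ∞ f Ω ∧ f p₀ = 0 ∧ ∀ v : V, FlatK Ω p₀ k (dX (fun _ => v) f)

/-- all derivatives vanish at `p₀` -/
def Flat (Ω : Set V) (p₀ : V) (f : V → ℝ) : Prop := ∀ k, FlatK Ω p₀ k f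

/-- growth rate `r` in both time directions -/
def Gr (L : V ≃L[ℝ] V) (r : ℝ) (v : V) : Prop :=
  ∀ ε : ℝ, 0 < ε → ∃ C : ℝ, ∀ j : ℕ, ‖(⇑L)^[j] v‖ ≤ C * Real.exp ((r + ε) * j) ∧
    ‖(⇑L.symm)^[j] v‖ ≤ C * Real.exp ((-r + ε) * j)

end Crest.Agent.N221.K
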