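import Crest.Agent.N221.K.In3
import Crest.Agent.N221.All
import Crest.Agent.N221.T6.Main
import Crest.Agent.N221.T6.Alg
import Crest.Agent.N221.T6.Br
import Crest.Agent.N221.T6.Ev
import Crest.Agent.N221.T6.Top
import Crest.Agent.N221.H.Hor
import Crest.Agent.N221.H.Irw
import Crest.Agent.N221.H.Nem
import Crest.Agent.N221.H.DHor
import Crest.Agent.N221.H.Uniq

/-! Row 221: step A2 without hypotheses; the core is reduced to `A1S`. -/

set_option autoImplicit false

namespace Crest.Agent.N221

theorem t6 : T6.T6S := T6.t6S T6.famS (T6.brS T6.evS) (T6.topS T6.algS) T6.affS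

theorem horK : H.HorS := H.horS (H.irwS H.nemS H.hadS H.fixS)

theorem splitT : H.SplitS := H.splitS sys volT lps

theorem trK : TrS := trS sys volT lps

/-- **A2**: smooth `U` and Liouville = Bowen-Margulis make the curvature parallel -/
theorem a2 : A2S := a2S t6 horK H.dHorS splitT trK

theorem core_of_A1 (h : A1S) : CoreS := core_of h a2

end Crest.Agent.N221
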