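import Crest.Agent.N221.K.Gen

/-! Row 221, block K: the logarithm of the hyperbolic part of a linear map (leaf K-LA). -/

set_option autoImplicit false
set_option linter.unusedSectionVars false
set_option linter.unusedVariables false

open Set Filter Topology Module

noncomputable section

namespace Crest.Agent.N221.K

variable {V V' : Type} [NormedAddCommGroup V] [NormedSpace ℝ V] [FiniteDimensional ℝ V]
  [NormedAddCommGroup V'] [NormedSpace ℝ V'] [FiniteDimensional ℝ V']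

namespace LA

/-- exponential bound for the iterates -/
def Bd {W : Type} [NormedAddCommGroup W] (f : W → W) (t : ℝ) (v : W) : Prop :=
  ∃ C : ℝ, 0 ≤ C ∧ ∀ j : ℕ, ‖f^[j] v‖ ≤ C * Real.exp (t * j)

lemma gr_iff {L : V ≃L[ℝ] V} {r : ℝ} {v : V} :
    Gr L r v ↔ ∀ ε : ℝ, 0 < ε → Bd L (r + ε) v ∧ Bd L.symm (-r + ε) v := by
  refine forall₂_congr fun ε _ => ⟨fun ⟨C, h⟩ => ?_, fun ⟨⟨C, _, h⟩, ⟨C', _, h'⟩⟩ => ?_⟩
  · have : 0 ≤ C := (norm_nonneg v).trans (by simpa using (h 0).1)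
    exact ⟨⟨C, this, fun j => (h j).1⟩, ⟨C, this, fun j => (h j).2⟩⟩
  · refine ⟨max C C', fun j => ⟨(h j).trans ?_, (h' j).trans ?_⟩⟩ <;> gcongr
    exacts [le_max_left _ _, le_max_right _ _]

section
variable {W : Type} [NormedAddCommGroup W] [NormedSpace ℝ W] {t t' : ℝ}

lemma Bd.mono {f : W → W} {v : W} (h : Bd f t v) (ht : t ≤ t') : Bd f t' v := by
  obtain ⟨C, h0, h⟩ := h
  exact ⟨C, h0, fun j => (h j).trans (by gcongr)⟩

lemma Bd.map {f : W → W} {g : V → V} {v : W} (h : Bd f t v) (T : W →L[ℝ] V)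
    (e : ∀ x, T (f x) = g (T x)) : Bd g t (T v) := by
  obtain ⟨C, h0, h⟩ := h
  refine ⟨‖T‖ * C, by positivity, fun j => ?_⟩
  rw [← Function.Semiconj.iterate_right (f := T) e j v, mul_assoc]
  exact (T.le_opNorm _).trans (by gcongr; exact h j)

lemma Bd.add {L : V ≃L[ℝ] V} {v w : V} (h : Bd L t v) (h' : Bd L t w) : Bd L t (v + w) := by
  obtain ⟨C, h0, h⟩ := h
  obtain ⟨C', h0', h'⟩ := h'
  refine ⟨C + C', by positivity, fun j => ?_⟩
  rw [iterate_map_add, add_mul]
  exact norm_add_le_of_le (h j) (h' j)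

lemma Bd.smul {L : V ≃L[ℝ] V} {v : V} (h : Bd L t v) (c : ℝ) : Bd L t (c • v) :=
  h.map (c • ContinuousLinearMap.id ℝ V) fun x => by simp

lemma Bd.fix {f : W → W} {v : W} (h : f v = v) (ht : 0 ≤ t) : Bd f t v :=
  ⟨‖v‖, norm_nonneg _, fun j => by
    rw [Function.iterate_fixed h]
    exact le_mul_of_one_le_right (norm_nonneg _) (Real.one_le_exp (by positivity))⟩

lemma Bd.zero (L : V ≃L[ℝ] V) : Bd L t 0 := ⟨0, le_rfl, fun j => by simp [iterate_map_zero]⟩

/-- a linear recursion -/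
lemma Bd.of_rec {f : W → W} {v : W} {l C : ℝ} (hl : 0 ≤ l) (ht : l < Real.exp t) (hC : 0 ≤ C)
    (h : ∀ j, ‖f^[j + 1] v‖ ≤ l * ‖f^[j] v‖ + C * Real.exp (t * j)) : Bd f t v := by
  have h1 : 0 < Real.exp t - l := sub_pos.2 ht
  refine ⟨‖v‖ + C / (Real.exp t - l), by positivity, fun j => ?_⟩
  induction j with
  | zero => simpa using div_nonneg hC h1.le
  | succ j ih =>
    have e : C = C / (Real.exp t - l) * (Real.exp t - l) := (div_mul_cancel₀ C h1.ne').symm
    have h2 : 0 ≤ ‖v‖ * (Real.exp t - l) * Real.exp (t * j) := by positivity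
    rw [Nat.cast_succ, mul_add t, mul_one, Real.exp_add]
    generalize C / (Real.exp t - l) = D at *
    subst e
    linarith [h j, mul_le_mul_of_nonneg_left ih hl]

end

lemma Gr.map {L : V ≃L[ℝ] V} {L' : V' ≃L[ℝ] V'} {r : ℝ} {v : V} (h : Gr L r v) (T : V →L[ℝ] V')
    (e : ∀ x, T (L x) = L' (T x)) : Gr L' r (T v) :=
  gr_iff.2 fun ε hε => ⟨(gr_iff.1 h ε hε).1.map T e, (gr_iff.1 h ε hε).2.map T fun x => by
    rw [eq_comm, L'.symm_apply_eq, ← e, L.apply_symm_apply]⟩

/-- vectors with the growth rate `r` -/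
def GS (L : V ≃L[ℝ] V) (r : ℝ) : Submodule ℝ V where
  carrier := {v | Gr L r v}
  add_mem' h h' := gr_iff.2 fun ε hε => ⟨(gr_iff.1 h ε hε).1.add (gr_iff.1 h' ε hε).1,
    (gr_iff.1 h ε hε).2.add (gr_iff.1 h' ε hε).2⟩
  zero_mem' := gr_iff.2 fun ε hε => ⟨Bd.zero _, Bd.zero _⟩
  smul_mem' c _ h := gr_iff.2 fun ε hε => ⟨(gr_iff.1 h ε hε).1.smul c, (gr_iff.1 h ε hε).2.smul c⟩

/-- vectors that grow slower than `e^{s j}` -/
def Lo (L : V ≃L[ℝ] V) (s : ℝ) : Submodule ℝ V where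
  carrier := {v | ∃ t < s, Bd L t v}
  add_mem' := fun ⟨t, ht, h⟩ ⟨t', ht', h'⟩ => ⟨max t t', max_lt ht ht',
    (h.mono (le_max_left _ _)).add (h'.mono (le_max_right _ _))⟩
  zero_mem' := ⟨s - 1, by linarith, Bd.zero _⟩
  smul_mem' := fun c _ ⟨t, ht, h⟩ => ⟨t, ht, h.smul c⟩

lemma le_zero {x K c : ℝ} (h0 : 0 ≤ c) (h1 : c < 1) (h : ∀ j : ℕ, x ≤ K * c ^ j) : x ≤ 0 := by
  have := (tendsto_pow_atTop_nhds_zero_of_lt_one h0 h1).const_mul K
  rw [mul_zero] at this
  exact ge_of_tendsto' this h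

lemma kill {L : V ≃L[ℝ] V} {s : ℝ} {u : V} (h : u ∈ GS L s) (h' : u ∈ Lo L s) : u = 0 := by
  obtain ⟨t, ht, C, hC, h'⟩ := h'
  set ε := (s - t) / 2 with hε
  have e0 : 0 < ε := by linarith
  let g : ℕ → GS L s →L[ℝ] V := fun j => Real.exp (-((-s + ε) * j)) •
    ((L.symm : V →L[ℝ] V) ^ j) ∘L (GS L s).subtypeL
  have hg : ∀ j (w : GS L s), ‖(⇑L.symm)^[j] w‖ = ‖g j w‖ * Real.exp ((-s + ε) * j) := by
    intro j w
    simp [g, norm_smul, mul_right_comm, ← Real.exp_add]
  obtain ⟨D, hD⟩ := banach_steinhaus (g := g) fun w => by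
    obtain ⟨K, -, hK⟩ := (gr_iff.1 w.2 ε e0).2
    exact ⟨K, fun j => le_of_mul_le_mul_right ((hg j w).symm.trans_le (hK j)) (Real.exp_pos _)⟩
  have hm : ∀ j, (⇑L)^[j] u ∈ GS L s := fun j => by
    induction j with
    | zero => exact h
    | succ j ih => rw [Function.iterate_succ_apply']; exact Gr.map ih (L : V →L[ℝ] V) fun _ => rfl
  refine norm_le_zero_iff.1 (le_zero (K := D * C) (Real.exp_pos (-ε)).le
    (Real.exp_lt_one_iff.2 (by linarith)) fun j => ?_)
  have e1 := hg j ⟨_, hm j⟩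
  rw [Function.LeftInverse.iterate L.symm_apply_apply j u] at e1
  have e2 : ‖g j ⟨_, hm j⟩‖ ≤ D * (C * Real.exp (t * j)) :=
    ((g j).le_opNorm _).trans (mul_le_mul (hD j) (h' j) (norm_nonneg _)
      ((norm_nonneg _).trans (hD j)))
  rw [e1, ← Real.exp_nat_mul, show j * -ε = t * j + (-s + ε) * j by rw [hε]; ring, Real.exp_add,
    ← mul_assoc, mul_assoc D]
  gcongr

lemma indep (L : V ≃L[ℝ] V) : iSupIndep (GS L) := by
  classical
  rw [iSupIndep_iff_finsetSum_eq_zero_imp_eq_zero]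
  intro R v
  induction R using Finset.induction_on_max with
  | empty => simp
  | insert s R hs ih =>
    intro hv h0
    rw [Finset.sum_insert fun h => lt_irrefl _ (hs s h)] at h0
    have h1 : v s = 0 := by
      refine kill (hv s (Finset.mem_insert_self _ _)) ?_
      rw [eq_neg_of_add_eq_zero_left h0]
      refine neg_mem (sum_mem fun r hr => ⟨r + (s - r) / 2, by linarith [hs r hr], ?_⟩)
      exact (gr_iff.1 (hv r (Finset.mem_insert_of_mem hr)) _ (by linarith [hs r hr])).1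
    rw [h1, zero_add] at h0
    rw [Finset.forall_mem_insert]
    exact ⟨h1, ih (fun r hr => hv r (Finset.mem_insert_of_mem hr)) h0⟩

/-- growth of generalized eigenvectors -/
lemma grow {W : Type} [NormedAddCommGroup W] [NormedSpace ℂ W] {T S : Module.End ℂ W}
    (hST : ∀ x, S (T x) = x) {c : ℂ} (hc : c ≠ 0) {ε : ℝ} (hε : 0 < ε) (k : ℕ) :
    ∀ x, ((T - c • 1) ^ k) x = 0 →
      Bd T (Real.log ‖c‖ + ε) x ∧ Bd S (-Real.log ‖c‖ + ε) x := by
  have c0 : 0 < ‖c‖ := norm_pos_iff.2 hc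
  have e1 := Real.one_lt_exp_iff.2 hε
  induction k with
  | zero =>
    rintro x (rfl : x = 0)
    exact ⟨⟨0, le_rfl, fun j => by simp [iterate_map_zero]⟩,
      ⟨0, le_rfl, fun j => by simp [iterate_map_zero]⟩⟩
  | succ k ih =>
    intro x hx
    rw [pow_succ, Module.End.mul_apply] at hx
    obtain ⟨⟨C, hC, h⟩, ⟨C', hC', h'⟩⟩ := ih _ hx
    have e : T x = c • x + (T - c • 1 : Module.End ℂ W) x := by simp
    generalize (T - c • 1 : Module.End ℂ W) x = w at *
    refine ⟨Bd.of_rec c0.le ?_ hC fun j => ?_, Bd.of_rec (l := ‖c‖⁻¹)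
      (C := ‖c‖⁻¹ * (C' * Real.exp (-Real.log ‖c‖ + ε))) (by positivity) ?_ (by positivity)
      fun j => ?_⟩
    · rw [Real.exp_add, Real.exp_log c0]
      exact lt_mul_of_one_lt_right c0 e1
    · rw [Function.iterate_succ_apply, e, ← Module.End.pow_apply, map_add, map_smul,
        Module.End.pow_apply, Module.End.pow_apply, ← norm_smul]
      exact norm_add_le_of_le le_rfl (h j)
    · rw [Real.exp_add, Real.exp_neg, Real.exp_log c0]
      exact lt_mul_of_one_lt_right (by positivity) e1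
    · have e2 : S x = c⁻¹ • (x - S w) := by
        rw [eq_inv_smul_iff₀ hc, eq_sub_iff_add_eq, ← map_smul, ← map_add, ← e, hST]
      have h2 := h' (j + 1)
      rw [Function.iterate_succ_apply, Nat.cast_succ, mul_add, mul_one, Real.exp_add] at h2
      rw [Function.iterate_succ_apply, e2, ← Module.End.pow_apply, map_smul, map_sub,
        Module.End.pow_apply, Module.End.pow_apply, norm_smul, norm_inv, mul_assoc, ← mul_add]
      gcongr
      exact norm_sub_le_of_le le_rfl (h2.trans_eq (by ring))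

open TensorProduct in
lemma span_top (L : V ≃L[ℝ] V) : ⊤ ≤ Submodule.span ℝ {v | ∃ r, Gr L r v} := by
  let e := (finBasis ℂ (ℂ ⊗[ℝ] V)).equivFun
  let B : (V ≃L[ℝ] V) → Module.End ℂ _ := fun L => e.conj (L.toLinearEquiv.toLinearMap.baseChange ℂ)
  let p : ℂ ⊗[ℝ] V →ₗ[ℝ] V := (TensorProduct.lid ℝ V).toLinearMap ∘ₗ Complex.reLm.rTensor V
  let π := LinearMap.toContinuousLinearMap (p ∘ₗ e.symm.toLinearMap.restrictScalars ℝ)
  have h1 : ∀ (L : V ≃L[ℝ] V) x, π (B L x) = L (π x) := fun L x => by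
    obtain ⟨y, rfl⟩ := e.surjective x
    simp only [π, B, LinearEquiv.conj_apply_apply, LinearMap.coe_toContinuousLinearMap',
      LinearMap.comp_apply, LinearMap.restrictScalars_apply, LinearEquiv.coe_coe,
      LinearEquiv.symm_apply_apply]
    induction y with
    | zero => simp
    | tmul z v => simp [p]
    | add y y' h h' => simp only [map_add, h, h']
  have h2 : ∀ x, B L.symm (B L x) = x := fun x => by
    obtain ⟨y, rfl⟩ := e.surjective x
    simp only [B, LinearEquiv.conj_apply_apply, LinearEquiv.symm_apply_apply]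
    induction y with
    | zero => simp
    | tmul z v => simp
    | add y y' h h' => simp only [map_add, h, h']
  intro v _
  have h3 : v = π (e (1 ⊗ₜ v)) := by simp [π, p]
  rw [h3]
  refine Submodule.iSup_induction _ (motive := fun x => π x ∈ Submodule.span ℝ {v | ∃ r, Gr L r v})
    ((Module.End.iSup_maxGenEigenspace_eq_top (B L)).ge Submodule.mem_top) (fun c x hx => ?_)
    (by simp) fun x y hx hy => by rw [map_add]; exact add_mem hx hy
  obtain ⟨k, hk⟩ := (Module.End.mem_maxGenEigenspace _ _ _).1 hx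
  by_cases hc : c = 0
  · rw [hc, zero_smul, sub_zero, Module.End.pow_apply] at hk
    rw [← Function.LeftInverse.iterate h2 k x, hk, iterate_map_zero, map_zero]
    exact zero_mem _
  · exact Submodule.subset_span ⟨Real.log ‖c‖, gr_iff.2 fun ε hε =>
      ⟨(grow h2 hc hε k x hk).1.map π (h1 L), (grow h2 hc hε k x hk).2.map π (h1 L.symm)⟩⟩

end LA

open LA

lemma Gr.inl {L : V ≃L[ℝ] V} (L' : V' ≃L[ℝ] V') {r : ℝ} {v : V} (h : Gr L r v) :
    Gr (L.prodCongr L') r (v, 0) :=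
  LA.Gr.map h (ContinuousLinearMap.inl ℝ V V') fun x => by simp

lemma Gr.inr (L : V ≃L[ℝ] V) {L' : V' ≃L[ℝ] V'} {r : ℝ} {v : V'} (h : Gr L' r v) :
    Gr (L.prodCongr L') r (0, v) :=
  LA.Gr.map h (ContinuousLinearMap.inr ℝ V V') fun x => by simp

/-- a basis of vectors with a growth rate -/
lemma exists_gr_basis (L : V ≃L[ℝ] V) :
    ∃ (b : Basis (Fin (finrank ℝ V)) ℝ V) (r : Fin (finrank ℝ V) → ℝ), ∀ i, Gr L (r i) (b i) := by
  let b := Basis.ofSpan (span_top L)
  let b' := b.reindex (b.indexEquiv (finBasis ℝ V))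
  have : ∀ i, ∃ r, Gr L r (b' i) := fun i => by
    rw [Basis.reindex_apply]
    exact Basis.ofSpan_subset (span_top L) (mem_range_self _)
  choose r hr using this
  exact ⟨b', r, hr⟩

theorem exists_log (L : V ≃L[ℝ] V) :
    ∃ (A : V →L[ℝ] V) (b : Basis (Fin (finrank ℝ V)) ℝ V) (r : Fin (finrank ℝ V) → ℝ),
      (∀ i, Gr L (r i) (b i) ∧ A (b i) = r i • b i) ∧ (∀ v, A (L v) = L (A v)) ∧
      (∀ v, L v = v → A v = 0) ∧
      ∀ (y₀ : V) (C θ : ℝ), L y₀ = y₀ → 0 ≤ θ → θ < 1 →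
        (∀ (j : ℕ) (v : V), ∃ s : ℝ, ‖(⇑L)^[j] v - s • y₀‖ ≤ C * θ ^ j * ‖v‖) →
        (∀ v, ∃ (v' : V) (s : ℝ), v = A v' + s • y₀) ∧
          (2 ≤ finrank ℝ V → LinearMap.trace ℝ V (A : V →ₗ[ℝ] V) < 0) := by
  obtain ⟨b, r, hr⟩ := exists_gr_basis L
  let A := b.constrL fun i => r i • b i
  have hA : ∀ i, A (b i) = r i • b i := b.constrL_basis _
  have key : ∀ s v, Gr L s v → A v = s • v := fun s v hv => by
    have e : (fun s => Submodule.span ℝ (b '' {i | r i = s})) = GS L := by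
      refine ((indep L).le_iff_eq_of_iSup_eq_top (top_unique ?_)).1 fun s =>
        Submodule.span_le.2 ?_
      · rw [← b.span_eq, Submodule.span_le]
        rintro _ ⟨i, rfl⟩
        exact Submodule.mem_iSup_of_mem (r i) (Submodule.subset_span ⟨i, rfl, rfl⟩)
      · rintro _ ⟨i, rfl, rfl⟩
        exact hr i
    have hv' : v ∈ Submodule.span ℝ (b '' {i | r i = s}) := (congrFun e s).ge hv
    refine (Submodule.span_le (p := LinearMap.eqLocus A.toLinearMap (s • LinearMap.id))).2 ?_ hv'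
    rintro _ ⟨i, rfl, rfl⟩
    exact hA i
  have h0 : ∀ v, L v = v → A v = 0 := fun v hv => (key 0 v (gr_iff.2 fun ε hε =>
    ⟨Bd.fix hv (by linarith), Bd.fix (L.symm_apply_eq.2 hv.symm) (by linarith)⟩)).trans
      (zero_smul _ _)
  refine ⟨A, b, r, fun i => ⟨hr i, hA i⟩, fun v => ?_, h0, fun y C θ hy θ0 θ1 hC => ?_⟩
  · refine LinearMap.congr_fun (b.ext (f₁ := A.toLinearMap ∘ₗ L.toLinearEquiv.toLinearMap)
      (f₂ := L.toLinearEquiv.toLinearMap ∘ₗ A.toLinearMap) fun i => ?_) v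
    have := key _ _ (LA.Gr.map (hr i) (L : V →L[ℝ] V) fun _ => rfl)
    simpa [hA] using this
  have h1 : ∀ i, 0 ≤ r i → b i ∈ Submodule.span ℝ {y} := fun i hi => by
    have a1 : 1 < 2 / (1 + θ) := by rw [one_lt_div (by linarith)]; linarith
    obtain ⟨D, hD, hb⟩ := (gr_iff.1 (hr i) _ (Real.log_pos a1)).2.mono
      (t' := Real.log (2 / (1 + θ))) (by linarith)
    refine ((Submodule.span ℝ {y}).closed_of_finiteDimensional.mem_iff_infDist_zero
      ⟨0, zero_mem _⟩).2 (le_antisymm (le_zero (K := |C| * D) (c := θ * (2 / (1 + θ)))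
        (by positivity) ?_ fun j => ?_) Metric.infDist_nonneg)
    · rw [← mul_div_assoc, div_lt_one (by linarith)]; linarith
    · obtain ⟨s, hs⟩ := hC j ((⇑L.symm)^[j] (b i))
      rw [Function.LeftInverse.iterate L.apply_symm_apply j] at hs
      have := hb j
      rw [mul_comm (Real.log _), Real.exp_nat_mul, Real.exp_log (by linarith)] at this
      refine (Metric.infDist_le_dist_of_mem (Submodule.smul_mem _ s
        (Submodule.mem_span_singleton_self y))).trans ?_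
      rw [dist_eq_norm]
      calc _ ≤ |C| * θ ^ j * (D * (2 / (1 + θ)) ^ j) := hs.trans (by gcongr; exact le_abs_self C)
        _ = _ := by rw [mul_pow]; ring
  have h2 : ∀ i, r i ≤ 0 := fun i => le_of_not_gt fun hi => by
    obtain ⟨s, hs⟩ := Submodule.mem_span_singleton.1 (h1 i hi.le)
    have := hA i
    rw [← hs, map_smul, h0 y hy, smul_zero, hs, eq_comm, smul_eq_zero] at this
    exact this.elim hi.ne' (b.ne_zero i)
  refine ⟨fun v => ?_, fun hd => ?_⟩
  · have : ⊤ ≤ LinearMap.range A.toLinearMap ⊔ Submodule.span ℝ {y} := by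
      rw [← b.span_eq, Submodule.span_le]
      rintro _ ⟨i, rfl⟩
      rcases (h2 i).eq_or_lt with h | h
      · exact Submodule.mem_sup_right (h1 i h.ge)
      · exact Submodule.mem_sup_left ⟨(r i)⁻¹ • b i, by simp [hA, smul_smul, h.ne]⟩
    obtain ⟨_, ⟨v', rfl⟩, w, hw, e⟩ := Submodule.mem_sup.1 (this (Submodule.mem_top (x := v)))
    obtain ⟨s, rfl⟩ := Submodule.mem_span_singleton.1 hw
    exact ⟨v', s, e.symm⟩
  · have : ∃ i, r i < 0 := by
      by_contra! h
      have h3 : ⊤ ≤ Submodule.span ℝ {y} := by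
        rw [← b.span_eq, Submodule.span_le]
        rintro _ ⟨i, rfl⟩
        exact h1 i (h i)
      have h4 := finrank_le_one y fun w => Submodule.mem_span_singleton.1 (h3 Submodule.mem_top)
      omega
    obtain ⟨i, hi⟩ := this
    rw [LinearMap.trace_eq_matrix_trace ℝ b, Matrix.trace]
    simpa [LinearMap.toMatrix_apply, hA] using
      Finset.sum_lt_sum (g := fun _ => (0 : ℝ)) (fun i _ => h2 i) ⟨i, Finset.mem_univ i, hi⟩

end Crest.Agent.N221.K
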