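import Crest.Agent.N221.K.Ext

/-! Row 221, block K: the Lie algebra of Killing pairs (leaf K-Alg). -/

set_option autoImplicit false
set_option linter.unusedSectionVars false
set_option linter.unusedVariables false

open Set Filter Topology
open scoped ContDiff RealInnerProductSpace
open Crest.GeometryTopology.Submanifold

noncomputable section

namespace Crest.Agent.N221.K

variable {n : ℕ} {Y Y' Z Z' g : Euc n → Euc n}

/-- derivative of a determinant with variable columns -/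
lemma fderiv_det {E : Type} [NormedAddCommGroup E] [NormedSpace ℝ E] {c : Fin n → E → Euc n}
    {x : E} (hc : ∀ j, DifferentiableAt ℝ (c j) x) (v : E) :
    fderiv ℝ (fun y => (Matrix.of fun i j : Fin n => c j y i).det) x v =
      ∑ k, (Matrix.of fun i j : Fin n =>
        Function.update (fun j => c j x) k (fderiv ℝ (c k) x v) j i).det := by
  have h1 : ∀ (σ : Equiv.Perm (Fin n)) (i : Fin n), HasFDerivAt (fun y => c i y (σ i))
      ((EuclideanSpace.proj (σ i) : Euc n →L[ℝ] ℝ) ∘L fderiv ℝ (c i) x) x := fun σ i =>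
    (EuclideanSpace.proj (σ i) : Euc n →L[ℝ] ℝ).hasFDerivAt.comp x (hc i).hasFDerivAt
  have h2 := HasFDerivAt.fun_sum (u := Finset.univ) fun (σ : Equiv.Perm (Fin n)) _ =>
    (HasFDerivAt.finsetProd (u := Finset.univ) fun i _ => h1 σ i).const_mul
      ((Equiv.Perm.sign σ : ℤ) : ℝ)
  simp only [Matrix.det_apply', Matrix.of_apply]
  rw [h2.fderiv, Finset.sum_comm]
  simp only [sum_apply, smul_apply, smul_eq_mul, Finset.mul_sum]
  refine Finset.sum_congr rfl fun σ _ => Finset.sum_congr rfl fun k _ => ?_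
  rw [← Finset.mul_prod_erase _ _ (Finset.mem_univ k), Function.update_self, mul_comm (_ : ℝ) (∏ _ ∈ _, _)]
  congr 2
  exact Finset.prod_congr rfl fun i hi => by rw [Function.update_of_ne (Finset.ne_of_mem_erase hi)]

/-- `∑_k det (…, A c_k, …) = tr A * det` (Cramer / adjugate) -/
lemma sum_det_update (A : Euc n →L[ℝ] Euc n) (c : Fin n → Euc n) :
    ∑ k, (Matrix.of fun i j : Fin n => Function.update c k (A (c k)) j i).det =
      LinearMap.trace ℝ (Euc n) (A : Euc n →ₗ[ℝ] Euc n) *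
        (Matrix.of fun i j : Fin n => c j i).det := by
  set b := (EuclideanSpace.basisFun (Fin n) ℝ).toBasis
  set M : Matrix (Fin n) (Fin n) ℝ := Matrix.of fun i j => c j i with hM
  set T := LinearMap.toMatrix b b (A : Euc n →ₗ[ℝ] Euc n) with hT
  have h1 : ∀ k, (Matrix.of fun i j : Fin n => Function.update c k (A (c k)) j i).det =
      (M.adjugate * (T * M)) k k := fun k => by
    have e : (Matrix.of fun i j : Fin n => Function.update c k (A (c k)) j i) =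
        M.updateCol k fun i => (T * M) i k := by
      ext i j
      rw [Matrix.updateCol_apply, Matrix.of_apply]
      split_ifs with h
      · subst h
        have := congrFun (LinearMap.toMatrix_mulVec_repr b b (A : Euc n →ₗ[ℝ] Euc n) (c j)) i
        rw [Function.update_self]
        exact this.symm
      · rw [Function.update_of_ne h]; rfl
    rw [e, ← Matrix.cramer_apply, Matrix.cramer_eq_adjugate_mulVec]
    rfl
  simp only [h1]
  rw [LinearMap.trace_eq_matrix_trace ℝ b]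
  change (M.adjugate * (T * M)).trace = _
  rw [Matrix.trace_mul_comm, Matrix.mul_assoc, Matrix.mul_adjugate, Matrix.mul_smul, Matrix.mul_one,
    Matrix.trace_smul, smul_eq_mul, mul_comm]

lemma det_comp (A : Euc n →L[ℝ] Euc n) (c : Fin n → Euc n) :
    (Matrix.of fun i j : Fin n => A (c j) i).det =
      A.det * (Matrix.of fun i j : Fin n => c j i).det := by
  have h := (EuclideanSpace.basisFun (Fin n) ℝ).toBasis.det_comp (A : Euc n →ₗ[ℝ] Euc n) c
  rw [Module.Basis.det_apply, Module.Basis.det_apply] at h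
  exact h

namespace Alg

/-- the product field -/
def pf (Y Y' : Euc n → Euc n) (p : PE n) : PE n := (Y p.1, Y' p.2)

lemma dif (h : ContDiffOn ℝ ∞ Y {0}ᶜ) {ξ : Euc n} (hξ : ξ ≠ 0) : DifferentiableAt ℝ Y ξ :=
  sm_dif isOpen_compl_singleton h hξ

lemma pf_sm (h : ContDiffOn ℝ ∞ Y {0}ᶜ) (h' : ContDiffOn ℝ ∞ Y' {0}ᶜ) :
    ContDiffOn ℝ ∞ (pf Y Y') (GO n) :=
  (h.comp contDiffOn_fst fun _ hp => hp.1).prodMk (h'.comp contDiffOn_snd fun _ hp => hp.2.1)

lemma fderiv_pf (h : ContDiffOn ℝ ∞ Y {0}ᶜ) (h' : ContDiffOn ℝ ∞ Y' {0}ᶜ) {p : PE n}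
    (hp : p ∈ GO n) (v : PE n) :
    fderiv ℝ (pf Y Y') p v = (fderiv ℝ Y p.1 v.1, fderiv ℝ Y' p.2 v.2) := by
  have := ((dif h hp.1).hasFDerivAt.prodMap p (dif h' hp.2.1).hasFDerivAt).fderiv
  exact DFunLike.congr_fun this v

/-- commutator with a constant field -/
lemma comm_const {V : Type} [NormedAddCommGroup V] [NormedSpace ℝ V] {Ω : Set V} (hΩ : IsOpen Ω)
    {X : V → V} {f : V → ℝ} (hX : ContDiffOn ℝ ∞ X Ω) (hf : ContDiffOn ℝ ∞ f Ω) {p : V}
    (hp : p ∈ Ω) (v : V) : fderiv ℝ (dX X f) p v =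
      dX X (fun q => fderiv ℝ f q v) p + fderiv ℝ f p (fderiv ℝ X p v) := by
  have h := dX_comm hΩ (X := fun _ => v) contDiffOn_const hX hf hp
  simp only [VectorField.lieBracket, fderiv_fun_const, Pi.zero_apply, zero_apply, sub_zero] at h
  exact sub_eq_iff_eq_add'.1 h

lemma trace_adj (A : Euc n →L[ℝ] Euc n) :
    LinearMap.trace ℝ (Euc n) (ContinuousLinearMap.adjoint A : Euc n →ₗ[ℝ] Euc n) =
      LinearMap.trace ℝ (Euc n) (A : Euc n →ₗ[ℝ] Euc n) := by
  rw [LinearMap.trace_eq_sum_inner _ (EuclideanSpace.basisFun (Fin n) ℝ),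
    LinearMap.trace_eq_sum_inner _ (EuclideanSpace.basisFun (Fin n) ℝ)]
  refine Finset.sum_congr rfl fun i _ => ?_
  rw [ContinuousLinearMap.coe_coe, ContinuousLinearMap.coe_coe,
    ContinuousLinearMap.adjoint_inner_right, real_inner_comm]

lemma det_cols (A : Euc n →L[ℝ] Euc n) :
    (Matrix.of fun i j : Fin n => A (ee j) i).det = A.det := by
  have e : (Matrix.of fun i j : Fin n => (ee j : Euc n) i) = 1 := by
    ext i j; simp [Matrix.one_apply]
  rw [det_comp A ee, e, Matrix.det_one, mul_one]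

end Alg

open Alg Cov

namespace Cone

variable (B : Cone n)

lemma kil_euler : B.Kil (fun ξ => ξ) (fun η => -η) := by
  refine ⟨contDiffOn_id, contDiffOn_id.neg, fun _ _ _ => rfl, fun t _ ξ => (smul_neg t ξ).symm,
    fun p hp => ?_⟩
  have e : ((p.1, -p.2) : PE n) = (p.1, 0) - (0, p.2) := by simp
  rw [del, e, map_sub]
  exact sub_eq_zero.2 ((B.euler₁ hp).trans (B.euler₂ hp).symm)

lemma Kil.bracket (h : B.Kil Y Y') (h' : B.Kil Z Z') :
    B.Kil (VectorField.lieBracket ℝ Y Z) (VectorField.lieBracket ℝ Y' Z') := by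
  have hs : ∀ {Y Z : Euc n → Euc n}, ContDiffOn ℝ ∞ Y {0}ᶜ → ContDiffOn ℝ ∞ Z {0}ᶜ →
      ContDiffOn ℝ ∞ (VectorField.lieBracket ℝ Y Z) {0}ᶜ := fun hY hZ ξ hξ =>
    ((hY.contDiffAt (isOpen_compl_singleton.mem_nhds hξ)).lieBracket_vectorField
      (hZ.contDiffAt (isOpen_compl_singleton.mem_nhds hξ)) (by simp)).contDiffWithinAt
  have hh : ∀ {Y Z : Euc n → Euc n}, Hom1 Y → Hom1 Z → Hom1 (VectorField.lieBracket ℝ Y Z) :=
    fun hY hZ t ht ξ => by
    simp only [VectorField.lieBracket, hY.fderiv_smul ht, hZ.fderiv_smul ht, hY t ht, hZ t ht,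
      map_smul, smul_sub]
  refine ⟨hs h.sm h'.sm, hs h.sm' h'.sm', hh h.hom h'.hom, hh h.hom' h'.hom', fun p hp => ?_⟩
  have h1 := dX_comm isOpen_GO (pf_sm h.sm h.sm') (pf_sm h'.sm h'.sm') B.sm hp
  have h2 : dX (pf Y Y') (dX (pf Z Z') B.F) p = dX (pf Y Y') (fun _ => 0) p :=
    dX_congr isOpen_GO h'.eq hp
  have h3 : dX (pf Z Z') (dX (pf Y Y') B.F) p = dX (pf Z Z') (fun _ => 0) p :=
    dX_congr isOpen_GO h.eq hp
  rw [h2, h3, VectorField.lieBracket, fderiv_pf h.sm h.sm' hp, fderiv_pf h'.sm h'.sm' hp] at h1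
  simp only [dX, fderiv_fun_const, Pi.zero_apply, zero_apply, sub_zero] at h1
  exact h1.symm

lemma Kil.pull (h : B.Kil Y Y') (hg : Iso B.F g g) :
    B.Kil (fun ξ => (fderiv ℝ g ξ).inverse (Y (g ξ))) (fun ξ => (fderiv ℝ g ξ).inverse (Y' (g ξ))) := by
  have hi : ContDiffOn ℝ ∞ (fun ξ => (fderiv ℝ g ξ).inverse) {0}ᶜ := fun ξ hξ =>
    (hg.inv₁ hξ).contDiffAt_map_inverse.comp_contDiffWithinAt ξ
      (hg.sm₁.fderiv_of_isOpen (m := ∞) isOpen_compl_singleton (by simp) ξ hξ)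
  have hs : ∀ {Y : Euc n → Euc n}, ContDiffOn ℝ ∞ Y {0}ᶜ →
      ContDiffOn ℝ ∞ (fun ξ => (fderiv ℝ g ξ).inverse (Y (g ξ))) {0}ᶜ := fun hY =>
    hi.clm_apply (hY.comp hg.sm₁ fun _ hξ => hg.ne₂ hξ)
  have hh : ∀ {Y : Euc n → Euc n}, Hom1 Y → Hom1 (fun ξ => (fderiv ℝ g ξ).inverse (Y (g ξ))) :=
    fun hY t ht ξ => by simp only [hg.hom₁.fderiv_smul ht, hg.hom₁ t ht, hY t ht, map_smul]
  refine ⟨hs h.sm, hs h.sm', hh h.hom, hh h.hom', fun p hp => ?_⟩
  rw [del, ← hg.fderiv_F (ξ := p.1) (η := p.2) hp, (hg.inv₁ hp.1).self_apply_inverse,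
    (hg.inv₁ hp.2.1).self_apply_inverse]
  exact h.eq (g p.1, g p.2) (hg.maps _ _ hp)

/-- a Killing pair is determined by the first jet of `Y'` at one point -/
lemma Kil.eq_zero (h : B.Kil Y Y') {η : Euc n} (hη : η ≠ 0) (h0 : Y' η = 0)
    (h1 : fderiv ℝ Y' η = 0) : Y = 0 := by
  have hs : ∀ ξ ∈ sl η, Y ξ = 0 := fun ξ hξ => by
    have hp : (ξ, η) ∈ GO n := hξ
    have hz : zz (B.psi Y') (ξ, η) = 0 := by
      refine ext_inner_right ℝ fun w => ?_
      have e : B.psi Y' = fun p => ⟪zz B.F p, Y' p.2⟫ := funext (B.psi_eq Y')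
      have d1 := (sm_dif isOpen_GO (zz_sm isOpen_GO B.sm) hp).hasFDerivAt
      have d2 : HasFDerivAt (fun p : PE n => Y' p.2) _ (ξ, η) :=
        (dif h.sm' hη).hasFDerivAt.comp (ξ, η) (hasFDerivAt_snd (𝕜 := ℝ))
      rw [inner_zz, e, (d1.inner ℝ d2).fderiv]
      simp [h0, h1]
    have hd : zz (B.del Y Y') (ξ, η) = 0 := by
      refine ext_inner_right ℝ fun w => ?_
      rw [inner_zz, fderiv_congr_open isOpen_GO (g := fun _ => 0) h.eq hp]
      simp
    have h2 := B.zz_del isOpen_compl_singleton Subset.rfl h.sm' (p := (ξ, η)) ⟨hp, hη⟩ (dif h.sm hp.1)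
    rw [hd, ext, hz, map_zero, neg_zero, sub_zero] at h2
    have h3 := B.Mi_MM hp (Y ξ)
    rw [← h2, map_zero] at h3
    exact h3.symm
  funext ξ
  by_cases hξ : ξ = 0
  · rw [hξ]; exact h.hom.zero
  refine EqOn.of_subset_closure (s := sl η) (g := 0) hs h.sm.continuousOn continuousOn_const
    (sl_sub η) (fun x _ => ?_) hξ
  exact closure_mono (fun y hy => (mem_sl_of_plane hη hη hy).1) (dense_plane B.hn η η x)

/-- the space of Killing pairs -/
def kilS : Submodule ℝ ((Euc n → Euc n) × (Euc n → Euc n)) where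
  carrier := {q | B.Kil q.1 q.2}
  add_mem' := fun {q r} hq hr => ⟨hq.sm.add hr.sm, hq.sm'.add hr.sm',
    fun t ht ξ => by simp [hq.hom t ht, hr.hom t ht], fun t ht ξ => by simp [hq.hom' t ht, hr.hom' t ht],
    fun p hp => by
      have := (fderiv ℝ B.F p).map_add (q.1 p.1, q.2 p.2) (r.1 p.1, r.2 p.2)
      exact this.trans ((congrArg₂ (· + ·) (hq.eq p hp) (hr.eq p hp)).trans (add_zero 0))⟩
  zero_mem' := ⟨contDiffOn_const, contDiffOn_const, fun t _ ξ => (smul_zero t).symm,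
    fun t _ ξ => (smul_zero t).symm, fun p _ => (fderiv ℝ B.F p).map_zero⟩
  smul_mem' := fun c q hq => ⟨hq.sm.const_smul c, hq.sm'.const_smul c,
    fun t ht ξ => by simp [hq.hom t ht, smul_comm c t],
    fun t ht ξ => by simp [hq.hom' t ht, smul_comm c t],
    fun p hp => by
      have := (fderiv ℝ B.F p).map_smul c (q.1 p.1, q.2 p.2)
      exact this.trans ((congrArg (c • ·) (hq.eq p hp)).trans (smul_zero c))⟩

/-- finite dimension: `(Y, Y') ↦ (Y' η₀, D Y' η₀)` is injective (`zz_del`) -/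
theorem kil_fin : ∃ (ι : Type) (_ : Fintype ι) (Y : ι → Euc n → Euc n), (∀ i, B.Kf (Y i)) ∧
    ∀ Z, B.Kf Z → ∃ c : ι → ℝ, ∀ ξ, Z ξ = ∑ i, c i • Y i ξ := by
  have hn := B.hn
  let η : Euc n := ee ⟨0, by omega⟩
  have hη : η ≠ 0 := by simp [η]
  let Λ : B.kilS →ₗ[ℝ] Euc n × (Euc n →L[ℝ] Euc n) :=
    { toFun := fun q => (q.1.2 η, fderiv ℝ q.1.2 η)
      map_add' := fun q r => Prod.ext rfl (fderiv_add (dif q.2.sm' hη) (dif r.2.sm' hη))
      map_smul' := fun c q => Prod.ext rfl (fderiv_const_smul (dif q.2.sm' hη) c) }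
  have hΛ : Function.Injective Λ := (injective_iff_map_eq_zero Λ).2 fun q hq => by
    have h1 : q.1.1 = 0 := Kil.eq_zero B q.2 hη (congrArg Prod.fst hq) (congrArg Prod.snd hq)
    have h2 : q.1.2 = 0 := Kil.eq_zero B (Kil.swap B q.2) hη (by rw [h1]; rfl)
      (by rw [h1, fderiv_zero]; rfl)
    exact Subtype.ext (Prod.ext h1 h2)
  have := FiniteDimensional.of_injective Λ hΛ
  let b := Module.finBasis ℝ B.kilS
  refine ⟨_, inferInstance, fun i => (b i).1.1, fun i => ⟨_, (b i).2⟩, fun Z ⟨Z', hZ⟩ => ?_⟩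
  refine ⟨b.repr ⟨(Z, Z'), hZ⟩, fun ξ => ?_⟩
  have h := congrArg (fun q : B.kilS => q.1.1 ξ) (b.sum_repr ⟨(Z, Z'), hZ⟩)
  simpa only [Submodule.coe_sum, Prod.fst_sum, Finset.sum_apply, Submodule.coe_smul, Prod.smul_fst,
    Pi.smul_apply] using h.symm

/-- the derivative of `MM` along a Killing pair -/
lemma Kil.fderiv_MM (h : B.Kil Y Y') {p : PE n} (hp : p ∈ GO n) (a : Euc n) :
    fderiv ℝ (fun q => MM B.F q a) p (pf Y Y' p) = -(MM B.F p (fderiv ℝ Y p.1 a)) -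
      ContinuousLinearMap.adjoint (fderiv ℝ Y' p.2) (MM B.F p a) := by
  refine ext_inner_right ℝ fun w => ?_
  have hX := pf_sm h.sm h.sm'
  have hD : ContDiffOn ℝ ∞ (fderiv ℝ Y') {0}ᶜ :=
    h.sm'.fderiv_of_isOpen isOpen_compl_singleton (by simp)
  have e1 : EqOn (dX (pf Y Y') (d2 w B.F)) (fun q => -⟪zz B.F q, fderiv ℝ Y' q.2 w⟫) (GO n) :=
    fun q hq => by
    have h1 := comm_const isOpen_GO hX B.sm hq (0, w)
    rw [fderiv_congr_open isOpen_GO (f := dX (pf Y Y') B.F) (g := fun _ => 0) h.eq hq,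
      fderiv_pf h.sm h.sm' hq] at h1
    simp only [fderiv_fun_const, Pi.zero_apply, zero_apply, map_zero] at h1
    simp only [inner_zz]
    exact eq_neg_of_add_eq_zero_left h1.symm
  have h2 := comm_const isOpen_GO hX (d2_sm isOpen_GO B.sm w) hp (a, 0)
  have d1 := (sm_dif isOpen_GO (zz_sm isOpen_GO B.sm) hp).hasFDerivAt
  have d2' : HasFDerivAt (fun q : PE n => fderiv ℝ Y' q.2 w) _ p :=
    ((sm_dif isOpen_compl_singleton (hD.clm_apply (contDiffOn_const (c := w)))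
    hp.2.1).hasFDerivAt).comp p (hasFDerivAt_snd (𝕜 := ℝ))
  have e2 : EqOn (fun q => fderiv ℝ (d2 w B.F) q (a, 0)) (fun q => ⟪MM B.F q a, w⟫) (GO n) :=
    fun q hq => (inner_MM isOpen_GO B.sm hq a w).symm
  have d3 := (sm_dif isOpen_GO ((MM_sm isOpen_GO B.sm).clm_apply (contDiffOn_const (c := a)))
    hp).hasFDerivAt.inner ℝ (hasFDerivAt_const w p)
  rw [fderiv_congr_open isOpen_GO e1 hp, (d1.inner ℝ d2').fun_neg.fderiv, dX_congr isOpen_GO e2 hp,
    fderiv_pf h.sm h.sm' hp, map_zero, ← inner_MM isOpen_GO B.sm hp, dX, d3.fderiv] at h2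
  rw [inner_sub_left, inner_neg_left, ContinuousLinearMap.adjoint_inner_left]
  simp only [neg_apply, ContinuousLinearMap.comp_apply, ContinuousLinearMap.prod_apply,
    fderivInnerCLM_apply, ContinuousLinearMap.coe_snd', map_zero, inner_zero_right, zero_add,
    zero_apply] at h2
  have e3 : fderiv ℝ (zz B.F) p (a, 0) = MM B.F p a := rfl
  rw [e3] at h2
  linarith

/-- the two divergences add up to zero -/
lemma Kil.div_add (h : B.Kil Y Y') {p : PE n} (hp : p ∈ GO n) :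
    ((B.ρ p.1)⁻¹ * fderiv ℝ B.ρ p.1 (Y p.1) +
      LinearMap.trace ℝ (Euc n) (fderiv ℝ Y p.1 : Euc n →ₗ[ℝ] Euc n)) +
    ((B.ρ p.2)⁻¹ * fderiv ℝ B.ρ p.2 (Y' p.2) +
      LinearMap.trace ℝ (Euc n) (fderiv ℝ Y' p.2 : Euc n →ₗ[ℝ] Euc n)) = 0 := by
  set D : PE n → ℝ := fun q => (Matrix.of fun i j : Fin n => MM B.F q (ee j) i).det with hD
  have hc : ∀ j, ContDiffOn ℝ ∞ (fun q => MM B.F q (ee j)) (GO n) := fun j =>
    (MM_sm isOpen_GO B.sm).clm_apply contDiffOn_const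
  have hDs : DifferentiableAt ℝ D p := by
    simp only [hD, Matrix.det_apply', Matrix.of_apply]
    refine DifferentiableAt.fun_sum fun σ _ => DifferentiableAt.const_mul ?_ _
    exact (HasFDerivAt.finsetProd fun i _ => (EuclideanSpace.proj (σ i) : Euc n →L[ℝ] ℝ).hasFDerivAt.comp
      p (sm_dif isOpen_GO (hc i) hp).hasFDerivAt).differentiableAt
  have hpos : ∀ q ∈ GO n, |D q| = B.F q ^ ((n : ℝ) - B.h) * B.ρ q.1 * B.ρ q.2 := fun q hq => by
    rw [hD]; simp only [det_cols]; exact B.det_eq hq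
  have hne : D p ≠ 0 := abs_pos.1 (by
    rw [hpos p hp]
    exact mul_pos (mul_pos (Real.rpow_pos_of_pos (B.pos p hp) _) (B.ρpos _ hp.1)) (B.ρpos _ hp.2.1))
  set A : Euc n →L[ℝ] Euc n := -(MM B.F p ∘L (fderiv ℝ Y p.1 ∘L B.Mi p)) -
    ContinuousLinearMap.adjoint (fderiv ℝ Y' p.2) with hA
  have h1 : fderiv ℝ D p (pf Y Y' p) =
      LinearMap.trace ℝ (Euc n) (A : Euc n →ₗ[ℝ] Euc n) * D p := by
    rw [hD, fderiv_det fun j => sm_dif isOpen_GO (hc j) hp, ← sum_det_update]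
    refine Finset.sum_congr rfl fun k _ => ?_
    rw [h.fderiv_MM B hp, hA]
    simp only [sub_apply, neg_apply, ContinuousLinearMap.comp_apply, B.Mi_MM hp]
  have h2 : LinearMap.trace ℝ (Euc n) (A : Euc n →ₗ[ℝ] Euc n) =
      -LinearMap.trace ℝ (Euc n) (fderiv ℝ Y p.1 : Euc n →ₗ[ℝ] Euc n) -
        LinearMap.trace ℝ (Euc n) (fderiv ℝ Y' p.2 : Euc n →ₗ[ℝ] Euc n) := by
    rw [hA, ContinuousLinearMap.toLinearMap_sub, ContinuousLinearMap.toLinearMap_neg, map_sub, map_neg,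
      trace_adj, ContinuousLinearMap.toLinearMap_comp, LinearMap.trace_comp_comm']
    congr 3
    ext1 v
    simp [B.Mi_MM hp]
  have e : EqOn (fun q => Real.log (D q)) (fun q => ((n : ℝ) - B.h) * Real.log (B.F q) +
      Real.log (B.ρ q.1) + Real.log (B.ρ q.2)) (GO n) := fun q hq => by
    have a1 := Real.rpow_pos_of_pos (B.pos q hq) ((n : ℝ) - B.h)
    have a2 := B.ρpos _ hq.1
    simp only
    rw [← Real.log_abs, hpos q hq, Real.log_mul (mul_pos a1 a2).ne' (B.ρpos _ hq.2.1).ne',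
      Real.log_mul a1.ne' a2.ne', Real.log_rpow (B.pos q hq)]
  have d0 := ((sm_dif isOpen_GO B.sm hp).hasFDerivAt.log (B.pos p hp).ne').const_mul ((n : ℝ) - B.h)
  have d1 : HasFDerivAt (fun q : PE n => Real.log (B.ρ q.1)) _ p :=
    ((sm_dif isOpen_compl_singleton B.ρsm hp.1).hasFDerivAt.comp p
      (hasFDerivAt_fst (𝕜 := ℝ))).log (B.ρpos _ hp.1).ne'
  have d2' : HasFDerivAt (fun q : PE n => Real.log (B.ρ q.2)) _ p :=
    ((sm_dif isOpen_compl_singleton B.ρsm hp.2.1).hasFDerivAt.comp p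
      (hasFDerivAt_snd (𝕜 := ℝ))).log (B.ρpos _ hp.2.1).ne'
  have h3 := DFunLike.congr_fun (fderiv_congr_open isOpen_GO e hp) (pf Y Y' p)
  have h4 : fderiv ℝ B.F p (pf Y Y' p) = 0 := h.eq p hp
  rw [(hDs.hasFDerivAt.log hne).fderiv, ((d0.fun_add d1).fun_add d2').fderiv] at h3
  simp only [add_apply, smul_apply, smul_eq_mul, h1, h4, mul_zero, zero_add,
    ContinuousLinearMap.comp_apply, ContinuousLinearMap.coe_fst', ContinuousLinearMap.coe_snd',
    Function.comp_apply] at h3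
  rw [mul_comm _ (D p), inv_mul_cancel_left₀ hne, h2] at h3
  simp only [pf] at h3
  linarith

/-- constant divergence -/
theorem Kil.div (h : B.Kil Y Y') : ∃ κ : ℝ, ∀ ξ, ξ ≠ 0 → fderiv ℝ B.ρ ξ (Y ξ) +
    B.ρ ξ * LinearMap.trace ℝ (Euc n) (fderiv ℝ Y ξ : Euc n →ₗ[ℝ] Euc n) = κ * B.ρ ξ := by
  have hn := B.hn
  let a : Euc n := ee ⟨0, by omega⟩
  have ha : a ≠ 0 := by simp [a]
  refine ⟨(B.ρ a)⁻¹ * fderiv ℝ B.ρ a (Y a) +
    LinearMap.trace ℝ (Euc n) (fderiv ℝ Y a : Euc n →ₗ[ℝ] Euc n), fun ξ hξ => ?_⟩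
  obtain ⟨η, -, h1, h2⟩ := exists_mem_sl hn isOpen_univ univ_nonempty ha hξ
  have e1 := h.div_add B (p := (a, η)) (GO_symm h1)
  have e2 := h.div_add B (p := (ξ, η)) (GO_symm h2)
  have e3 := add_right_cancel (e1.trans e2.symm)
  simp only at e3
  rw [e3]
  have := (B.ρpos ξ hξ).ne'
  field_simp

end Cone

end Crest.Agent.N221.K
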