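import Crest.Agent.N221.K.Gen

/-! Row 221, block K: calculus of `itr` and algebra of `PolN` (leaf K-Itr). -/

set_option autoImplicit false
set_option linter.unusedSectionVars false
set_option linter.unusedVariables false

open Set Filter Topology
open scoped ContDiff

noncomputable section

namespace Crest.Agent.N221.K

variable {V W V' W' : Type} [NormedAddCommGroup V] [NormedSpace ℝ V] [NormedAddCommGroup W]
  [NormedSpace ℝ W] [NormedAddCommGroup V'] [NormedSpace ℝ V'] [NormedAddCommGroup W']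
  [NormedSpace ℝ W'] {Ω : Set V} {N : V → W →L[ℝ] V} {A : Set W} {f g : V → ℝ} {X Y : V → V}
  {p : V} {w : W} {k l : ℕ}

lemma nprod_cons (w : W) (ws : List W) : nprod (w :: ws) = ‖w‖ * nprod ws := by
  simp [nprod]

lemma nprod_nonneg (ws : List W) : 0 ≤ nprod ws := by
  induction ws with
  | nil => simp [nprod]
  | cons w ws ih => rw [nprod_cons]; positivity

/-- termwise bound -/
lemma nprod_map_le (ws : List W) (Λ : W → W') {c : ℝ} (hc : 0 ≤ c)
    (h : ∀ w ∈ ws, ‖Λ w‖ ≤ c * ‖w‖) : nprod (ws.map Λ) ≤ c ^ ws.length * nprod ws := by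
  induction ws with
  | nil => simp [nprod]
  | cons w ws ih =>
    rw [List.map_cons, nprod_cons, nprod_cons, List.length_cons, pow_succ]
    refine (mul_le_mul (h w (by simp)) (ih fun v hv => h v (by simp [hv])) (nprod_nonneg _)
      (by positivity)).trans (le_of_eq ?_)
    ring

lemma itr_append (ws ws' : List W) (f : V → ℝ) :
    itr N (ws ++ ws') f = itr N ws' (itr N ws f) := by
  induction ws generalizing f with
  | nil => rfl
  | cons w ws ih => rw [List.cons_append, itr_cons, itr_cons, ih]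

variable (hΩ : IsOpen Ω)
include hΩ

lemma sm_dif {F : Type} [NormedAddCommGroup F] [NormedSpace ℝ F] {u : V → F}
    (hu : ContDiffOn ℝ ∞ u Ω) (hp : p ∈ Ω) : DifferentiableAt ℝ u p :=
  (hu.contDiffAt (hΩ.mem_nhds hp)).differentiableAt (by simp)

lemma dX_sm (hX : ContDiffOn ℝ ∞ X Ω) (hf : ContDiffOn ℝ ∞ f Ω) : ContDiffOn ℝ ∞ (dX X f) Ω :=
  (hf.fderiv_of_isOpen hΩ (by simp)).clm_apply hX

lemma fderiv_congr_open (h : EqOn f g Ω) (hp : p ∈ Ω) : fderiv ℝ f p = fderiv ℝ g p :=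
  Filter.EventuallyEq.fderiv_eq (Filter.eventuallyEq_of_mem (hΩ.mem_nhds hp) h)

lemma dX_congr (h : EqOn f g Ω) : EqOn (dX X f) (dX X g) Ω := fun p hp => by
  rw [dX, dX, fderiv_congr_open hΩ h hp]

/-- commutator of two derivatives -/
lemma dX_comm (hX : ContDiffOn ℝ ∞ X Ω) (hY : ContDiffOn ℝ ∞ Y Ω) (hf : ContDiffOn ℝ ∞ f Ω)
    (hp : p ∈ Ω) :
    dX X (dX Y f) p - dX Y (dX X f) p = fderiv ℝ f p (VectorField.lieBracket ℝ X Y p) :=
  (VectorField.fderiv_apply_lieBracket (hf.contDiffAt (hΩ.mem_nhds hp))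
    (by simp only [minSmoothness_of_isRCLikeNormedField]; exact ENat.LEInfty.out)
    (sm_dif hΩ hY hp) (sm_dif hΩ hX hp)).symm

lemma dN_congr (h : EqOn f g Ω) : EqOn (dN N w f) (dN N w g) Ω := fun p hp => by
  rw [dN, dN, fderiv_congr_open hΩ h hp]

lemma itr_congr (ws : List W) (h : EqOn f g Ω) : EqOn (itr N ws f) (itr N ws g) Ω := by
  induction ws generalizing f g with
  | nil => exact h
  | cons w ws ih => exact ih (dN_congr hΩ h)

lemma dN_zero (h : ∀ p ∈ Ω, f p = 0) (hp : p ∈ Ω) : dN N w f p = 0 := by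
  rw [dN_congr (g := fun _ => 0) hΩ h hp, dN]
  simp

lemma itr_zero (ws : List W) (h : ∀ p ∈ Ω, f p = 0) (hp : p ∈ Ω) : itr N ws f p = 0 := by
  induction ws generalizing f with
  | nil => exact h p hp
  | cons w ws ih => exact ih fun q hq => dN_zero hΩ h hq

lemma PolN.congr (h : PolN Ω N A k f) (e : EqOn f g Ω) : PolN Ω N A k g := by
  induction k generalizing f g with
  | zero => exact fun p hp => (e hp).symm.trans (h p hp)
  | succ k ih => exact ⟨h.1.congr fun p hp => (e hp).symm, fun w hw => ih (h.2 w hw) (dN_congr hΩ e)⟩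

lemma PolN.sm (h : PolN Ω N A k f) : ContDiffOn ℝ ∞ f Ω := by
  cases k with
  | zero => exact (contDiffOn_const (c := (0 : ℝ))).congr h
  | succ k => exact h.1

lemma dN_add (hf : ContDiffOn ℝ ∞ f Ω) (hg : ContDiffOn ℝ ∞ g Ω) :
    EqOn (dN N w fun q => f q + g q) (fun q => dN N w f q + dN N w g q) Ω := fun p hp => by
  simp only [dN]
  rw [fderiv_fun_add (sm_dif hΩ hf hp) (sm_dif hΩ hg hp)]
  rfl

lemma dN_cmul (c : ℝ) (hf : ContDiffOn ℝ ∞ f Ω) :
    EqOn (dN N w fun q => c * f q) (fun q => c * dN N w f q) Ω := fun p hp => by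
  simp only [dN]
  rw [fderiv_const_mul (sm_dif hΩ hf hp)]
  rfl

lemma dN_mul (hf : ContDiffOn ℝ ∞ f Ω) (hg : ContDiffOn ℝ ∞ g Ω) :
    EqOn (dN N w fun q => f q * g q) (fun q => dN N w f q * g q + f q * dN N w g q) Ω :=
  fun p hp => by
  simp only [dN]
  rw [fderiv_fun_mul (sm_dif hΩ hf hp) (sm_dif hΩ hg hp)]
  simp only [add_apply, smul_apply, smul_eq_mul]
  ring

variable (hN : ContDiffOn ℝ ∞ N Ω)
include hN

lemma dN_sm (hf : ContDiffOn ℝ ∞ f Ω) : ContDiffOn ℝ ∞ (dN N w f) Ω :=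
  (hf.fderiv_of_isOpen hΩ (by simp)).clm_apply (hN.clm_apply contDiffOn_const)

lemma itr_sm (ws : List W) (hf : ContDiffOn ℝ ∞ f Ω) : ContDiffOn ℝ ∞ (itr N ws f) Ω := by
  induction ws generalizing f with
  | nil => exact hf
  | cons w ws ih => exact ih (dN_sm hΩ hN hf)

lemma itr_add (ws : List W) (hf : ContDiffOn ℝ ∞ f Ω) (hg : ContDiffOn ℝ ∞ g Ω) (hp : p ∈ Ω) :
    itr N ws (fun q => f q + g q) p = itr N ws f p + itr N ws g p := by
  induction ws generalizing f g with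
  | nil => rfl
  | cons w ws ih =>
    rw [itr_cons, itr_congr hΩ ws (dN_add hΩ hf hg) hp]
    exact ih (dN_sm hΩ hN hf) (dN_sm hΩ hN hg)

lemma itr_cmul (ws : List W) (c : ℝ) (hf : ContDiffOn ℝ ∞ f Ω) (hp : p ∈ Ω) :
    itr N ws (fun q => c * f q) p = c * itr N ws f p := by
  induction ws generalizing f with
  | nil => rfl
  | cons w ws ih =>
    rw [itr_cons, itr_congr hΩ ws (dN_cmul hΩ c hf) hp]
    exact ih (dN_sm hΩ hN hf)

lemma itr_sum {ι : Type} (s : Finset ι) (ws : List W) (c : ι → ℝ) {F : ι → V → ℝ}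
    (hf : ∀ i ∈ s, ContDiffOn ℝ ∞ (F i) Ω) (hp : p ∈ Ω) :
    itr N ws (fun q => ∑ i ∈ s, c i * F i q) p = ∑ i ∈ s, c i * itr N ws (F i) p := by
  classical
  induction s using Finset.induction_on with
  | empty => simpa using itr_zero hΩ ws (f := fun _ => 0) (fun _ _ => rfl) hp
  | insert a s ha ih =>
    have hs : ∀ i ∈ s, ContDiffOn ℝ ∞ (F i) Ω := fun i hi => hf i (Finset.mem_insert_of_mem hi)
    have h1 := hf a (Finset.mem_insert_self a s)
    simp only [Finset.sum_insert ha]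
    rw [itr_add hΩ hN ws (f := fun q => c a * F a q) (g := fun q => ∑ i ∈ s, c i * F i q)
      (contDiffOn_const.mul h1) (ContDiffOn.sum fun i hi => contDiffOn_const.mul (hs i hi)) hp,
      itr_cmul hΩ hN ws _ h1 hp, ih hs]

/-- naturality -/
lemma itr_nat {Ω' : Set V'} (hΩ' : IsOpen Ω') {N' : V' → W' →L[ℝ] V'}
    (hN' : ContDiffOn ℝ ∞ N' Ω') {G : V → V'} (hG : ContDiffOn ℝ ∞ G Ω) (hm : MapsTo G Ω Ω')
    (Λ : W → W') (e : ∀ p ∈ Ω, ∀ w, fderiv ℝ G p (N p w) = N' (G p) (Λ w)) {φ : V' → ℝ}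
    (hφ : ContDiffOn ℝ ∞ φ Ω') (ws : List W) (hp : p ∈ Ω) :
    itr N ws (fun q => φ (G q)) p = itr N' (ws.map Λ) φ (G p) := by
  induction ws generalizing φ with
  | nil => rfl
  | cons w ws ih =>
    have h : EqOn (dN N w fun q => φ (G q)) (fun q => dN N' (Λ w) φ (G q)) Ω := fun q hq => by
      simp only [dN]
      rw [fderiv_fun_comp q (sm_dif hΩ' hφ (hm hq)) (sm_dif hΩ hG hq),
        ContinuousLinearMap.comp_apply, e q hq]
    rw [itr_cons, itr_congr hΩ ws h hp, List.map_cons, itr_cons]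
    exact ih (dN_sm hΩ' hN' hφ)

/-- multilinear bound: induction on `k`, `dN N w f = ∑ (b.repr w i) * dN N (b i) f` -/
lemma itr_bound [FiniteDimensional ℝ W] {𝒞 : Set (V → ℝ)}
    (h𝒞 : ∀ f ∈ 𝒞, ContDiffOn ℝ ∞ f Ω ∧ ∀ w, dN N w f ∈ 𝒞) {L : Filter V} (hL : L ≤ 𝓟 Ω)
    {wt : V → ℝ} (hw : ∀ p, 0 ≤ wt p) (hb : ∀ f ∈ 𝒞, ∃ C : ℝ, ∀ᶠ p in L, |f p| ≤ C * wt p)
    (k : ℕ) (hf : f ∈ 𝒞) : ∃ C : ℝ, 0 ≤ C ∧ ∀ᶠ p in L, ∀ ws : List W, ws.length = k →
      |itr N ws f p| ≤ C * wt p * nprod ws := by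
  induction k generalizing f with
  | zero =>
    obtain ⟨C, hC⟩ := hb f hf
    refine ⟨|C|, abs_nonneg _, hC.mono fun p hp ws hws => ?_⟩
    rw [List.length_eq_zero_iff.1 hws, itr_nil, nprod, List.map_nil, List.prod_nil, mul_one]
    exact hp.trans (mul_le_mul_of_nonneg_right (le_abs_self _) (hw p))
  | succ k ih =>
    set b := Module.finBasis ℝ W with hb'
    choose C hC0 hC using fun i => ih ((h𝒞 f hf).2 (b i))
    set c : Fin (Module.finrank ℝ W) → ℝ := fun i =>
      ‖LinearMap.toContinuousLinearMap (b.coord i)‖ with hc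
    refine ⟨∑ i, c i * C i, Finset.sum_nonneg fun i _ => mul_nonneg (norm_nonneg _) (hC0 i), ?_⟩
    filter_upwards [eventually_all.2 hC, le_principal_iff.1 hL] with p hp hpΩ ws hws
    cases ws with
    | nil => simp at hws
    | cons w ws =>
      have hl : ws.length = k := by simpa using hws
      have h : EqOn (dN N w f) (fun q => ∑ i, b.repr w i * dN N (b i) f q) Ω := fun q _ => by
        simp only [dN]
        conv_lhs => rw [← b.sum_repr w]
        simp only [map_sum, map_smul, smul_eq_mul]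
      rw [itr_cons, itr_congr hΩ ws h hpΩ,
        itr_sum hΩ hN _ ws _ (fun i _ => dN_sm hΩ hN (h𝒞 f hf).1) hpΩ, nprod_cons,
        Finset.sum_mul, Finset.sum_mul]
      refine (Finset.abs_sum_le_sum_abs _ _).trans (Finset.sum_le_sum fun i _ => ?_)
      have h1 : |b.repr w i| ≤ c i * ‖w‖ :=
        (LinearMap.toContinuousLinearMap (b.coord i)).le_opNorm w
      rw [abs_mul]
      refine (mul_le_mul h1 (hp i ws hl) (abs_nonneg _)
        (mul_nonneg (norm_nonneg _) (norm_nonneg _))).trans (le_of_eq ?_)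
      ring

lemma polN_iff : PolN Ω N A k f ↔ ContDiffOn ℝ ∞ f Ω ∧ ∀ ws : List W, ws.length = k →
    (∀ w ∈ ws, w ∈ A) → ∀ p ∈ Ω, itr N ws f p = 0 := by
  induction k generalizing f with
  | zero =>
    refine ⟨fun h => ⟨h.sm hΩ, fun ws hws _ => ?_⟩, fun h => h.2 [] rfl (by simp)⟩
    rw [List.length_eq_zero_iff.1 hws]
    exact h
  | succ k ih =>
    refine ⟨fun h => ⟨h.1, fun ws hws hA => ?_⟩, fun h => ⟨h.1, fun w hw => ih.2
      ⟨dN_sm hΩ hN h.1, fun ws hws hA => h.2 (w :: ws) (by simp [hws]) (by simpa using ⟨hw, hA⟩)⟩⟩⟩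
    cases ws with
    | nil => simp at hws
    | cons w ws =>
      exact (ih.1 (h.2 w (hA w (by simp)))).2 ws (by simpa using hws) fun v hv => hA v (by simp [hv])

lemma PolN.succ (h : PolN Ω N A k f) : PolN Ω N A (k + 1) f := by
  induction k generalizing f with
  | zero => exact ⟨h.sm hΩ, fun w _ p hp => dN_zero hΩ h hp⟩
  | succ k ih => exact ⟨h.1, fun w hw => ih (h.2 w hw)⟩

lemma PolN.mono (h : PolN Ω N A k f) (hk : k ≤ l) : PolN Ω N A l f := by
  induction hk with
  | refl => exact h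
  | step _ ih => exact ih.succ hΩ hN

lemma PolN.der (h : PolN Ω N A k f) (hw : w ∈ A) : PolN Ω N A k (dN N w f) :=
  (h.succ hΩ hN).2 w hw

lemma PolN.add (h : PolN Ω N A k f) (h' : PolN Ω N A k g) :
    PolN Ω N A k (fun q => f q + g q) := by
  induction k generalizing f g with
  | zero => exact fun p hp => by simp only [h p hp, h' p hp, add_zero]
  | succ k ih =>
    exact ⟨h.1.add h'.1, fun w hw =>
      (ih (h.2 w hw) (h'.2 w hw)).congr hΩ (dN_add hΩ h.1 h'.1).symm⟩

lemma PolN.cmul (c : ℝ) (h : PolN Ω N A k f) : PolN Ω N A k (fun q => c * f q) := by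
  induction k generalizing f with
  | zero => exact fun p hp => by simp only [h p hp, mul_zero]
  | succ k ih =>
    exact ⟨contDiffOn_const.mul h.1, fun w hw => (ih (h.2 w hw)).congr hΩ (dN_cmul hΩ c h.1).symm⟩

lemma PolN.sub (h : PolN Ω N A k f) (h' : PolN Ω N A k g) :
    PolN Ω N A k (fun q => f q - g q) :=
  (h.add hΩ hN (h'.cmul hΩ hN (-1))).congr hΩ fun q _ => by
    show f q + -1 * g q = f q - g q
    ring

lemma PolN.sum {ι : Type} (s : Finset ι) {F : ι → V → ℝ} (h : ∀ i ∈ s, PolN Ω N A k (F i)) :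
    PolN Ω N A k (fun q => ∑ i ∈ s, F i q) := by
  classical
  induction s using Finset.induction_on with
  | empty => exact PolN.mono (k := 0) hΩ hN (fun p _ => by simp) (Nat.zero_le k)
  | insert a s ha ih =>
    simp only [Finset.sum_insert ha]
    exact (h a (Finset.mem_insert_self a s)).add hΩ hN
      (ih fun i hi => h i (Finset.mem_insert_of_mem hi))

lemma PolN.mul (h : PolN Ω N A k f) (h' : PolN Ω N A l g) :
    PolN Ω N A (k + l) (fun q => f q * g q) := by
  induction k generalizing l f g with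
  | zero => exact PolN.mono (k := 0) hΩ hN (fun p hp => by simp only [h p hp, zero_mul]) (Nat.zero_le _)
  | succ k ihk =>
    induction l generalizing g with
    | zero =>
      exact PolN.mono (k := 0) hΩ hN (fun p hp => by simp only [h' p hp, mul_zero]) (Nat.zero_le _)
    | succ l ihl =>
      refine ⟨h.1.mul h'.1, fun w hw => PolN.congr hΩ ?_ (dN_mul hΩ h.1 h'.1).symm⟩
      have h1 := ihk (h.2 w hw) h'
      rw [show k + (l + 1) = k + 1 + l by ring] at h1
      exact h1.add hΩ hN (ihl (h'.2 w hw))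

lemma polN_const (c : ℝ) : PolN Ω N A 1 (fun _ => c) :=
  ⟨contDiffOn_const, fun w _ p _ => by simp [dN]⟩

end Crest.Agent.N221.K
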