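import Crest.Agent.N221.K.Defs
import Crest.Agent.N221.K.Itr

/-! Row 221, block K: the cone `GO`, calculus of `zz`, `MM`, `QQ` (leaf K-Bas). -/

set_option autoImplicit false
set_option linter.unusedSectionVars false
set_option linter.unusedVariables false

open Set Filter Topology
open scoped ContDiff RealInnerProductSpace
open Crest.GeometryTopology.Submanifold

noncomputable section

namespace Crest.Agent.N221.K

variable {n : ℕ} {ξ η u u' w a b : Euc n} {p : PE n} {t s : ℝ} {f : PE n → ℝ} {Ω : Set (PE n)}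
  {O : Set (Euc n)} {Y : Euc n → Euc n}

/-! ### the cone -/

lemma normalize_smul (ht : 0 < t) (ξ : Euc n) : ‖t • ξ‖⁻¹ • (t • ξ) = ‖ξ‖⁻¹ • ξ := by
  rw [norm_smul, Real.norm_of_nonneg ht.le, smul_smul, mul_inv, mul_comm t⁻¹, mul_assoc,
    inv_mul_cancel₀ ht.ne', mul_one]

lemma GO_smul (ht : 0 < t) (hs : 0 < s) (h : (ξ, η) ∈ GO n) : (t • ξ, s • η) ∈ GO n := by
  refine ⟨smul_ne_zero ht.ne' h.1, smul_ne_zero hs.ne' h.2.1, ?_⟩
  show ‖t • ξ‖⁻¹ • (t • ξ) ≠ ‖s • η‖⁻¹ • (s • η)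
  rw [normalize_smul ht, normalize_smul hs]
  exact h.2.2

lemma mem_sl_iff (hη : η ≠ 0) : ξ ∈ sl η ↔ ¬∃ r : ℝ, 0 ≤ r ∧ ξ = r • η := by
  constructor
  · rintro ⟨h1, -, h3⟩ ⟨r, hr, e⟩
    have hr' : 0 < r := lt_of_le_of_ne hr (by rintro rfl; exact h1 (by simpa using e))
    apply h3
    show ‖ξ‖⁻¹ • ξ = ‖η‖⁻¹ • η
    rw [e, normalize_smul hr']
  · intro h
    have h1 : ξ ≠ 0 := fun e => h ⟨0, le_rfl, by simpa using e⟩
    refine ⟨h1, hη, fun e => h ⟨‖ξ‖ * ‖η‖⁻¹, by positivity, ?_⟩⟩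
    have e' : ‖ξ‖⁻¹ • ξ = ‖η‖⁻¹ • η := e
    rw [← smul_smul, ← e', smul_smul, mul_inv_cancel₀ (norm_ne_zero_iff.2 h1), one_smul]

lemma isOpen_sl (η : Euc n) : IsOpen (sl η) :=
  Cov.isOpen_GO.preimage (f := fun ξ : Euc n => (ξ, η)) (by fun_prop)

lemma sl_sub (η : Euc n) : sl η ⊆ {0}ᶜ := fun _ h => h.1

/-- star shaped about `-η` -/
lemma isPreconnected_sl (hη : η ≠ 0) : IsPreconnected (sl η) := by
  have h0 : -η ∈ sl η := by
    rw [mem_sl_iff hη]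
    rintro ⟨r, hr, e⟩
    have : (r + 1) • η = 0 := by rw [add_smul, ← e, one_smul, neg_add_cancel]
    rcases smul_eq_zero.1 this with h | h
    · linarith
    · exact hη h
  have hst : StarConvex ℝ (-η) (sl η) := by
    intro y hy c d hc hd hcd
    rw [mem_sl_iff hη] at hy ⊢
    rintro ⟨r, hr, e⟩
    rcases hd.eq_or_lt with rfl | hd'
    · have hc1 : c = 1 := by linarith
      rw [hc1, one_smul, zero_smul, add_zero] at e
      exact (mem_sl_iff hη).1 h0 ⟨r, hr, e⟩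
    · refine hy ⟨d⁻¹ * (r + c), by positivity, ?_⟩
      have e2 : d • y = (r + c) • η := by
        rw [add_smul, ← e, smul_neg]; abel
      rw [← smul_smul, ← e2, smul_smul, inv_mul_cancel₀ hd'.ne', one_smul]
  exact (hst.isPathConnected h0).isConnected.isPreconnected

lemma isOpen_Om (hO : IsOpen O) : IsOpen (Om O) :=
  Cov.isOpen_GO.inter (hO.preimage continuous_snd)

lemma Om_compl : Om ({0}ᶜ : Set (Euc n)) = GO n :=
  Set.ext fun _ => ⟨fun h => h.1, fun h => ⟨h, h.2.1⟩⟩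

lemma isPreconnected_ne (hn : 3 ≤ n) : IsPreconnected ({0}ᶜ : Set (Euc n)) := by
  refine (isConnected_compl_singleton_of_one_lt_rank ?_ 0).isPreconnected
  rw [← Module.finrank_eq_rank, finrank_euclideanSpace_fin]
  exact_mod_cast (by omega : 1 < n)

/-- the complement of a plane is dense -/
lemma dense_plane (hn : 3 ≤ n) (a b : Euc n) : Dense {ξ : Euc n | ∀ r s : ℝ, ξ ≠ r • a + s • b} := by
  classical
  have e : {ξ : Euc n | ∀ r s : ℝ, ξ ≠ r • a + s • b} =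
      ((Submodule.span ℝ ({a, b} : Set (Euc n)) : Submodule ℝ (Euc n)) : Set (Euc n))ᶜ := by
    ext ξ
    simp only [mem_ofPred_eq, mem_compl_iff, SetLike.mem_coe, Submodule.mem_span_pair, not_exists]
    exact ⟨fun h r s e => h r s e.symm, fun h r s e => h r s e.symm⟩
  rw [e, ← interior_eq_empty_iff_dense_compl]
  by_contra hne
  have htop := Submodule.eq_top_of_nonempty_interior' _ (Set.nonempty_iff_ne_empty.2 hne)
  have h1 := finrank_span_finset_le_card (R := ℝ) ({a, b} : Finset (Euc n))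
  have h2 : (({a, b} : Finset (Euc n)) : Set (Euc n)) = {a, b} := by simp
  rw [h2, Set.finrank, htop, finrank_top, finrank_euclideanSpace_fin] at h1
  have h3 : ({a, b} : Finset (Euc n)).card ≤ 2 := Finset.card_le_two
  omega

lemma mem_sl_of_plane (ha : a ≠ 0) (hb : b ≠ 0) (h : ∀ r s : ℝ, ξ ≠ r • a + s • b) :
    ξ ∈ sl a ∧ ξ ∈ sl b := by
  rw [mem_sl_iff ha, mem_sl_iff hb]
  exact ⟨fun ⟨r, _, e⟩ => h r 0 (by simpa using e), fun ⟨r, _, e⟩ => h 0 r (by simpa using e)⟩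

lemma exists_mem_sl (hn : 3 ≤ n) (hO : IsOpen O) (hne : O.Nonempty) (ha : a ≠ 0) (hb : b ≠ 0) :
    ∃ ξ ∈ O, ξ ∈ sl a ∧ ξ ∈ sl b := by
  obtain ⟨ξ, h1, h2⟩ := (dense_plane hn a b).inter_open_nonempty O hO hne
  exact ⟨ξ, h1, mem_sl_of_plane ha hb h2⟩

lemma prj_mem (hη : η ≠ 0) (w : Euc n) : prj η w ∈ perp η := by
  have h : ‖η‖ ^ 2 ≠ 0 := pow_ne_zero _ (norm_ne_zero_iff.2 hη)
  show ⟪w - (⟪w, η⟫ / ‖η‖ ^ 2) • η, η⟫ = 0
  rw [inner_sub_left, real_inner_smul_left, real_inner_self_eq_norm_sq, div_mul_cancel₀ _ h,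
    sub_self]

lemma prj_of_mem (h : w ∈ perp η) : prj η w = w := by
  have h' : ⟪w, η⟫ = 0 := h
  rw [prj, h', zero_div, zero_smul, sub_zero]

lemma norm_prj_le (η w : Euc n) : ‖prj η w‖ ≤ ‖w‖ := by
  by_cases hη : η = 0
  · simp [prj, hη]
  have h1 : ⟪prj η w, (⟪w, η⟫ / ‖η‖ ^ 2) • η⟫ = 0 := by
    have h2 : ⟪prj η w, η⟫ = 0 := prj_mem hη w
    rw [real_inner_smul_right, h2, mul_zero]
  have h3 := norm_add_sq_real (prj η w) ((⟪w, η⟫ / ‖η‖ ^ 2) • η)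
  rw [h1, show prj η w + (⟪w, η⟫ / ‖η‖ ^ 2) • η = w from sub_add_cancel _ _] at h3
  exact le_of_sq_le_sq (by nlinarith [sq_nonneg ‖(⟪w, η⟫ / ‖η‖ ^ 2) • η‖]) (norm_nonneg _)

lemma sum_ee (w : Euc n) : ∑ i, w i • ee i = w := by
  ext j
  simp [Finset.sum_apply, Pi.single_apply]

lemma sum_prj (η w : Euc n) : ∑ i, w i • prj η (ee i) = prj η w := by
  have h1 : ⟪w, η⟫ = ∑ i, w i * ⟪ee i, η⟫ := by
    conv_lhs => rw [← sum_ee w, sum_inner]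
    simp only [real_inner_smul_left]
  simp only [prj, smul_sub, Finset.sum_sub_distrib, sum_ee, smul_smul]
  rw [← Finset.sum_smul, h1, Finset.sum_div]
  simp only [mul_div_assoc]

lemma contDiffOn_prj (w : Euc n) : ContDiffOn ℝ ∞ (fun η => prj η w) {0}ᶜ := by
  have h1 : ContDiffOn ℝ ∞ (fun η : Euc n => ⟪w, η⟫ / ‖η‖ ^ 2) {0}ᶜ :=
    ContDiffOn.div (contDiff_const.inner ℝ contDiff_id).contDiffOn
      (contDiff_norm_sq ℝ).contDiffOn fun η hη => pow_ne_zero _ (norm_ne_zero_iff.2 hη)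
  exact contDiffOn_const.sub (h1.smul contDiffOn_id)

lemma Hom1.zero (h : Hom1 Y) : Y 0 = 0 := by
  have h1 := h 2 (by norm_num) 0
  rw [smul_zero, two_smul] at h1
  simpa using h1

lemma Hom1.euler (h : Hom1 Y) (hd : DifferentiableAt ℝ Y ξ) : fderiv ℝ Y ξ ξ = Y ξ := by
  have h1 : HasDerivAt (fun r : ℝ => r • ξ) ξ 1 := by
    simpa using (hasDerivAt_id (1 : ℝ)).smul_const ξ
  have h2 : HasFDerivAt Y (fderiv ℝ Y ξ) ((fun r : ℝ => r • ξ) 1) := by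
    simpa using hd.hasFDerivAt
  have h3 := h2.comp_hasDerivAt (1 : ℝ) h1
  have h4 : HasDerivAt (fun r : ℝ => r • Y ξ) (Y ξ) 1 := by
    simpa using (hasDerivAt_id (1 : ℝ)).smul_const (Y ξ)
  refine h3.unique (h4.congr_of_eventuallyEq ?_)
  filter_upwards [lt_mem_nhds (zero_lt_one' ℝ)] with r hr using h r hr ξ

lemma Hom1.fderiv_smul (h : Hom1 Y) (ht : 0 < t) (ξ : Euc n) :
    fderiv ℝ Y (t • ξ) = fderiv ℝ Y ξ := by
  have h1 : (fun x => Y (t • x)) = t • Y := funext fun x => h t ht x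
  have h2 := fderiv_comp_smul (𝕜 := ℝ) (f := Y) (x := ξ) t
  rw [h1, fderiv_const_smul_field] at h2
  exact (smul_right_injective _ ht.ne' h2).symm

/-! ### calculus -/

lemma slice_sm (hf : ContDiffOn ℝ ∞ f Ω) (η : Euc n) :
    ContDiffOn ℝ ∞ (fun ξ => f (ξ, η)) {ξ | (ξ, η) ∈ Ω} :=
  hf.comp (contDiff_id.prodMk contDiff_const).contDiffOn fun _ h => h

lemma fderiv_slice (hf : DifferentiableAt ℝ f (ξ, η)) (a : Euc n) :
    fderiv ℝ (fun ξ => f (ξ, η)) ξ a = fderiv ℝ f (ξ, η) (a, 0) := by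
  have h := hf.hasFDerivAt.comp ξ (hasFDerivAt_prodMk_left (𝕜 := ℝ) ξ η)
  rw [show (fun ξ => f (ξ, η)) = f ∘ fun ξ => (ξ, η) from rfl, h.fderiv]
  rfl

lemma fderiv_slice₂ (hf : DifferentiableAt ℝ f (ξ, η)) (b : Euc n) :
    fderiv ℝ (fun η => f (ξ, η)) η b = fderiv ℝ f (ξ, η) (0, b) := by
  have h := hf.hasFDerivAt.comp η (hasFDerivAt_prodMk_right (𝕜 := ℝ) ξ η)
  rw [show (fun η => f (ξ, η)) = f ∘ fun η => (ξ, η) from rfl, h.fderiv]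
  rfl

lemma zz_apply (f : PE n → ℝ) (p : PE n) (i : Fin n) : zz f p i = d2 (ee i) f p := by
  rw [d2, ← inner_zz, EuclideanSpace.inner_single_right]
  simp

lemma d2_sm (hΩ : IsOpen Ω) (hf : ContDiffOn ℝ ∞ f Ω) (u : Euc n) :
    ContDiffOn ℝ ∞ (d2 u f) Ω :=
  dX_sm (X := fun _ => (0, u)) hΩ contDiffOn_const hf

lemma zz_sm (hΩ : IsOpen Ω) (hf : ContDiffOn ℝ ∞ f Ω) : ContDiffOn ℝ ∞ (zz f) Ω := by
  rw [contDiffOn_euclidean]
  intro i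
  exact (d2_sm hΩ hf (ee i)).congr fun p _ => zz_apply f p i

lemma MM_sm (hΩ : IsOpen Ω) (hf : ContDiffOn ℝ ∞ f Ω) : ContDiffOn ℝ ∞ (MM f) Ω :=
  ((zz_sm hΩ hf).fderiv_of_isOpen hΩ (by simp)).clm_comp contDiffOn_const

lemma inner_fderiv_zz (hΩ : IsOpen Ω) (hf : ContDiffOn ℝ ∞ f Ω) (hp : p ∈ Ω) (v : PE n)
    (w : Euc n) : ⟪fderiv ℝ (zz f) p v, w⟫ = fderiv ℝ (d2 w f) p v := by
  have h1 : d2 w f = fun q => ⟪zz f q, w⟫ := funext fun q => (inner_zz f q w).symm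
  have h2 := (sm_dif hΩ (zz_sm hΩ hf) hp).hasFDerivAt.inner ℝ (hasFDerivAt_const w p)
  rw [h1, h2.fderiv]
  simp

lemma inner_MM (hΩ : IsOpen Ω) (hf : ContDiffOn ℝ ∞ f Ω) (hp : p ∈ Ω) (a w : Euc n) :
    ⟪MM f p a, w⟫ = fderiv ℝ (d2 w f) p (a, 0) :=
  inner_fderiv_zz hΩ hf hp (a, 0) w

/-- symmetry of second derivatives, constant directions -/
lemma fderiv_comm (hΩ : IsOpen Ω) (hf : ContDiffOn ℝ ∞ f Ω) (hp : p ∈ Ω) (v v' : PE n) :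
    fderiv ℝ (fun q => fderiv ℝ f q v) p v' = fderiv ℝ (fun q => fderiv ℝ f q v') p v := by
  have h := dX_comm (X := fun _ => v') (Y := fun _ => v) hΩ contDiffOn_const contDiffOn_const hf hp
  have h0 : VectorField.lieBracket ℝ (fun _ : PE n => v') (fun _ => v) p = 0 := by
    simp [VectorField.lieBracket]
  rw [h0, map_zero, sub_eq_zero] at h
  exact h

namespace B2

variable {E : Type} [NormedAddCommGroup E] [NormedSpace ℝ E] {g g' : PE n → E}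

/-- chain rule for a linear change of variables -/
lemma lin (hg : ContDiffOn ℝ ∞ g (GO n)) (hg' : ContDiffOn ℝ ∞ g' (GO n)) (L : PE n →L[ℝ] PE n)
    (hL : ∀ q ∈ GO n, L q ∈ GO n) {c : ℝ} (e : ∀ q ∈ GO n, g (L q) = c • g' q) (hp : p ∈ GO n)
    (v : PE n) : fderiv ℝ g (L p) (L v) = c • fderiv ℝ g' p v :=
  DFunLike.congr_fun (((sm_dif Cov.isOpen_GO hg (hL p hp)).hasFDerivAt.comp p L.hasFDerivAt).unique
    (((sm_dif Cov.isOpen_GO hg' hp).hasFDerivAt.const_smul c).congr_of_eventuallyEq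
      (eventually_of_mem (Cov.isOpen_GO.mem_nhds hp) e))) v

lemma scal (hg : ContDiffOn ℝ ∞ g (GO n)) (ht : 0 < t) (hs : 0 < s) {c : ℝ}
    (e : ∀ ξ η, (ξ, η) ∈ GO n → g (t • ξ, s • η) = c • g (ξ, η)) (h : (ξ, η) ∈ GO n)
    (a b : Euc n) : fderiv ℝ g (t • ξ, s • η) (t • a, s • b) = c • fderiv ℝ g (ξ, η) (a, b) :=
  lin hg hg ((t • ContinuousLinearMap.id ℝ (Euc n)).prodMap (s • ContinuousLinearMap.id ℝ (Euc n)))
    (fun _ hq => GO_smul ht hs hq) (fun q hq => e q.1 q.2 hq) h (a, b)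

lemma swap (hg : ContDiffOn ℝ ∞ g (GO n)) (hg' : ContDiffOn ℝ ∞ g' (GO n))
    (e : ∀ ξ η, (ξ, η) ∈ GO n → g (η, ξ) = g' (ξ, η)) (h : (ξ, η) ∈ GO n) (a b : Euc n) :
    fderiv ℝ g (η, ξ) (b, a) = fderiv ℝ g' (ξ, η) (a, b) :=
  (lin hg hg' ((ContinuousLinearMap.snd ℝ _ _).prod (ContinuousLinearMap.fst ℝ _ _)) (c := 1)
    (fun _ hq => Cov.GO_symm hq) (fun q hq => (e q.1 q.2 hq).trans (one_smul _ _).symm) h
    (a, b)).trans (one_smul _ _)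

lemma eul (hg : ContDiffOn ℝ ∞ g (GO n)) (hp : p ∈ GO n) {γ : ℝ → PE n} {v : PE n} (h1 : p = γ 1)
    (hγ : HasDerivAt γ v 1) {φ : ℝ → E} {φ' : E} (hφ : HasDerivAt φ φ' 1)
    (e : ∀ t, 0 < t → g (γ t) = φ t) : fderiv ℝ g p v = φ' :=
  ((sm_dif Cov.isOpen_GO hg hp).hasFDerivAt.comp_hasDerivAt_of_eq 1 hγ h1).unique
    (hφ.congr_of_eventuallyEq ((lt_mem_nhds one_pos).mono e))

lemma eul₁ (hg : ContDiffOn ℝ ∞ g (GO n)) (h : (ξ, η) ∈ GO n)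
    (e : ∀ t : ℝ, 0 < t → g (t • ξ, η) = t • g (ξ, η)) : fderiv ℝ g (ξ, η) (ξ, 0) = g (ξ, η) :=
  eul hg h (γ := fun t => (t • ξ, η)) (by simp)
    (by simpa using ((hasDerivAt_id (1 : ℝ)).smul_const ξ).prodMk (hasDerivAt_const 1 η))
    (by simpa using (hasDerivAt_id (1 : ℝ)).smul_const (g (ξ, η))) e

lemma eul₂ (hg : ContDiffOn ℝ ∞ g (GO n)) (h : (ξ, η) ∈ GO n) {φ : ℝ → E} {φ' : E}
    (hφ : HasDerivAt φ φ' 1) (e : ∀ t : ℝ, 0 < t → g (ξ, t • η) = φ t) :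
    fderiv ℝ g (ξ, η) (0, η) = φ' :=
  eul hg h (γ := fun t => (ξ, t • η)) (by simp)
    (by simpa using (hasDerivAt_const 1 ξ).prodMk ((hasDerivAt_id (1 : ℝ)).smul_const η)) hφ e

end B2

namespace Cone

variable (B : Cone n)

lemma hom₂ (ht : 0 < t) (h : (ξ, η) ∈ GO n) : B.F (ξ, t • η) = t * B.F (ξ, η) := by
  rw [B.symm _ _ (Cov.GO_symm (by simpa using GO_smul one_pos ht h)),
    B.hom t ht _ _ (Cov.GO_symm h), B.symm _ _ h]

lemma euler₁ (h : (ξ, η) ∈ GO n) : fderiv ℝ B.F (ξ, η) (ξ, 0) = B.F (ξ, η) :=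
  B2.eul₁ B.sm h fun t ht => B.hom t ht _ _ h

lemma euler₂ (h : (ξ, η) ∈ GO n) : fderiv ℝ B.F (ξ, η) (0, η) = B.F (ξ, η) :=
  B2.eul₂ B.sm h (by simpa using (hasDerivAt_id (1 : ℝ)).mul_const (B.F (ξ, η))) fun _ ht =>
    B.hom₂ ht h

lemma fderiv_smul (ht : 0 < t) (hs : 0 < s) (h : (ξ, η) ∈ GO n) (a b : Euc n) :
    fderiv ℝ B.F (t • ξ, s • η) (t • a, s • b) = t * s * fderiv ℝ B.F (ξ, η) (a, b) :=
  B2.scal B.sm ht hs (fun ξ η h => by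
    rw [B.hom t ht _ _ (by simpa using GO_smul one_pos hs h), B.hom₂ hs h, smul_eq_mul, mul_assoc])
    h a b

lemma fderiv_swap (h : (ξ, η) ∈ GO n) (a b : Euc n) :
    fderiv ℝ B.F (η, ξ) (b, a) = fderiv ℝ B.F (ξ, η) (a, b) :=
  B2.swap B.sm B.sm B.symm h a b

lemma zz_smul (ht : 0 < t) (hs : 0 < s) (h : (ξ, η) ∈ GO n) :
    zz B.F (t • ξ, s • η) = t • zz B.F (ξ, η) := by
  refine ext_inner_right ℝ fun w => ?_
  have := B.fderiv_smul ht hs h 0 (s⁻¹ • w)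
  rw [smul_zero, smul_inv_smul₀ hs.ne', show ((0 : Euc n), s⁻¹ • w) = s⁻¹ • ((0 : Euc n), w) by simp,
    map_smul, smul_eq_mul, mul_assoc, mul_inv_cancel_left₀ hs.ne'] at this
  rw [real_inner_smul_left, inner_zz, inner_zz, this]

lemma MM_smul (ht : 0 < t) (hs : 0 < s) (h : (ξ, η) ∈ GO n) :
    MM B.F (t • ξ, s • η) = MM B.F (ξ, η) := by
  refine ContinuousLinearMap.ext fun a => smul_right_injective _ ht.ne' ?_
  have := B2.scal (zz_sm Cov.isOpen_GO B.sm) ht hs (fun _ _ => B.zz_smul ht hs) h a 0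
  rw [smul_zero] at this
  exact ((MM B.F (t • ξ, s • η)).map_smul t a).symm.trans this

lemma Mi_smul (ht : 0 < t) (hs : 0 < s) (h : (ξ, η) ∈ GO n) :
    B.Mi (t • ξ, s • η) = B.Mi (ξ, η) := by
  rw [Mi, Mi, B.MM_smul ht hs h]

lemma MM_swap (h : (ξ, η) ∈ GO n) (a b : Euc n) :
    ⟪MM B.F (η, ξ) b, a⟫ = ⟪MM B.F (ξ, η) a, b⟫ := by
  rw [inner_MM Cov.isOpen_GO B.sm (Cov.GO_symm h), inner_MM Cov.isOpen_GO B.sm h,
    B2.swap (d2_sm Cov.isOpen_GO B.sm a) (g' := fun q => fderiv ℝ B.F q (a, 0))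
      ((B.sm.fderiv_of_isOpen Cov.isOpen_GO (by simp)).clm_apply contDiffOn_const)
      (fun _ _ h => B.fderiv_swap h a 0) h 0 b]
  exact fderiv_comm Cov.isOpen_GO B.sm h _ _

lemma MM_self (h : (ξ, η) ∈ GO n) : MM B.F (ξ, η) ξ = zz B.F (ξ, η) :=
  B2.eul₁ (zz_sm Cov.isOpen_GO B.sm) h fun t ht => by simpa using B.zz_smul ht one_pos h

/-- `⟪MM a, η⟫ = ∂_ξ F (a)` -/
lemma inner_MM_self (h : (ξ, η) ∈ GO n) (a : Euc n) :
    ⟪MM B.F (ξ, η) a, η⟫ = fderiv ℝ B.F (ξ, η) (a, 0) := by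
  rw [← B.MM_swap h, B.MM_self (Cov.GO_symm h), inner_zz, B.fderiv_swap h]

lemma det_eq (h : (ξ, η) ∈ GO n) :
    |(MM B.F (ξ, η)).det| = B.F (ξ, η) ^ ((n : ℝ) - B.h) * B.ρ ξ * B.ρ η := by
  have ht := inv_pos.2 (norm_pos_iff.2 h.1)
  have hs := inv_pos.2 (norm_pos_iff.2 h.2.1)
  have e := B.det _ _ (Cov.GO_normalize h)
  rw [B.MM_smul ht hs h, B.hom _ ht _ _ (by simpa using GO_smul one_pos hs h), B.hom₂ hs h,
    B.ρhom _ ht _ h.1, B.ρhom _ hs _ h.2.1, Real.mul_rpow ht.le (mul_pos hs (B.pos _ h)).le,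
    Real.mul_rpow hs.le (B.pos _ h).le] at e
  have k : ∀ t : ℝ, 0 < t → t ^ ((n : ℝ) - B.h) * t ^ (B.h - n) = 1 := fun t ht => by
    rw [← Real.rpow_add ht]; simp
  rw [e]
  linear_combination (B.F (ξ, η) ^ ((n : ℝ) - B.h) * B.ρ ξ * B.ρ η) *
    (‖η‖⁻¹ ^ ((n : ℝ) - B.h) * ‖η‖⁻¹ ^ (B.h - n) * k _ ht + k _ hs)

lemma MM_inv (hp : p ∈ GO n) : (MM B.F p).IsInvertible := by
  refine ⟨_, (MM B.F p).coe_toContinuousLinearEquivOfDetNeZero (abs_pos.1 ?_)⟩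
  rw [B.det_eq (ξ := p.1) (η := p.2) hp]
  exact mul_pos (mul_pos (Real.rpow_pos_of_pos (B.pos _ hp) _) (B.ρpos _ hp.1)) (B.ρpos _ hp.2.1)

lemma MM_Mi (hp : p ∈ GO n) (w : Euc n) : MM B.F p (B.Mi p w) = w :=
  (B.MM_inv hp).self_apply_inverse w

lemma Mi_MM (hp : p ∈ GO n) (a : Euc n) : B.Mi p (MM B.F p a) = a :=
  (B.MM_inv hp).inverse_apply_self a

lemma Mi_sm : ContDiffOn ℝ ∞ B.Mi (GO n) := fun p hp =>
  (B.MM_inv hp).contDiffAt_map_inverse.comp_contDiffWithinAt p (MM_sm Cov.isOpen_GO B.sm p hp)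

lemma Ns_sm (η : Euc n) : ContDiffOn ℝ ∞ (B.Ns η) (sl η) :=
  B.Mi_sm.comp (contDiff_id.prodMk contDiff_const).contDiffOn fun _ h => h

lemma Nj_sm : ContDiffOn ℝ ∞ B.Nj (GO n) := contDiffOn_const.clm_comp B.Mi_sm

lemma Nj_apply (p : PE n) (w : Euc n) : B.Nj p w = (B.Mi p w, 0) := rfl

lemma hasFDerivAt_zz (h : (ξ, η) ∈ GO n) :
    HasFDerivAt (fun ξ => zz B.F (ξ, η)) (MM B.F (ξ, η)) ξ :=
  HasFDerivAt.comp (f := fun ξ => (ξ, η)) ξ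
    (sm_dif Cov.isOpen_GO (zz_sm Cov.isOpen_GO B.sm) h).hasFDerivAt (hasFDerivAt_prodMk_left ξ η)

/-- slices: `itr_nat` for `ξ ↦ (ξ, η)` -/
lemma itr_slice (hΩ : IsOpen Ω) (hs : Ω ⊆ GO n) (hf : ContDiffOn ℝ ∞ f Ω) (h : (ξ, η) ∈ Ω)
    (ws : List (Euc n)) :
    itr (B.Ns η) ws (fun ξ => f (ξ, η)) ξ = itr B.Nj ws f (ξ, η) := by
  have := itr_nat (Ω := {ξ | (ξ, η) ∈ Ω}) (hΩ.preimage (Continuous.prodMk_left η))
    ((B.Ns_sm η).mono fun _ h => hs h) hΩ (B.Nj_sm.mono hs) (G := fun ξ => (ξ, η))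
    (contDiff_id.prodMk contDiff_const).contDiffOn (fun _ h => h) id
    (fun q _ w => by rw [(hasFDerivAt_prodMk_left q η).fderiv]; rfl) hf ws h
  rwa [List.map_id] at this

lemma QQ_sm (u u' : Euc n) : ContDiffOn ℝ ∞ (B.QQ u u') (GO n) :=
  d2_sm Cov.isOpen_GO (d2_sm Cov.isOpen_GO B.sm u') u

lemma QQ_eq (hp : p ∈ GO n) (u u' : Euc n) :
    B.QQ u u' p = ⟪fderiv ℝ (zz B.F) p (0, u), u'⟫ :=
  (inner_fderiv_zz Cov.isOpen_GO B.sm hp _ _).symm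

lemma QQ_symm (hp : p ∈ GO n) (u u' : Euc n) : B.QQ u u' p = B.QQ u' u p :=
  fderiv_comm Cov.isOpen_GO B.sm hp _ _

lemma QQ_self (h : (ξ, η) ∈ GO n) (u : Euc n) : B.QQ η u (ξ, η) = 0 := by
  rw [B.QQ_eq h, B2.eul₂ (zz_sm Cov.isOpen_GO B.sm) h (hasDerivAt_const 1 (zz B.F (ξ, η)))
    fun t ht => by simpa using B.zz_smul one_pos ht h, inner_zero_left]

lemma QQ_sub (h : (ξ, η) ∈ GO n) (u u' : Euc n) (r r' : ℝ) :
    B.QQ (u - r • η) (u' - r' • η) (ξ, η) = B.QQ u u' (ξ, η) := by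
  have k : ∀ (u u' : Euc n) (r : ℝ), B.QQ u (u' - r • η) (ξ, η) = B.QQ u u' (ξ, η) :=
    fun u u' r => by
    rw [B.QQ_eq h, inner_sub_right, real_inner_smul_right, ← B.QQ_eq h, ← B.QQ_eq h,
      B.QQ_symm h u η, B.QQ_self h, mul_zero, sub_zero]
  rw [k, B.QQ_symm h, k, B.QQ_symm h]

lemma QQ_sum (hp : p ∈ GO n) (u u' : Euc n) : B.QQ u u' p =
    ∑ ij : Fin n × Fin n, u ij.1 * u' ij.2 * B.QQ (ee ij.1) (ee ij.2) p := by
  have k : ∀ u u' : Euc n, B.QQ u u' p = ∑ j, u' j * B.QQ u (ee j) p := fun u u' => by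
    conv_lhs => rw [B.QQ_eq hp, ← (EuclideanSpace.basisFun (Fin n) ℝ).sum_repr u', inner_sum]
    refine Finset.sum_congr rfl fun j _ => ?_
    rw [real_inner_smul_right, B.QQ_eq hp, EuclideanSpace.basisFun_apply,
      EuclideanSpace.basisFun_repr]
  rw [Fintype.sum_prod_type, B.QQ_symm hp, k]
  refine Finset.sum_congr rfl fun i _ => ?_
  rw [B.QQ_symm hp, k, Finset.mul_sum]
  exact Finset.sum_congr rfl fun j _ => (mul_assoc _ _ _).symm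

lemma QQ_hom (η u u' : Euc n) : HomD 1 η fun ξ => B.QQ u u' (ξ, η) := fun t ht ξ h => by
  have := B2.scal (zz_sm Cov.isOpen_GO B.sm) ht one_pos (fun _ _ => B.zz_smul ht one_pos) h 0 u
  rw [one_smul, one_smul, smul_zero] at this
  beta_reduce
  rw [B.QQ_eq (by simpa using GO_smul ht one_pos h), B.QQ_eq h, this, real_inner_smul_left,
    Real.rpow_one]

end Cone

end Crest.Agent.N221.K
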