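import Crest.Agent.N221.K.Gen
import Crest.Agent.N221.D.Chart

/-!
Row 221, block K (helper11): Killing pairs at infinity, steps P1-P4, in the CONE model.

The cone over the boundary is `Euc n ∖ 0`; `F (ξ, η) = |ξ| |η| exp (-cc ξ η)` is homogeneous of
degree `(1, 1)` on `GO n`, deck maps act by `ξ ↦ |ξ| exp (be g ξ) • act g ξ` and preserve `F`.

* `zz f = ∇_η f`, `MM f = ∂_ξ ∇_η f`, `d2 u f = ∂_η f (u)`, `QQ u u' = ∂²_η F (u, u')`,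
* `Ns η ξ w = (MM F (ξ, η))⁻¹ w`: the field on the slice `sl η` which moves `zz F (·, η)` by `w`,
* `Pol η k g`: `g` is a polynomial of degree `< k` in `zz F (·, η)` on the level sets of `F (·, η)`,
* `Kil Y Y'`: `dF (Y, Y') = 0`; `ext Y'` the only candidate for `Y`; `DD Y'` its `η`-derivative.
-/

set_option autoImplicit false

open Set Filter Topology
open scoped ContDiff RealInnerProductSpace
open Crest.GeometryTopology.Submanifold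

noncomputable section

namespace Crest.Agent.N221.K

/-- pairs of vectors -/
abbrev PE (n : ℕ) := Euc n × Euc n

variable {n : ℕ}

/-- basis vector -/
abbrev ee (i : Fin n) : Euc n := EuclideanSpace.single i (1 : ℝ)

/-- gradient in the second variable -/
def zz (f : PE n → ℝ) (p : PE n) : Euc n :=
  (InnerProductSpace.toDual ℝ (Euc n)).symm
    (fderiv ℝ f p ∘L ContinuousLinearMap.inr ℝ (Euc n) (Euc n))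

lemma inner_zz (f : PE n → ℝ) (p : PE n) (w : Euc n) : ⟪zz f p, w⟫ = fderiv ℝ f p (0, w) := by
  simp [zz]

/-- mixed second derivative -/
def MM (f : PE n → ℝ) (p : PE n) : Euc n →L[ℝ] Euc n :=
  fderiv ℝ (zz f) p ∘L ContinuousLinearMap.inl ℝ (Euc n) (Euc n)

/-- derivative in the second variable -/
def d2 (u : Euc n) (f : PE n → ℝ) (p : PE n) : ℝ := fderiv ℝ f p (0, u)

/-- positively homogeneous of degree one -/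
def Hom1 (Y : Euc n → Euc n) : Prop := ∀ t : ℝ, 0 < t → ∀ ξ, Y (t • ξ) = t • Y ξ

/-- the slice of `GO` -/
def sl (η : Euc n) : Set (Euc n) := {ξ | (ξ, η) ∈ GO n}

/-- the part of `GO` over `O` -/
def Om (O : Set (Euc n)) : Set (PE n) := {p | p ∈ GO n ∧ p.2 ∈ O}

/-- orthogonal complement -/
def perp (η : Euc n) : Set (Euc n) := {w | ⟪w, η⟫ = 0}

/-- projection on it -/
def prj (η w : Euc n) : Euc n := w - (⟪w, η⟫ / ‖η‖ ^ 2) • η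

/-- homogeneous of degree `d` on the slice -/
def HomD (d : ℝ) (η : Euc n) (g : Euc n → ℝ) : Prop :=
  ∀ t : ℝ, 0 < t → ∀ ξ ∈ sl η, g (t • ξ) = t ^ d * g ξ

/-- a pair of maps preserving `F` -/
structure Iso (F : PE n → ℝ) (G₁ G₂ : Euc n → Euc n) : Prop where
  sm₁ : ContDiffOn ℝ ∞ G₁ {0}ᶜ
  sm₂ : ContDiffOn ℝ ∞ G₂ {0}ᶜ
  hom₁ : Hom1 G₁
  hom₂ : Hom1 G₂
  maps : ∀ ξ η, (ξ, η) ∈ GO n → (G₁ ξ, G₂ η) ∈ GO n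
  inv : ∀ ξ η, (ξ, η) ∈ GO n → F (G₁ ξ, G₂ η) = F (ξ, η)

/-- bounds for the differential of `G` at `η` modulo the radial directions -/
def Expd (G : Euc n → Euc n) (η : Euc n) (α β : ℝ) : Prop := ∀ u, ⟪u, η⟫ = 0 →
  (∀ r : ℝ, α * ‖u‖ ≤ ‖fderiv ℝ G η u - r • G η‖) ∧
    ∃ r : ℝ, ‖fderiv ℝ G η u - r • G η‖ ≤ β * ‖u‖

/-- periodic pair: `P` attracting, `R` repelling -/
def PerD (F : PE n → ℝ) (P R : Euc n) : Prop := (R, P) ∈ GO n ∧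
  ∃ (G₁ G₂ : Euc n → Euc n) (θ : ℝ), Iso F G₁ G₂ ∧ G₁ R = R ∧ G₂ P = P ∧ 0 ≤ θ ∧ θ < 1 ∧
    ∀ u, ⟪u, P⟫ = 0 → ∃ r : ℝ, ‖fderiv ℝ G₂ P u - r • P‖ ≤ θ * ‖u‖

/-- the hypotheses of block K -/
structure Cone (n : ℕ) where
  F : PE n → ℝ
  ρ : Euc n → ℝ
  h : ℝ
  hn : 3 ≤ n
  sm : ContDiffOn ℝ ∞ F (GO n)
  pos : ∀ p ∈ GO n, 0 < F p
  symm : ∀ ξ η, (ξ, η) ∈ GO n → F (η, ξ) = F (ξ, η)
  hom : ∀ t : ℝ, 0 < t → ∀ ξ η, (ξ, η) ∈ GO n → F (t • ξ, η) = t * F (ξ, η)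
  ρsm : ContDiffOn ℝ ∞ ρ {0}ᶜ
  ρpos : ∀ ξ, ξ ≠ 0 → 0 < ρ ξ
  ρhom : ∀ t : ℝ, 0 < t → ∀ ξ, ξ ≠ 0 → ρ (t • ξ) = t ^ (h - n) * ρ ξ
  det : ∀ ξ η, (ξ, η) ∈ GG n → |(MM F (ξ, η)).det| = F (ξ, η) ^ ((n : ℝ) - h) * ρ ξ * ρ η
  rate : ∃ a b : ℝ, 0 < a ∧ ∀ ξ η, (ξ, η) ∈ GG n → ∃ (K : Set (PE n)) (C : ℝ), IsCompact K ∧
    K ⊆ GO n ∧ 0 < C ∧ ∀ T : ℝ, ∃ t, T ≤ t ∧ ∃ G₁ G₂, Iso F G₁ G₂ ∧ (G₁ ξ, G₂ η) ∈ K ∧
      Expd G₂ η (Real.exp (a * t) / C) (C * Real.exp (b * t))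
  dense : ∀ ξ, ‖ξ‖ = 1 → ∀ ε : ℝ, 0 < ε → ∃ P R, ‖P - ξ‖ < ε ∧ PerD F P R

namespace Cone

variable (B : Cone n)

/-- inverse of the mixed second derivative -/
def Mi (p : PE n) : Euc n →L[ℝ] Euc n := (MM B.F p).inverse

/-- the frame on a slice -/
def Ns (η ξ : Euc n) : Euc n →L[ℝ] Euc n := B.Mi (ξ, η)

/-- the same fields on `GO` -/
def Nj (p : PE n) : Euc n →L[ℝ] PE n := ContinuousLinearMap.inl ℝ (Euc n) (Euc n) ∘L B.Mi p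

/-- second derivative in `η` -/
def QQ (u u' : Euc n) : PE n → ℝ := d2 u (d2 u' B.F)

/-- polynomial on a slice -/
def Pol (η : Euc n) (k : ℕ) (g : Euc n → ℝ) : Prop := PolN (sl η) (B.Ns η) (perp η) k g

/-- polynomial on all slices over `O` -/
def UPol (O : Set (Euc n)) (d : ℝ) (k : ℕ) (f : PE n → ℝ) : Prop :=
  ContDiffOn ℝ ∞ f (Om O) ∧
    ∀ η ∈ O, HomD d η (fun ξ => f (ξ, η)) ∧ B.Pol η k (fun ξ => f (ξ, η))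

/-- step P1 -/
def PolQ : Prop := ∃ k : ℕ, ∀ η, η ≠ 0 → ∀ u u', B.Pol η k fun ξ => B.QQ u u' (ξ, η)

/-- `dF (0, Y')` -/
def psi (Y' : Euc n → Euc n) (p : PE n) : ℝ := fderiv ℝ B.F p (0, Y' p.2)

/-- `dF (Y, Y')` -/
def del (Y Y' : Euc n → Euc n) (p : PE n) : ℝ := fderiv ℝ B.F p (Y p.1, Y' p.2)

/-- the extension formula -/
def ext (Y' : Euc n → Euc n) (p : PE n) : Euc n := -B.Mi p (zz (B.psi Y') p)

/-- the defect -/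
def DD (Y' : Euc n → Euc n) (u u' : Euc n) (p : PE n) : ℝ :=
  ⟪MM B.F p (fderiv ℝ (B.ext Y') p (0, u)), u'⟫

/-- Killing pair -/
structure Kil (Y Y' : Euc n → Euc n) : Prop where
  sm : ContDiffOn ℝ ∞ Y {0}ᶜ
  sm' : ContDiffOn ℝ ∞ Y' {0}ᶜ
  hom : Hom1 Y
  hom' : Hom1 Y'
  eq : ∀ p ∈ GO n, B.del Y Y' p = 0

/-- first component of a Killing pair -/
def Kf (Y : Euc n → Euc n) : Prop := ∃ Y', B.Kil Y Y'

/-- `ρ det (Y₁, …, Yₙ)` -/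
def uu (Y : Fin n → Euc n → Euc n) (ξ : Euc n) : ℝ :=
  B.ρ ξ * (Matrix.of fun i j : Fin n => Y j ξ i).det

/-- step P2 + P3 -/
def PerS : Prop := ∀ P R, PerD B.F P R → ∃ Y Y', B.Kil Y Y' ∧ Y P = 0 ∧ Y' R = 0 ∧
  (∀ v, ∃ (v' : Euc n) (s : ℝ), v = fderiv ℝ Y P v' + s • P) ∧
  LinearMap.trace ℝ (Euc n) (fderiv ℝ Y P : Euc n →ₗ[ℝ] Euc n) < 0

/-- the output of block K -/
def OutS : Prop := ∃ (ι κ : Type) (_ : Fintype ι) (_ : Fintype κ) (Y : ι → Euc n → Euc n)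
  (φ : κ → Euc n → ℝ), (∀ i, B.Kf (Y i)) ∧
  (∀ Z, B.Kf Z → ∃ c : ι → ℝ, ∀ ξ, Z ξ = ∑ i, c i • Y i ξ) ∧
  (∀ j, ContDiffOn ℝ ∞ (φ j) {0}ᶜ) ∧
  (∀ j (t : ℝ), 0 < t → ∀ ξ, ξ ≠ 0 → φ j (t • ξ) = t ^ B.h * φ j ξ) ∧
  (∃ j ξ, ‖ξ‖ = 1 ∧ φ j ξ ≠ 0) ∧
  (∀ g, Iso B.F g g → ∀ j, ∃ c : κ → ℝ, ∀ ξ, ξ ≠ 0 → φ j (g ξ) = ∑ j', c j' * φ j' ξ) ∧
  ∀ Z, B.Kf Z → ∀ j, ∃ c : κ → ℝ, ∀ ξ, ξ ≠ 0 → fderiv ℝ (φ j) ξ (Z ξ) = ∑ j', c j' * φ j' ξ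

end Cone

end Crest.Agent.N221.K
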