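import Crest.Agent.N221.K.Bas

/-! Row 221, block K: polynomial functions on the slices (leaf K-Pol). -/

set_option autoImplicit false
set_option linter.unusedSectionVars false
set_option linter.unusedVariables false

open Set Filter Topology
open scoped ContDiff RealInnerProductSpace
open Crest.GeometryTopology.Submanifold

noncomputable section

namespace Crest.Agent.N221.K

variable {n : ℕ} {ξ ξ₀ η u u' w : Euc n} {d : ℝ} {g : Euc n → ℝ} {f : PE n → ℝ}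
  {O : Set (Euc n)} {k l : ℕ}

namespace PolA

lemma sl_smul {t : ℝ} (ht : 0 < t) (hξ : ξ ∈ sl η) : t • ξ ∈ sl η := by
  have := GO_smul ht one_pos hξ
  rwa [one_smul] at this

lemma homD_congr {g' : Euc n → ℝ} (h : HomD d η g) (e : EqOn g g' (sl η)) : HomD d η g' :=
  fun t ht ξ hξ => by rw [← e hξ, ← e (sl_smul ht hξ), h t ht ξ hξ]

lemma fderiv_hom (h : HomD d η g) (hg : ContDiffOn ℝ ∞ g (sl η)) {t : ℝ} (ht : 0 < t)
    (hξ : ξ ∈ sl η) (v : Euc n) : fderiv ℝ g (t • ξ) v = t ^ (d - 1) * fderiv ℝ g ξ v := by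
  have h1 := (sm_dif (isOpen_sl η) hg (sl_smul ht hξ)).hasFDerivAt
  have h2 := (sm_dif (isOpen_sl η) hg hξ).hasFDerivAt
  have h3 := h1.comp ξ ((hasFDerivAt_id ξ).const_smul t)
  have h4 : HasFDerivAt (g ∘ fun x => t • id x) _ ξ := (h2.const_mul (t ^ d)).congr_of_eventuallyEq
    (eventually_of_mem ((isOpen_sl η).mem_nhds hξ) fun x hx => h t ht x hx)
  have h5 := DFunLike.congr_fun (h3.unique h4) v
  simp only [ContinuousLinearMap.comp_apply, smul_apply,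
    ContinuousLinearMap.id_apply, map_smul, smul_eq_mul] at h5
  rw [Real.rpow_sub_one ht.ne', div_mul_eq_mul_div, eq_div_iff ht.ne', mul_comm, h5]

lemma Om_sub : Om O ⊆ GO n := fun _ h => h.1

lemma sl_eq (hη : η ∈ O) : {ξ | (ξ, η) ∈ Om O} = sl η :=
  Set.ext fun _ => ⟨fun h => h.1, fun h => ⟨h, hη⟩⟩

lemma slice_Om (hf : ContDiffOn ℝ ∞ f (Om O)) (hη : η ∈ O) :
    ContDiffOn ℝ ∞ (fun ξ => f (ξ, η)) (sl η) := sl_eq hη ▸ slice_sm hf η

lemma homD_d2 (hO : IsOpen O) (hf : ContDiffOn ℝ ∞ f (Om O))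
    (h : ∀ η ∈ O, HomD d η fun ξ => f (ξ, η)) (hη : η ∈ O) (u : Euc n) :
    HomD d η fun ξ => d2 u f (ξ, η) := fun t ht ξ hξ => by
  have m1 : (ξ, η) ∈ Om O := ⟨hξ, hη⟩
  have m2 : (t • ξ, η) ∈ Om O := ⟨sl_smul ht hξ, hη⟩
  have d1 := sm_dif (isOpen_Om hO) hf m1
  have d2' := sm_dif (isOpen_Om hO) hf m2
  have ev : (fun η => f (t • ξ, η)) =ᶠ[𝓝 η] fun η => t ^ d * f (ξ, η) := by
    filter_upwards [(Continuous.prodMk_right ξ).continuousAt.preimage_mem_nhds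
      ((isOpen_Om hO).mem_nhds m1)] with η' h' using h η' h'.2 t ht ξ h'.1
  have d3 : DifferentiableAt ℝ (fun η => f (ξ, η)) η :=
    d1.comp η ((differentiableAt_const ξ).prodMk differentiableAt_id)
  simp only [d2]
  rw [← fderiv_slice₂ d1, ← fderiv_slice₂ d2', ev.fderiv_eq, fderiv_const_mul d3]
  rfl

lemma inner_ee (v : Euc n) (i : Fin n) : ⟪v, ee i⟫ = v i := by
  simp [EuclideanSpace.inner_single_right]

end PolA

open PolA

lemma HomD.euler (h : HomD d η g) (hg : ContDiffOn ℝ ∞ g (sl η)) (hξ : ξ ∈ sl η) :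
    fderiv ℝ g ξ ξ = d * g ξ := by
  have h1 := (sm_dif (isOpen_sl η) hg hξ).hasFDerivAt
  have h2 : HasDerivAt (fun t : ℝ => t • ξ) ξ 1 := by
    simpa using (hasDerivAt_id (1 : ℝ)).smul_const ξ
  have h3 : HasDerivAt (g ∘ fun t : ℝ => t • ξ) (fderiv ℝ g ξ ξ) 1 :=
    h1.comp_hasDerivAt_of_eq 1 h2 (one_smul ℝ ξ).symm
  have h4 : HasDerivAt (g ∘ fun t : ℝ => t • ξ) _ 1 :=
    ((Real.hasDerivAt_rpow_const (x := 1) (p := d) (Or.inl one_ne_zero)).mul_const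
      (g ξ)).congr_of_eventuallyEq
      (eventually_of_mem (Ioi_mem_nhds one_pos) fun t ht => h t ht ξ hξ)
  simpa using h3.unique h4

namespace Cone

variable (B : Cone n)

lemma homD_dN (h : HomD d η g) (hg : ContDiffOn ℝ ∞ g (sl η)) (w : Euc n) :
    HomD (d - 1) η (dN (B.Ns η) w g) := fun t ht ξ hξ => by
  have := B.Mi_smul ht one_pos hξ
  rw [one_smul] at this
  simp only [dN, Ns]
  rw [this, fderiv_hom h hg ht hξ]

lemma dN_zz (hξ : ξ ∈ sl η) (w c : Euc n) :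
    dN (B.Ns η) w (fun ξ => ⟪zz B.F (ξ, η), c⟫) ξ = ⟪w, c⟫ := by
  have h := ((B.hasFDerivAt_zz hξ).inner ℝ (hasFDerivAt_const c ξ)).fderiv
  simp only [dN, Ns]
  rw [h]
  simp [B.MM_Mi hξ]

lemma itr_zz (hξ : ξ ∈ sl η) (c : Euc n) (ws : List (Euc n)) (h : 2 ≤ ws.length) :
    itr (B.Ns η) ws (fun ξ => ⟪zz B.F (ξ, η), c⟫) ξ = 0 := by
  match ws, h with
  | w₁ :: w₂ :: ws, _ =>
    rw [itr_cons, itr_cons]
    refine itr_zero (isOpen_sl η) ws (fun q hq => ?_) hξ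
    rw [dN_congr (g := fun _ => ⟪w₁, c⟫) (isOpen_sl η) (fun x hx => B.dN_zz hx w₁ c) hq, dN]
    simp

lemma pol_zz (η c : Euc n) : B.Pol η 2 fun ξ => ⟪zz B.F (ξ, η), c⟫ := by
  refine ⟨?_, fun w _ => (polN_const (isOpen_sl η) (B.Ns_sm η) ⟪w, c⟫).congr (isOpen_sl η)
    fun x hx => (B.dN_zz hx w c).symm⟩
  exact ((zz_sm Cov.isOpen_GO B.sm).comp (contDiffOn_id.prodMk contDiffOn_const)
    fun x hx => hx).inner ℝ contDiffOn_const

lemma pol_F (η : Euc n) (r : ℝ) : B.Pol η 1 fun ξ => B.F (ξ, η) ^ r := by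
  have hs : ContDiffOn ℝ ∞ (fun ξ => B.F (ξ, η)) (sl η) := slice_sm B.sm η
  refine ⟨hs.rpow_const_of_ne fun x hx => (B.pos _ hx).ne', fun w hw x hx => ?_⟩
  have h := ((sm_dif (isOpen_sl η) hs hx).hasFDerivAt.rpow_const (p := r)
    (Or.inl (B.pos _ hx).ne')).fderiv
  simp only [dN, Ns]
  rw [h, smul_apply, fderiv_slice (sm_dif Cov.isOpen_GO B.sm hx),
    ← B.inner_MM_self hx, B.MM_Mi hx, show ⟪w, η⟫ = 0 from hw, smul_zero]

end Cone

namespace PolA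

variable (B : Cone n)

lemma zz_eta (hξ : ξ ∈ sl η) : ⟪zz B.F (ξ, η), η⟫ = B.F (ξ, η) := by
  rw [inner_zz, B.euler₂ hξ]

lemma Mi_zz (hξ : ξ ∈ sl η) : B.Mi (ξ, η) (zz B.F (ξ, η)) = ξ := by
  rw [← B.MM_self hξ, B.Mi_MM hξ]

lemma perp_part (hξ : ξ ∈ sl η) (v : Euc n) :
    v - (⟪v, η⟫ * B.F (ξ, η) ^ (-1 : ℝ)) • zz B.F (ξ, η) ∈ perp η := by
  have := (B.pos _ hξ).ne'
  show ⟪_, η⟫ = 0
  rw [inner_sub_left, real_inner_smul_left, zz_eta B hξ, Real.rpow_neg_one]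
  field_simp
  ring

/-- splitting of a derivative into the part along `perp η` and the Euler part -/
lemma split (hd : HomD d η g) (hg : ContDiffOn ℝ ∞ g (sl η)) (hξ : ξ ∈ sl η) (v : Euc n) :
    fderiv ℝ g ξ (B.Mi (ξ, η) v) =
      dN (B.Ns η) (v - (⟪v, η⟫ * B.F (ξ, η) ^ (-1 : ℝ)) • zz B.F (ξ, η)) g ξ +
        ⟪v, η⟫ * B.F (ξ, η) ^ (-1 : ℝ) * (d * g ξ) := by
  simp only [dN, Cone.Ns]
  rw [map_sub, map_smul, Mi_zz B hξ, map_sub, map_smul, hd.euler hg hξ, smul_eq_mul]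
  ring

lemma dN_frame (hw : w ∈ perp η) (g : Euc n → ℝ) (ξ : Euc n) :
    dN (B.Ns η) w g ξ = ∑ i, w i * dN (B.Ns η) (prj η (ee i)) g ξ := by
  simp only [dN]
  conv_lhs => rw [← prj_of_mem hw, ← sum_prj]
  simp only [map_sum, map_smul, smul_eq_mul]

end PolA

namespace Cone

variable (B : Cone n)

/-- identity theorem: induction on `k`; if all `dN w g` vanish then `g F^{-d}` has zero
derivative (`a = Mi (w + c zz)`, `w ⊥ η`, `Mi zz = ξ`) on the connected slice -/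
lemma ident_jet (h : B.Pol η k g) (hd : HomD d η g) (h0 : ξ₀ ∈ sl η)
    (e : ∀ ws : List (Euc n), (∀ w ∈ ws, w ∈ perp η) → itr (B.Ns η) ws g ξ₀ = 0) :
    ∀ ξ ∈ sl η, g ξ = 0 := by
  induction k generalizing d g with
  | zero => exact h
  | succ k ih =>
    have hΩ := isOpen_sl η
    have z : ∀ w ∈ perp η, ∀ ξ ∈ sl η, dN (B.Ns η) w g ξ = 0 := fun w hw =>
      ih (h.2 w hw) (B.homD_dN hd h.1 w) fun ws hws => e (w :: ws) (by simpa using ⟨hw, hws⟩)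
    have hF := B.pol_F η (-d)
    have hs : ContDiffOn ℝ ∞ (fun ξ => g ξ * B.F (ξ, η) ^ (-d)) (sl η) := h.1.mul hF.1
    have hh : HomD 0 η fun ξ => g ξ * B.F (ξ, η) ^ (-d) := fun t ht x hx => by
      simp only
      rw [hd t ht x hx, B.hom t ht x η hx, Real.mul_rpow ht.le (B.pos _ hx).le, Real.rpow_neg ht.le,
        Real.rpow_zero]
      have := (Real.rpow_pos_of_pos ht d).ne'
      field_simp
    have hz : EqOn (fderiv ℝ fun ξ => g ξ * B.F (ξ, η) ^ (-d)) 0 (sl η) := fun x hx => by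
      ext a
      rw [← B.Mi_MM hx a, split B hh hs hx, dN_mul hΩ h.1 hF.1 hx]
      simp only
      rw [z _ (perp_part B hx _) x hx, hF.2 _ (perp_part B hx _) x hx]
      simp
    intro ξ hξ
    have := hΩ.is_const_of_fderiv_eq_zero (isPreconnected_sl h0.2.1)
      (hs.differentiableOn (by simp)) hz hξ h0
    rw [show g ξ₀ = 0 from e [] (by simp), zero_mul] at this
    exact (mul_eq_zero.1 this).resolve_right (Real.rpow_pos_of_pos (B.pos _ hξ) _).ne'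

lemma ident_open (h : B.Pol η k g) (hd : HomD d η g) (h0 : ξ₀ ∈ sl η)
    (e : ∀ᶠ ξ in 𝓝 ξ₀, g ξ = 0) : ∀ ξ ∈ sl η, g ξ = 0 := by
  obtain ⟨U, h1, h2, h3⟩ := eventually_nhds_iff.1 e
  exact B.ident_jet h hd h0 fun ws _ => itr_zero h2 ws h1 h3

lemma pol_of_frame (hη : η ≠ 0) (hg : ContDiffOn ℝ ∞ g (sl η))
    (h : ∀ i, B.Pol η k (dN (B.Ns η) (prj η (ee i)) g)) : B.Pol η (k + 1) g :=
  ⟨hg, fun w hw => (PolN.sum (isOpen_sl η) (B.Ns_sm η) Finset.univ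
    fun i _ => PolN.cmul (isOpen_sl η) (B.Ns_sm η) (w i) (h i)).congr (isOpen_sl η)
      fun x _ => (dN_frame B hw g x).symm⟩

/-- derivative along a polynomial field:
`W = ∑ (W - ⟪W, η⟫ F⁻¹ zz) i • prj η (ee i) + ⟪W, η⟫ F⁻¹ zz`, `Mi zz = ξ`, Euler -/
lemma pol_field (hη : η ≠ 0) {W : Euc n → Euc n} (hW : ∀ i, B.Pol η l fun ξ => W ξ i)
    (h : B.Pol η k g) (hd : HomD d η g) :
    B.Pol η (l + 3 + k) fun ξ => fderiv ℝ g ξ (B.Mi (ξ, η) (W ξ)) := by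
  have hΩ := isOpen_sl η
  have hN := B.Ns_sm η
  have c1 : B.Pol η l fun ξ => ⟪W ξ, η⟫ :=
    (PolN.sum hΩ hN Finset.univ fun i _ => PolN.cmul hΩ hN (η i) (hW i)).congr hΩ fun x _ => by
      simp [PiLp.inner_apply]
  have c2 : B.Pol η (l + 1) fun ξ => ⟪W ξ, η⟫ * B.F (ξ, η) ^ (-1 : ℝ) :=
    PolN.mul hΩ hN c1 (B.pol_F η (-1))
  have c3 : ∀ i, B.Pol η (l + 3) fun ξ =>
      (W ξ - (⟪W ξ, η⟫ * B.F (ξ, η) ^ (-1 : ℝ)) • zz B.F (ξ, η)) i := fun i =>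
    (PolN.sub hΩ hN (PolN.mono hΩ hN (hW i) (by omega))
      (PolN.mul hΩ hN c2 (B.pol_zz η (ee i)))).congr hΩ fun x _ => by
      simp only [inner_ee, PiLp.sub_apply, PiLp.smul_apply, smul_eq_mul]
  refine (PolN.add hΩ hN (PolN.sum hΩ hN Finset.univ fun i _ => PolN.mul hΩ hN (c3 i)
    (PolN.der hΩ hN h (prj_mem hη (ee i)))) (PolN.mono hΩ hN
      (PolN.mul hΩ hN c2 (PolN.cmul hΩ hN d h)) (by omega))).congr hΩ fun x hx => ?_
  simp only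
  rw [split B hd (PolN.sm hΩ h) hx, dN_frame B (perp_part B hx _)]

lemma UPol.mono (h : B.UPol O d k f) (hk : k ≤ l) : B.UPol O d l f :=
  ⟨h.1, fun η hη => ⟨(h.2 η hη).1, PolN.mono (isOpen_sl η) (B.Ns_sm η) (h.2 η hη).2 hk⟩⟩

end Cone

namespace PolA

variable (B : Cone n)

/-- the frame along the slices -/
def XX (i : Fin n) (p : PE n) : PE n := B.Nj p (prj p.2 (ee i))

lemma XX_sm (i : Fin n) : ContDiffOn ℝ ∞ (XX B i) (GO n) :=
  B.Nj_sm.clm_apply ((contDiffOn_prj (ee i)).comp contDiffOn_snd fun _ h => h.2.1)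

lemma dX_slice (hf : DifferentiableAt ℝ f (ξ, η)) (i : Fin n) :
    dN (B.Ns η) (prj η (ee i)) (fun ξ => f (ξ, η)) ξ = dX (XX B i) f (ξ, η) :=
  fderiv_slice hf _

lemma comm {Ω : Set (PE n)} (hΩ : IsOpen Ω) (hs : Ω ⊆ GO n) (hf : ContDiffOn ℝ ∞ f Ω) {p : PE n}
    (hp : p ∈ Ω) (i : Fin n) (u : Euc n) : dX (XX B i) (d2 u f) p =
      d2 u (dX (XX B i) f) p - fderiv ℝ f p (fderiv ℝ (XX B i) p (0, u)) := by
  have h := dX_comm hΩ ((XX_sm B i).mono hs) (contDiffOn_const (c := ((0, u) : PE n))) hf hp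
  rw [VectorField.lieBracket, fderiv_fun_const, Pi.zero_apply, zero_apply,
    zero_sub, map_neg] at h
  exact eq_sub_iff_add_eq.2 (by
    have e : dX (XX B i) (d2 u f) p - d2 u (dX (XX B i) f) p = _ := h
    linarith)

lemma snd_zero {p : PE n} (hp : p ∈ GO n) (i : Fin n) (v : PE n) :
    (fderiv ℝ (XX B i) p v).2 = 0 := by
  have h := (sm_dif Cov.isOpen_GO (XX_sm B i) hp).hasFDerivAt.snd
  have h' : HasFDerivAt (fun p => (XX B i p).2) (0 : PE n →L[ℝ] Euc n) p :=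
    hasFDerivAt_const (0 : Euc n) p
  exact DFunLike.congr_fun (h.unique h') v

/-- the bracket field in the coordinates `zz` -/
def WW (i : Fin n) (u η ξ : Euc n) : Euc n := MM B.F (ξ, η) (fderiv ℝ (XX B i) (ξ, η) (0, u)).1

lemma br_eq (hξ : ξ ∈ sl η) (i : Fin n) (u : Euc n) :
    fderiv ℝ (XX B i) (ξ, η) (0, u) = (B.Mi (ξ, η) (WW B i u η ξ), 0) :=
  Prod.ext (B.Mi_MM hξ _).symm (snd_zero B hξ i _)

lemma WW_eq (hξ : ξ ∈ sl η) (i j : Fin n) (u : Euc n) : WW B i u η ξ j =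
    fderiv ℝ (fun η => ⟪prj η (ee i), ee j⟫) η u -
      dN (B.Ns η) (prj η (ee i)) (fun ξ => B.QQ u (ee j) (ξ, η)) ξ := by
  have hG : IsOpen (GO n) := Cov.isOpen_GO
  have hs := d2_sm hG B.sm (ee j)
  have h := comm B hG subset_rfl hs hξ i u
  have e : EqOn (dX (XX B i) (d2 (ee j) B.F)) (fun q => ⟪prj q.2 (ee i), ee j⟫) (GO n) :=
    fun q hq => by
      rw [dX, XX, B.Nj_apply, ← inner_MM hG B.sm hq, B.MM_Mi hq]
  have s2 : ContDiffOn ℝ ∞ (fun q : PE n => ⟪prj q.2 (ee i), ee j⟫) (GO n) :=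
    ((contDiffOn_prj (ee i)).comp contDiffOn_snd fun _ h => h.2.1).inner ℝ contDiffOn_const
  rw [d2, fderiv_congr_open hG e hξ, ← fderiv_slice₂ (sm_dif hG s2 hξ), br_eq B hξ,
    ← inner_MM hG B.sm hξ, B.MM_Mi hξ, inner_ee] at h
  rw [dX_slice B (sm_dif hG (B.QQ_sm u (ee j)) hξ), Cone.QQ, h]
  ring

lemma WW_pol (hQ : ∀ u u', B.Pol η k fun ξ => B.QQ u u' (ξ, η)) (hη : η ≠ 0) (i j : Fin n)
    (u : Euc n) : B.Pol η (k + 1) fun ξ => WW B i u η ξ j :=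
  (PolN.sub (isOpen_sl η) (B.Ns_sm η)
    (PolN.mono (isOpen_sl η) (B.Ns_sm η) (polN_const (isOpen_sl η) (B.Ns_sm η) _) (by omega))
    (PolN.succ (isOpen_sl η) (B.Ns_sm η) (PolN.der (isOpen_sl η) (B.Ns_sm η) (hQ u (ee j))
      (prj_mem hη (ee i))))).congr (isOpen_sl η) fun _ hx => (WW_eq B hx i j u).symm

lemma upol_dX (hO : IsOpen O) (h0 : O ⊆ {0}ᶜ) (h : B.UPol O d (k + 1) f) (i : Fin n) :
    B.UPol O (d - 1) k (dX (XX B i) f) := by
  refine ⟨dX_sm (isOpen_Om hO) ((XX_sm B i).mono Om_sub) h.1, fun η hη => ?_⟩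
  have e : EqOn (dN (B.Ns η) (prj η (ee i)) fun ξ => f (ξ, η))
      (fun ξ => dX (XX B i) f (ξ, η)) (sl η) := fun x hx =>
    dX_slice B (sm_dif (isOpen_Om hO) h.1 ⟨hx, hη⟩) i
  exact ⟨homD_congr (B.homD_dN (h.2 η hη).1 (slice_Om h.1 hη) _) e,
    PolN.congr (isOpen_sl η) ((h.2 η hη).2.2 _ (prj_mem (h0 hη) _)) e⟩

end PolA

namespace Cone

variable (B : Cone n)

/-- closure under `∂_η` -/
theorem UPol.d2 (hQ : B.PolQ) (hO : IsOpen O) (h0 : O ⊆ {0}ᶜ) (h : B.UPol O d k f) :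
    ∃ k', ∀ u, B.UPol O d k' (K.d2 u f) := by
  obtain ⟨kQ, hQ⟩ := hQ
  have hΩ := isOpen_Om hO
  induction k generalizing d f with
  | zero =>
    refine ⟨0, fun u => ⟨d2_sm hΩ h.1 u, fun η hη =>
      ⟨homD_d2 hO h.1 (fun η hη => (h.2 η hη).1) hη u, fun x hx => ?_⟩⟩⟩
    have e : EqOn f (fun _ => 0) (Om O) := fun p hp => (h.2 p.2 hp.2).2 p.1 hp.1
    show fderiv ℝ f (x, η) (0, u) = 0
    rw [fderiv_congr_open hΩ e ⟨hx, hη⟩]
    simp
  | succ k ih =>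
    choose ks hks using fun i => ih (upol_dX B hO h0 h i)
    refine ⟨kQ + 1 + 3 + (k + 1) + ∑ i, ks i + 1, fun u => ⟨d2_sm hΩ h.1 u, fun η hη =>
      ⟨homD_d2 hO h.1 (fun η hη => (h.2 η hη).1) hη u, ?_⟩⟩⟩
    have hS := isOpen_sl η
    have hN := B.Ns_sm η
    refine B.pol_of_frame (h0 hη) (slice_Om (d2_sm hΩ h.1 u) hη) fun i => ?_
    have p1 := PolN.mono hS hN ((hks i u).2 η hη).2 (l := kQ + 1 + 3 + (k + 1) + ∑ i, ks i)
      ((Finset.single_le_sum (f := ks) (fun _ _ => Nat.zero_le _) (Finset.mem_univ i)).trans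
        (Nat.le_add_left _ _))
    have p2 := PolN.mono hS hN (B.pol_field (h0 hη) (W := WW B i u η)
      (fun j => WW_pol B (hQ η (h0 hη)) (h0 hη) i j u) (h.2 η hη).2 (h.2 η hη).1)
      (l := kQ + 1 + 3 + (k + 1) + ∑ i, ks i) (Nat.le_add_right _ _)
    refine (PolN.sub hS hN p1 p2).congr hS fun x hx => ?_
    have m : (x, η) ∈ Om O := ⟨hx, hη⟩
    rw [dX_slice B (sm_dif hΩ (d2_sm hΩ h.1 u) m), comm B hΩ Om_sub h.1 m, br_eq B hx,
      fderiv_slice (sm_dif hΩ h.1 m)]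

end Cone

end Crest.Agent.N221.K
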