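import Crest.Agent.N221.K.Nat
import Crest.Agent.N221.K.Pol

/-! Row 221, block K: the extension formula and its defect (leaf K-Ext). -/

set_option autoImplicit false
set_option linter.unusedSectionVars false
set_option linter.unusedVariables false

open Set Filter Topology
open scoped ContDiff RealInnerProductSpace
open Crest.GeometryTopology.Submanifold

noncomputable section

namespace Crest.Agent.N221.K

variable {n : ℕ} {ξ η u u' : Euc n} {p : PE n} {t : ℝ} {O : Set (Euc n)}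
  {Y Y' G₁ G₂ : Euc n → Euc n}

namespace ExtA

variable {E E' : Type} [NormedAddCommGroup E] [NormedSpace ℝ E] [NormedAddCommGroup E']
  [NormedSpace ℝ E']

lemma bil_sum (T : Euc n →L[ℝ] Euc n) (u u' : Euc n) :
    ⟪T u, u'⟫ = ∑ ij : Fin n × Fin n, u ij.1 * u' ij.2 * ⟪T (ee ij.1), ee ij.2⟫ := by
  have e : ∀ v : Euc n, v = ∑ i, v i • ee i := fun v => by
    simpa using ((EuclideanSpace.basisFun (Fin n) ℝ).sum_repr v).symm
  conv_lhs => rw [e u, e u']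
  rw [map_sum, sum_inner, Fintype.sum_prod_type]
  refine Finset.sum_congr rfl fun i _ => ?_
  rw [inner_sum]
  refine Finset.sum_congr rfl fun j _ => ?_
  rw [map_smul, real_inner_smul_left, real_inner_smul_right, mul_assoc]

/-- transfer of `η`-derivatives -/
lemma tr {f : PE n → E} {f' : PE n → E'} {a : Euc n} {G : Euc n → Euc n} (T : E' →L[ℝ] E)
    (hf : DifferentiableAt ℝ f (a, G η)) (hf' : DifferentiableAt ℝ f' (ξ, η))
    (hG : DifferentiableAt ℝ G η) (e : ∀ᶠ η' in 𝓝 η, f (a, G η') = T (f' (ξ, η'))) (u : Euc n) :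
    fderiv ℝ f (a, G η) (0, fderiv ℝ G η u) = T (fderiv ℝ f' (ξ, η) (0, u)) := by
  have h1 := hf.hasFDerivAt.comp η ((hasFDerivAt_const a η).prodMk hG.hasFDerivAt)
  have h2 := T.hasFDerivAt.comp η (hf'.hasFDerivAt.comp η (hasFDerivAt_prodMk_right ξ η))
  exact congrArg (fun L => L u) (h1.unique (h2.congr_of_eventuallyEq e))

lemma tr_id {f : PE n → E} {f' : PE n → E'} {a : Euc n} (T : E' →L[ℝ] E)
    (hf : DifferentiableAt ℝ f (a, η)) (hf' : DifferentiableAt ℝ f' (ξ, η))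
    (e : ∀ᶠ η' in 𝓝 η, f (a, η') = T (f' (ξ, η'))) (u : Euc n) :
    fderiv ℝ f (a, η) (0, u) = T (fderiv ℝ f' (ξ, η) (0, u)) := by
  simpa using tr (G := id) T hf hf' differentiableAt_id e u

lemma fd_apply {c : PE n → E →L[ℝ] E'} {a : PE n → E} (hc : DifferentiableAt ℝ c p)
    (ha : DifferentiableAt ℝ a p) (v : PE n) : fderiv ℝ (fun q => c q (a q)) p v =
      c p (fderiv ℝ a p v) + fderiv ℝ (fun q => c q (a p)) p v := by
  rw [fderiv_clm_apply hc ha, fderiv_clm_apply hc (differentiableAt_const _)]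
  simp

lemma ev_Om (hO : IsOpen O) (h : (ξ, η) ∈ Om O) : ∀ᶠ η' in 𝓝 η, (ξ, η') ∈ Om O :=
  (continuous_const.prodMk continuous_id).continuousAt.eventually_mem ((isOpen_Om hO).mem_nhds h)

lemma smul_Om (ht : 0 < t) (h : (ξ, η) ∈ Om O) : (t • ξ, η) ∈ Om O :=
  ⟨by simpa using GO_smul ht one_pos h.1, h.2⟩

end ExtA

open ExtA

namespace Cone

variable (B : Cone n)

lemma psi_eq (Y' : Euc n → Euc n) (p : PE n) : B.psi Y' p = ⟪zz B.F p, Y' p.2⟫ :=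
  (inner_zz _ _ _).symm

lemma DD_sum (Y' : Euc n → Euc n) (u u' : Euc n) (p : PE n) : B.DD Y' u u' p =
    ∑ ij : Fin n × Fin n, u ij.1 * u' ij.2 * B.DD Y' (ee ij.1) (ee ij.2) p :=
  bil_sum (MM B.F p ∘L fderiv ℝ (B.ext Y') p ∘L ContinuousLinearMap.inr ℝ (Euc n) (Euc n)) u u'

lemma del_swap (h : (ξ, η) ∈ GO n) : B.del Y' Y (η, ξ) = B.del Y Y' (ξ, η) :=
  B.fderiv_swap h _ _

lemma Kil.swap (h : B.Kil Y Y') : B.Kil Y' Y :=
  ⟨h.sm', h.sm, h.hom', h.hom, fun p hp =>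
    (B.del_swap (Cov.GO_symm hp)).trans (h.eq _ (Cov.GO_symm hp))⟩

lemma psi_smul (ht : 0 < t) (h : (ξ, η) ∈ GO n) : B.psi Y' (t • ξ, η) = t * B.psi Y' (ξ, η) := by
  have := B.zz_smul ht one_pos h
  rw [one_smul] at this
  rw [psi_eq, psi_eq, this, real_inner_smul_left]

variable (hO : IsOpen O) (h0 : O ⊆ {0}ᶜ) (hY : ContDiffOn ℝ ∞ Y' O)
include hO h0 hY

lemma psi_sm : ContDiffOn ℝ ∞ (B.psi Y') (Om O) :=
  ((B.sm.fderiv_of_isOpen Cov.isOpen_GO (by simp)).mono fun _ h => h.1).clm_apply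
    (contDiffOn_const.prodMk (hY.comp contDiffOn_snd fun _ h => h.2))

lemma ext_sm : ContDiffOn ℝ ∞ (B.ext Y') (Om O) :=
  ((B.Mi_sm.mono fun _ h => h.1).clm_apply (zz_sm (isOpen_Om hO) (B.psi_sm hO h0 hY))).neg

lemma DD_sm (u u' : Euc n) : ContDiffOn ℝ ∞ (B.DD Y' u u') (Om O) :=
  (((MM_sm Cov.isOpen_GO B.sm).mono fun _ h => h.1).clm_apply (((B.ext_sm hO h0 hY).fderiv_of_isOpen
    (isOpen_Om hO) (by simp)).clm_apply contDiffOn_const)).inner ℝ contDiffOn_const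

lemma ext_smul (ht : 0 < t) (h : (ξ, η) ∈ Om O) : B.ext Y' (t • ξ, η) = t • B.ext Y' (ξ, η) := by
  have h1 := B.Mi_smul ht one_pos h.1
  have hs := B.psi_sm hO h0 hY
  have h2 : zz (B.psi Y') (t • ξ, η) = t • zz (B.psi Y') (ξ, η) := ext_inner_right ℝ fun w => by
    rw [real_inner_smul_left, inner_zz, inner_zz]
    exact tr_id (t • ContinuousLinearMap.id ℝ ℝ) (sm_dif (isOpen_Om hO) hs (smul_Om ht h))
      (sm_dif (isOpen_Om hO) hs h) ((ev_Om hO h).mono fun _ e => B.psi_smul ht e.1) w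
  rw [one_smul] at h1
  rw [ext, ext, h1, h2, map_smul, smul_neg]

/-- `∇_η (dF (Y, Y')) = MM (Y - ext Y')` -/
lemma zz_del (h : p ∈ Om O) (hd : DifferentiableAt ℝ Y p.1) :
    zz (B.del Y Y') p = MM B.F p (Y p.1 - B.ext Y' p) := by
  obtain ⟨ξ, η⟩ := p
  have hc : DifferentiableAt ℝ (fderiv ℝ B.F) (ξ, η) :=
    sm_dif Cov.isOpen_GO (B.sm.fderiv_of_isOpen Cov.isOpen_GO (by simp)) h.1
  have h1 := hc.clm_apply (differentiableAt_const ((Y ξ, 0) : PE n))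
  have h2 := sm_dif (isOpen_Om hO) (B.psi_sm hO h0 hY) h
  refine ext_inner_right ℝ fun w => ?_
  rw [inner_zz, map_sub, ext, map_neg, B.MM_Mi h.1, sub_neg_eq_add, inner_add_left, inner_zz,
    inner_MM Cov.isOpen_GO B.sm h.1]
  refine (tr_id (f := B.del Y Y') (ContinuousLinearMap.id ℝ ℝ) (hc.clm_apply
    ((hd.comp (ξ, η) differentiableAt_fst).prodMk ((sm_dif hO hY h.2).comp (ξ, η) differentiableAt_snd)))
    (h1.fun_add h2) (Eventually.of_forall fun η' => ?_) w).trans ?_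
  · simp only [del, psi, ContinuousLinearMap.id_apply, ← map_add, Prod.mk_add_mk, add_zero, zero_add]
  · rw [ContinuousLinearMap.id_apply, fderiv_fun_add h1 h2, add_apply,
      fderiv_comm Cov.isOpen_GO B.sm h.1]
    rfl

/-- differentiate `MM ext = -zz psi` -/
lemma DD_eq (h : p ∈ Om O) (u u' : Euc n) : B.DD Y' u u' p =
    fderiv ℝ (B.QQ u u') p (B.Mi p (zz (B.psi Y') p), 0) - d2 u (d2 u' (B.psi Y')) p := by
  have hg := d2_sm Cov.isOpen_GO B.sm u'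
  have hc : DifferentiableAt ℝ (fderiv ℝ (d2 u' B.F)) p :=
    sm_dif Cov.isOpen_GO (hg.fderiv_of_isOpen Cov.isOpen_GO (by simp)) h.1
  have he := sm_dif (isOpen_Om hO) (B.ext_sm hO h0 hY) h
  have h1 := fd_apply hc (he.prodMk (differentiableAt_const (0 : Euc n))) (0, u)
  have h2 : EqOn (fun q => fderiv ℝ (d2 u' B.F) q (B.ext Y' q, 0)) (-d2 u' (B.psi Y')) (Om O) :=
    fun q hq => by
      simp only [Pi.neg_apply]
      rw [← inner_MM Cov.isOpen_GO B.sm hq.1, ext, map_neg, B.MM_Mi hq.1, inner_neg_left, inner_zz, d2]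
  have h3 : ((B.ext Y' p, 0) : PE n) = -(B.Mi p (zz (B.psi Y') p), 0) := by simp [ext]
  rw [(eventuallyEq_of_mem ((isOpen_Om hO).mem_nhds h) h2).fderiv_eq, fderiv_neg,
    he.fderiv_prodMk (differentiableAt_const _), fderiv_comm Cov.isOpen_GO hg h.1, h3, map_neg] at h1
  simp only [neg_apply, ContinuousLinearMap.prod_apply, fderiv_fun_const, Pi.zero_apply,
    zero_apply] at h1
  rw [DD, inner_MM Cov.isOpen_GO B.sm h.1]
  change _ = fderiv ℝ (fun q => fderiv ℝ (d2 u' B.F) q (0, u)) p _ - fderiv ℝ (d2 u' (B.psi Y')) p (0, u)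
  linarith

theorem DD_pol (hQ : B.PolQ) : ∃ k, ∀ u u', B.UPol O 1 k (B.DD Y' u u') := by
  have hp : B.UPol O 1 2 (B.psi Y') := ⟨B.psi_sm hO h0 hY, fun η hη =>
    ⟨fun t ht ξ hξ => by rw [Real.rpow_one]; exact B.psi_smul ht hξ,
      (B.pol_zz η (Y' η)).congr (isOpen_sl η) fun ξ _ => (B.psi_eq Y' (ξ, η)).symm⟩⟩
  obtain ⟨k1, h1⟩ := UPol.d2 B hQ hO h0 hp
  choose k2 h2 using fun j : Fin n => UPol.d2 B hQ hO h0 (h1 (ee j))
  obtain ⟨k0, hQ⟩ := hQ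
  refine ⟨k1 + 3 + k0 + ∑ j, k2 j, fun u u' => ⟨B.DD_sm hO h0 hY u u', fun η hη =>
    ⟨fun t ht ξ hξ => ?_, ?_⟩⟩⟩
  · have h : (ξ, η) ∈ Om O := ⟨hξ, hη⟩
    have hs := B.ext_sm hO h0 hY
    have h3 := B.MM_smul ht one_pos h.1
    rw [one_smul] at h3
    simp only [DD]
    rw [h3, tr_id (t • ContinuousLinearMap.id ℝ _) (sm_dif (isOpen_Om hO) hs (smul_Om ht h))
      (sm_dif (isOpen_Om hO) hs h) ((ev_Om hO h).mono fun _ e => B.ext_smul hO h0 hY ht e) u,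
      smul_apply, map_smul, real_inner_smul_left, Real.rpow_one, ContinuousLinearMap.id_apply]
  · have ho := isOpen_sl η
    have hN := B.Ns_sm η
    refine PolN.congr ho (PolN.sum ho hN Finset.univ fun (ij : Fin n × Fin n) _ =>
      PolN.cmul ho hN (u ij.1 * u' ij.2) (f := fun ξ => B.DD Y' (ee ij.1) (ee ij.2) (ξ, η)) ?_)
      fun ξ _ => (B.DD_sum Y' u u' (ξ, η)).symm
    have h3 := B.pol_field (h0 hη) (W := fun ξ => zz (B.psi Y') (ξ, η))
      (fun i => by simpa only [zz_apply] using ((h1 (ee i)).2 η hη).2) (hQ η (h0 hη) (ee ij.1) (ee ij.2))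
      (B.QQ_hom η _ _)
    refine PolN.congr ho (PolN.sub ho hN (PolN.mono ho hN h3 (Nat.le_add_right _ _))
      (PolN.mono ho hN ((h2 ij.2 (ee ij.1)).2 η hη).2 ((Finset.single_le_sum
        (fun _ _ => Nat.zero_le _) (Finset.mem_univ _)).trans (Nat.le_add_left _ _)))) fun ξ hξ => ?_
    rw [B.DD_eq hO h0 hY (p := (ξ, η)) ⟨hξ, hη⟩, fderiv_slice (sm_dif Cov.isOpen_GO (B.QQ_sm _ _) hξ)]

lemma ext_nat (hG : Iso B.F G₁ G₂) (hm : MapsTo G₂ O O)
    (e : ∀ η ∈ O, Y' (G₂ η) = fderiv ℝ G₂ η (Y' η)) (h : (ξ, η) ∈ Om O) :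
    B.ext Y' (G₁ ξ, G₂ η) = fderiv ℝ G₁ ξ (B.ext Y' (ξ, η)) := by
  have hs := B.psi_sm hO h0 hY
  have h1 : adj G₂ η (zz (B.psi Y') (G₁ ξ, G₂ η)) = zz (B.psi Y') (ξ, η) :=
    ext_inner_right ℝ fun w => by
      rw [ContinuousLinearMap.adjoint_inner_left, inner_zz, inner_zz]
      refine tr (ContinuousLinearMap.id ℝ ℝ) (sm_dif (isOpen_Om hO) hs ⟨hG.maps _ _ h.1, hm h.2⟩)
        (sm_dif (isOpen_Om hO) hs h) (sm_dif isOpen_compl_singleton hG.sm₂ (h0 h.2))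
        ((ev_Om hO h).mono fun η' h' => ?_) w
      have := hG.fderiv_F h'.1 0 (Y' η')
      rwa [map_zero, ← e η' h'.2] at this
  rw [ext, ext, map_neg, hG.Mi_nat h.1, ← h1, (hG.adj_inv (h0 h.2)).inverse_apply_eq.2 rfl]

lemma DD_nat (hG : Iso B.F G₁ G₂) (hm : MapsTo G₂ O O)
    (e : ∀ η ∈ O, Y' (G₂ η) = fderiv ℝ G₂ η (Y' η)) (h : (ξ, η) ∈ Om O) (u u' : Euc n) :
    B.DD Y' (fderiv ℝ G₂ η u) (fderiv ℝ G₂ η u') (G₁ ξ, G₂ η) = B.DD Y' u u' (ξ, η) := by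
  have hs := B.ext_sm hO h0 hY
  rw [DD, DD, tr (fderiv ℝ G₁ ξ) (sm_dif (isOpen_Om hO) hs ⟨hG.maps _ _ h.1, hm h.2⟩)
    (sm_dif (isOpen_Om hO) hs h) (sm_dif isOpen_compl_singleton hG.sm₂ (h0 h.2))
    ((ev_Om hO h).mono fun η' h' => B.ext_nat hO h0 hY hG hm e h') u,
    ← ContinuousLinearMap.adjoint_inner_left, hG.MM_nat h.1]

end Cone

end Crest.Agent.N221.K
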