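import Crest.Agent.N221.K.Alg

/-! Row 221, block K: step P4 and the output (leaf K-Fam). -/

set_option autoImplicit false
set_option linter.unusedSectionVars false
set_option linter.unusedVariables false

open Set Filter Topology
open scoped ContDiff RealInnerProductSpace
open Crest.GeometryTopology.Submanifold

noncomputable section

namespace Crest.Agent.N221.K

variable {n : ℕ}

namespace Fam

/-- determinant of the columns -/
def Dt : MultilinearMap ℝ (fun _ : Fin n => Euc n) ℝ :=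
  (Matrix.detRowAlternating (n := Fin n) (R := ℝ)).toMultilinearMap.compLinearMap
    fun _ => (WithLp.linearEquiv 2 ℝ (Fin n → ℝ)).toLinearMap

lemma Dt_eq (c : Fin n → Euc n) : (Matrix.of fun i j : Fin n => c j i).det = Dt c :=
  (Matrix.det_transpose _).symm

lemma cons_apply {k : ℕ} (Z : Euc n → Euc n) (Y : Fin k → Euc n → Euc n) (x : Euc n) :
    (fun j => (Fin.cons Z Y : Fin (k + 1) → Euc n → Euc n) j x) =
      Fin.cons (Z x) fun j => Y j x :=
  funext fun j => Fin.cases rfl (fun _ => rfl) j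

lemma cont {Y : Euc n → Euc n} (h : ContDiffOn ℝ ∞ Y {0}ᶜ) {x : Euc n} (hx : x ≠ 0) :
    DifferentiableAt ℝ Y x :=
  (h.contDiffAt (isOpen_compl_singleton.mem_nhds hx)).differentiableAt (by simp)

/-- `k` Killing fields independent at a point -/
def Rk (B : Cone n) (k : ℕ) (ξ : Euc n) : Prop := ∃ Y : Fin k → Euc n → Euc n,
  (∀ j, B.Kf (Y j)) ∧ LinearIndependent ℝ fun j => Y j ξ

lemma Rk.unit {B : Cone n} {k : ℕ} {ξ : Euc n} (h : Rk B k ξ) (hξ : ξ ≠ 0) :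
    ∃ ξ', ‖ξ'‖ = 1 ∧ Rk B k ξ' := by
  obtain ⟨Y, hY, hl⟩ := h
  have ht := inv_pos.2 (norm_pos_iff.2 hξ)
  refine ⟨‖ξ‖⁻¹ • ξ, norm_smul_inv_norm hξ, Y, hY, ?_⟩
  have e : (fun j => Y j (‖ξ‖⁻¹ • ξ)) =
      (fun _ : Fin k => Units.mk0 _ ht.ne') • fun j => Y j ξ :=
    funext fun j => (hY j).choose_spec.hom _ ht ξ
  rw [e]
  exact hl.units_smul _

lemma Rk.succ {B : Cone n} (hP : B.PerS) {k : ℕ} (hk : k < n) {ξ : Euc n} (h : Rk B k ξ)
    (hξ : ‖ξ‖ = 1) : ∃ ξ', ξ' ≠ 0 ∧ Rk B (k + 1) ξ' := by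
  obtain ⟨Y, hY, hl⟩ := h
  have hc : ∀ x, x ≠ 0 → ∀ j, ContinuousAt (Y j) x := fun x hx j =>
    (cont (hY j).choose_spec.sm hx).continuousAt
  have h0 : ξ ≠ 0 := norm_ne_zero_iff.1 (by rw [hξ]; exact one_ne_zero)
  obtain ⟨ε, hε, hU⟩ := Metric.eventually_nhds_iff.1
    ((continuousAt_pi.2 (hc ξ h0)).eventually hl.eventually)
  obtain ⟨P, R, hd, hp⟩ := B.dense ξ hξ ε hε
  have hP0 : P ≠ 0 := hp.1.2.1
  have hl := hU (y := P) (by rwa [dist_eq_norm])
  obtain ⟨Z, Z', hZ, z0, -, hs, -⟩ := hP P R hp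
  have ext : ∀ (V : Euc n → Euc n) (x : Euc n), B.Kf V →
      LinearIndependent ℝ (Fin.cons (V x) fun j => Y j x : Fin (k + 1) → Euc n) →
      Rk B (k + 1) x := fun V x hV h =>
    ⟨Fin.cons V Y, fun j => Fin.cases hV hY j, by rwa [cons_apply]⟩
  by_cases hPs : P ∈ Submodule.span ℝ (range fun j => Y j P)
  swap
  · exact ⟨P, hP0, ext (fun x => x) P ⟨_, B.kil_euler⟩ (linearIndependent_finCons.2 ⟨hl, hPs⟩)⟩
  obtain ⟨v, hv⟩ := exists_linearIndependent_cons_of_lt_finrank hl (by simpa using hk)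
  obtain ⟨v', s, rfl⟩ := hs v
  have l0 : LinearIndependent ℝ (Fin.cons (fderiv ℝ Z P v') fun j => Y j P : Fin (k + 1) → Euc n) :=
    linearIndependent_finCons.2 ⟨hl, fun h => (linearIndependent_finCons.1 hv).2
      (Submodule.add_mem _ h (Submodule.smul_mem _ _ hPs))⟩
  have d0 : HasDerivAt (fun t : ℝ => P + t • v') v' 0 := by
    simpa using ((hasDerivAt_id (0 : ℝ)).smul_const v').const_add P
  have t0 : Tendsto (fun t : ℝ => P + t • v') (𝓝[≠] 0) (𝓝 P) := by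
    simpa using d0.continuousAt.tendsto.mono_left nhdsWithin_le_nhds
  have d1 := hasDerivAt_iff_tendsto_slope_zero.1
    ((cont hZ.sm hP0).hasFDerivAt.comp_hasDerivAt_of_eq 0 d0 (by simp))
  simp only [Function.comp, zero_add, zero_smul, add_zero, z0, sub_zero] at d1
  have t1 : Tendsto (fun t : ℝ => (Fin.cons (t⁻¹ • Z (P + t • v')) fun j => Y j (P + t • v') :
      Fin (k + 1) → Euc n)) (𝓝[≠] 0) (𝓝 (Fin.cons (fderiv ℝ Z P v') fun j => Y j P)) :=
    tendsto_pi_nhds.2 fun j => Fin.cases d1 (fun j => (hc P hP0 j).tendsto.comp t0) j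
  obtain ⟨t, h1, h2⟩ := ((t1.eventually l0.eventually).and (t0.eventually_ne hP0)).exists
  rw [linearIndependent_finCons] at h1
  exact ⟨_, h2, ext Z _ ⟨_, hZ⟩ (linearIndependent_finCons.2
    ⟨h1.1, fun h => h1.2 (Submodule.smul_mem _ _ h)⟩)⟩

lemma rk {B : Cone n} (hP : B.PerS) : ∀ k, k ≤ n → ∃ ξ, ‖ξ‖ = 1 ∧ Rk B k ξ
  | 0, _ => ⟨ee ⟨0, by have := B.hn; omega⟩, by simp, Fin.elim0, fun j => j.elim0,
      linearIndependent_empty_type⟩
  | k + 1, hk => by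
    obtain ⟨ξ, h1, h2⟩ := rk hP k (by omega)
    obtain ⟨ξ', h3, h4⟩ := h2.succ hP hk h1
    exact h4.unit h3

lemma uu_eq (B : Cone n) (Y : Fin n → Euc n → Euc n) (ξ : Euc n) :
    B.uu Y ξ = B.ρ ξ * Dt fun j => Y j ξ := by rw [Cone.uu, Dt_eq fun j => Y j ξ]

lemma key (B : Cone n) {ι : Type} [Fintype ι] {Y : ι → Euc n → Euc n}
    (hs : ∀ Z, B.Kf Z → ∃ c : ι → ℝ, ∀ ξ, Z ξ = ∑ i, c i • Y i ξ) {Z : Fin n → Euc n → Euc n}
    (hZ : ∀ j, B.Kf (Z j)) :
    ∃ c : (Fin n → ι) → ℝ, ∀ ξ, B.uu Z ξ = ∑ w, c w * B.uu (fun j => Y (w j)) ξ := by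
  choose c hc using fun j => hs _ (hZ j)
  refine ⟨fun w => ∏ j, c j (w j), fun ξ => ?_⟩
  simp only [uu_eq, hc, MultilinearMap.map_sum, MultilinearMap.map_smul_univ, Finset.mul_sum,
    smul_eq_mul]
  exact Finset.sum_congr rfl fun w _ => by ring

lemma det_sm {Y : Fin n → Euc n → Euc n} (hY : ∀ j, ContDiffOn ℝ ∞ (Y j) {0}ᶜ) :
    ContDiffOn ℝ ∞ (fun ξ => (Matrix.of fun i j : Fin n => Y j ξ i).det) {0}ᶜ := by
  simp only [Matrix.det_apply', Matrix.of_apply]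
  exact ContDiffOn.sum fun σ _ => contDiffOn_const.mul
    (contDiffOn_prod fun j _ => contDiffOn_euclidean.1 (hY j) _)

lemma uu_der (B : Cone n) {Y : Fin n → Euc n → Euc n} (hY : ∀ j, B.Kf (Y j)) {Z : Euc n → Euc n}
    (hZ : B.Kf Z) : ∃ κ : ℝ, ∀ ξ, ξ ≠ 0 → fderiv ℝ (B.uu Y) ξ (Z ξ) = κ * B.uu Y ξ +
      ∑ k, B.uu (Function.update Y k (VectorField.lieBracket ℝ Z (Y k))) ξ := by
  obtain ⟨κ, hκ⟩ := Cone.Kil.div B hZ.choose_spec
  refine ⟨κ, fun ξ hξ => ?_⟩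
  have hn := isOpen_compl_singleton.mem_nhds hξ
  have d1 := (B.ρsm.contDiffAt hn).differentiableAt (by simp)
  have d2 := ((det_sm fun j => (hY j).choose_spec.sm).contDiffAt hn).differentiableAt (by simp)
  have e0 : B.uu Y = fun ξ => B.ρ ξ * (Matrix.of fun i j : Fin n => Y j ξ i).det := rfl
  have e1 : ∀ k, fderiv ℝ (Y k) ξ (Z ξ) =
      VectorField.lieBracket ℝ Z (Y k) ξ + fderiv ℝ Z ξ (Y k ξ) := fun k => by
    rw [VectorField.lieBracket_eq]; simp
  have e2 := sum_det_update (fderiv ℝ Z ξ) fun j => Y j ξ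
  have e3 : ∀ k V, (fun j => Function.update Y k V j ξ) =
      Function.update (fun j => Y j ξ) k (V ξ) := fun k V =>
    funext fun j => Function.apply_update (fun _ (W : Euc n → Euc n) => W ξ) Y k V j
  conv_lhs => rw [e0, fderiv_fun_mul d1 d2]
  simp only [add_apply, smul_apply, smul_eq_mul,
    fderiv_det fun j => cont (hY j).choose_spec.sm hξ]
  simp only [Dt_eq fun j => Y j ξ, Dt_eq (Function.update _ _ _)] at e2 ⊢
  simp only [uu_eq, e1, e3, MultilinearMap.map_update_add, Finset.sum_add_distrib, e2,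
    ← Finset.mul_sum]
  linear_combination (Dt fun j => Y j ξ) * hκ ξ hξ

end Fam

open Fam

namespace Cone

variable (B : Cone n)

/-- **P4** -/
theorem exists_uu (hP : B.PerS) : ∃ (Y : Fin n → Euc n → Euc n) (ξ : Euc n),
    (∀ j, B.Kf (Y j)) ∧ ‖ξ‖ = 1 ∧ B.uu Y ξ ≠ 0 := by
  obtain ⟨ξ, h1, Y, hY, hl⟩ := rk hP n le_rfl
  refine ⟨Y, ξ, hY, h1, mul_ne_zero (B.ρpos ξ (norm_ne_zero_iff.1 (by simp [h1]))).ne' ?_⟩
  exact ((Matrix.isUnit_iff_isUnit_det _).1 (Matrix.linearIndependent_cols_iff_isUnit.1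
    (hl.map' (WithLp.linearEquiv 2 ℝ (Fin n → ℝ)).toLinearMap (LinearEquiv.ker _)))).ne_zero

theorem outS (hP : B.PerS) : B.OutS := by
  obtain ⟨ι, _, Y, hY, hs⟩ := B.kil_fin
  refine ⟨ι, Fin n → ι, inferInstance, inferInstance, Y, fun w => B.uu fun j => Y (w j), hY, hs,
    fun w => B.ρsm.mul (det_sm fun j => (hY _).choose_spec.sm), fun w t ht ξ hξ => ?_, ?_,
    fun g hg w => ?_, fun Z hZ w => ?_⟩
  · have e : (fun j => Y (w j) (t • ξ)) = fun j => t • Y (w j) ξ :=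
      funext fun j => (hY _).choose_spec.hom t ht ξ
    dsimp only
    rw [uu_eq, uu_eq, e, MultilinearMap.map_smul_univ, B.ρhom t ht ξ hξ, Real.rpow_sub ht,
      Real.rpow_natCast]
    simp only [Finset.prod_const, Finset.card_univ, Fintype.card_fin, smul_eq_mul]
    field_simp
  · obtain ⟨Z, ξ, hZ, h1, h2⟩ := B.exists_uu hP
    obtain ⟨c, hc⟩ := key B hs hZ
    rw [hc] at h2
    obtain ⟨w, -, hw⟩ := Finset.exists_ne_zero_of_sum_ne_zero h2
    exact ⟨w, ξ, h1, right_ne_zero_of_mul hw⟩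
  · obtain ⟨σ, hσ⟩ := hg.rho
    obtain ⟨c, hc⟩ := key B hs (Z := fun j ξ => (fderiv ℝ g ξ).inverse (Y (w j) (g ξ)))
      fun j => ⟨_, Kil.pull B (hY _).choose_spec hg⟩
    refine ⟨fun w' => σ * c w', fun ξ hξ => ?_⟩
    have e := det_comp (fderiv ℝ g ξ) fun j => (fderiv ℝ g ξ).inverse (Y (w j) (g ξ))
    simp only [(hg.inv₁ hξ).self_apply_inverse] at e
    simp only [mul_assoc, ← Finset.mul_sum, ← hc]
    rw [uu, uu, e, ← mul_assoc, hσ ξ hξ, mul_assoc]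
  · obtain ⟨κ, hκ⟩ := uu_der B (Y := fun j => Y (w j)) (fun j => hY _) hZ
    obtain ⟨c, hc⟩ := key B hs (Z := fun j => Y (w j)) fun j => hY _
    choose c' hc' using fun k => key B hs
      (Z := Function.update (fun j => Y (w j)) k (VectorField.lieBracket ℝ Z (Y (w k)))) fun j => by
        rcases eq_or_ne j k with rfl | h
        · rw [Function.update_self]
          exact ⟨_, Kil.bracket B hZ.choose_spec (hY _).choose_spec⟩
        · rw [Function.update_of_ne h]; exact hY _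
    refine ⟨fun w' => κ * c w' + ∑ k, c' k w', fun ξ hξ => ?_⟩
    rw [hκ ξ hξ, hc ξ]
    simp only [hc', add_mul, Finset.sum_add_distrib, Finset.sum_mul, Finset.mul_sum, mul_assoc]
    rw [Finset.sum_comm]

end Cone

end Crest.Agent.N221.K
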