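import Crest.Agent.N221.K.Itr

/-! Row 221, block K: flat functions and the jet theorem (leaf K-Flat). -/

set_option autoImplicit false
set_option linter.unusedSectionVars false
set_option linter.unusedVariables false

open Set Filter Topology
open scoped ContDiff

noncomputable section

namespace Crest.Agent.N221.K

variable {V W : Type} [NormedAddCommGroup V] [NormedSpace ℝ V] [FiniteDimensional ℝ V]
  [NormedAddCommGroup W] [NormedSpace ℝ W] {Ω : Set V} {p₀ : V} {f g φ : V → ℝ} {X : V → V}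

lemma Flat.sm (h : Flat Ω p₀ f) : ContDiffOn ℝ ∞ f Ω := h 0

lemma Flat.zero (h : Flat Ω p₀ f) : f p₀ = 0 := (h 1).2.1

namespace FlP

lemma sm {k : ℕ} (h : FlatK Ω p₀ k f) : ContDiffOn ℝ ∞ f Ω := by
  cases k with
  | zero => exact h
  | succ k => exact h.1

lemma pred (k : ℕ) : ∀ {f : V → ℝ}, FlatK Ω p₀ (k + 1) f → FlatK Ω p₀ k f := by
  induction k with
  | zero => exact fun h => h.1
  | succ k ih => exact fun h => ⟨h.1, h.2.1, fun v => ih (h.2.2 v)⟩

lemma zero (k : ℕ) : FlatK Ω p₀ k fun _ => 0 := by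
  induction k with
  | zero => exact contDiffOn_const
  | succ k ih =>
    refine ⟨contDiffOn_const, rfl, fun v => ?_⟩
    have : dX (fun _ => v) (fun _ : V => (0 : ℝ)) = fun _ => 0 := by
      funext p; simp [dX]
    rwa [this]

lemma expand {ι : Type} [Fintype ι] (b : Module.Basis ι ℝ V) (L : V →L[ℝ] ℝ) (v : V) :
    L v = ∑ i, b.repr v i * L (b i) := by
  conv_lhs => rw [← b.sum_repr v]
  simp only [map_sum, map_smul, smul_eq_mul]

lemma repr_sm {ι : Type} (b : Module.Basis ι ℝ V) (i : ι) (hX : ContDiffOn ℝ ∞ X Ω) :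
    ContDiffOn ℝ ∞ (fun p => b.repr (X p) i) Ω :=
  (LinearMap.toContinuousLinearMap (b.coord i)).contDiff.comp_contDiffOn hX

lemma diff {U : Type} [NormedAddCommGroup U] [NormedSpace ℝ U] {y : V → U} (hΩ : IsOpen Ω)
    (hy : ContDiffOn ℝ ∞ y Ω) {p : V} (hp : p ∈ Ω) : DifferentiableAt ℝ y p :=
  (hy.contDiffAt (hΩ.mem_nhds hp)).differentiableAt (by simp)

lemma inv_sm {y : V → V} (hΩ : IsOpen Ω) (hy : ContDiffOn ℝ ∞ y Ω)
    (hi : ∀ p ∈ Ω, (fderiv ℝ y p).IsInvertible) :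
    ContDiffOn ℝ ∞ (fun p => (fderiv ℝ y p).inverse) Ω := fun p hp => by
  have := FiniteDimensional.complete ℝ V
  exact (hi p hp).contDiffAt_map_inverse.comp_contDiffWithinAt p
    (hy.fderiv_of_isOpen (m := ∞) hΩ (by simp) p hp)

/-- growth of the product of the norms -/
lemma nprod_gr {ι : Type} (T : ℕ → V → V) (b : ι → V) (s : ι → ℝ) (ε : ℝ)
    (h : ∀ i, ∃ C : ℝ, ∀ j : ℕ, ‖T j (b i)‖ ≤ C * Real.exp ((s i + ε) * j)) (is : List ι) :
    ∃ C : ℝ, ∀ j : ℕ, nprod ((is.map b).map (T j)) ≤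
      C * Real.exp (((is.map s).sum + is.length * ε) * j) := by
  induction is with
  | nil => exact ⟨1, fun j => by simp [nprod]⟩
  | cons i is ih =>
    obtain ⟨C, hC⟩ := ih
    obtain ⟨D, hD⟩ := h i
    refine ⟨D * C, fun j => ?_⟩
    rw [List.map_cons, List.map_cons, nprod_cons]
    refine (mul_le_mul (hD j) (hC j) (nprod_nonneg _) ((norm_nonneg _).trans (hD j))).trans_eq ?_
    rw [mul_mul_mul_comm, ← Real.exp_add, List.map_cons, List.sum_cons, List.length_cons]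
    push_cast
    congr 2
    ring

/-- an invariant multilinear form vanishes on contracted vectors -/
lemma van {ι : Type} (I : List V → ℝ) (T : ℕ → V → V) (b : ι → V) (s : ι → ℝ) (is : List ι)
    (hI : ∀ j ws, I ws = I (ws.map (T j)))
    (hb : ∃ C : ℝ, 0 ≤ C ∧ ∀ ws : List V, ws.length = is.length → |I ws| ≤ C * nprod ws)
    (h : ∀ ε : ℝ, 0 < ε → ∀ i, ∃ C : ℝ, ∀ j : ℕ, ‖T j (b i)‖ ≤ C * Real.exp ((s i + ε) * j))
    (hs : (is.map s).sum < 0) : I (is.map b) = 0 := by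
  obtain ⟨C, hC0, hC⟩ := hb
  have hl : (0 : ℝ) < is.length + 1 := by positivity
  obtain ⟨D, hD⟩ := nprod_gr T b s _ (h (-(is.map s).sum / (is.length + 1))
    (div_pos (neg_pos.2 hs) hl)) is
  have hc : (is.map s).sum + is.length * (-(is.map s).sum / (is.length + 1)) < 0 := by
    have : (is.map s).sum + is.length * (-(is.map s).sum / (is.length + 1)) =
        (is.map s).sum / (is.length + 1) := by
      field_simp
      ring
    rw [this]
    exact div_neg_of_neg_of_pos hs hl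
  generalize (is.map s).sum + is.length * (-(is.map s).sum / (is.length + 1)) = c at hD hc
  have ht : Tendsto (fun j : ℕ => C * (D * Real.exp (c * j))) atTop (𝓝 (C * (D * 0))) :=
    ((Real.tendsto_exp_atBot.comp
      (tendsto_natCast_atTop_atTop.const_mul_atTop_of_neg hc)).const_mul D).const_mul C
  rw [mul_zero, mul_zero] at ht
  refine abs_nonpos_iff.1 (ge_of_tendsto' ht fun j => ?_)
  rw [hI j]
  exact (hC _ (by simp)).trans (mul_le_mul_of_nonneg_left (hD j) hC0)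

lemma iter (I : List V → ℝ) (Λ : V → V) (h : ∀ ws, I ws = I (ws.map Λ)) (j : ℕ) (ws : List V) :
    I ws = I (ws.map Λ^[j]) := by
  induction j with
  | zero => simp
  | succ j ih => rw [ih, h, List.map_map, Function.iterate_succ']

variable (hΩ : IsOpen Ω) (hp : p₀ ∈ Ω)
include hΩ hp

lemma congr (k : ℕ) : ∀ {f g : V → ℝ}, FlatK Ω p₀ k f → EqOn f g Ω → FlatK Ω p₀ k g := by
  induction k with
  | zero => exact fun h e => ContDiffOn.congr h fun x hx => (e hx).symm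
  | succ k ih =>
    exact fun h e => ⟨h.1.congr fun x hx => (e hx).symm, (e hp).symm.trans h.2.1,
      fun v => ih (h.2.2 v) (dX_congr hΩ e)⟩

lemma add (k : ℕ) : ∀ {f g : V → ℝ}, FlatK Ω p₀ k f → FlatK Ω p₀ k g →
    FlatK Ω p₀ k fun q => f q + g q := by
  induction k with
  | zero => exact fun h h' => ContDiffOn.add h h'
  | succ k ih =>
    refine fun h h' => ⟨h.1.add h'.1, by simp only [h.2.1, h'.2.1, add_zero], fun v =>
      congr hΩ hp k (ih (h.2.2 v) (h'.2.2 v)) fun q hq => ?_⟩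
    simp only [dX]
    rw [fderiv_fun_add (diff hΩ h.1 hq) (diff hΩ h'.1 hq)]
    rfl

lemma mul (k : ℕ) : ∀ {φ f : V → ℝ}, ContDiffOn ℝ ∞ φ Ω → FlatK Ω p₀ k f →
    FlatK Ω p₀ k fun q => φ q * f q := by
  induction k with
  | zero => exact fun h h' => ContDiffOn.mul h h'
  | succ k ih =>
    refine fun h h' => ⟨h.mul h'.1, by simp only [h'.2.1, mul_zero], fun v =>
      congr hΩ hp k (add hΩ hp k (ih h (h'.2.2 v))
        (ih (dX_sm hΩ (X := fun _ => v) contDiffOn_const h) (pred k h'))) fun q hq => ?_⟩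
    simp only [dX]
    rw [fderiv_fun_mul (diff hΩ h hq) (diff hΩ h'.1 hq)]
    simp [mul_comm]

lemma sum (k : ℕ) {ι : Type} (s : Finset ι) {F : ι → V → ℝ} (h : ∀ i ∈ s, FlatK Ω p₀ k (F i)) :
    FlatK Ω p₀ k fun q => ∑ i ∈ s, F i q := by
  classical
  induction s using Finset.induction_on with
  | empty => simpa using zero k
  | insert a s ha ih =>
    simp only [Finset.sum_insert ha]
    exact add hΩ hp k (h a (Finset.mem_insert_self a s))
      (ih fun i hi => h i (Finset.mem_insert_of_mem hi))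

lemma bound (k : ℕ) : ∀ {f : V → ℝ}, FlatK Ω p₀ k f →
    ∃ C : ℝ, ∀ᶠ p in 𝓝 p₀, |f p| ≤ C * ‖p - p₀‖ ^ k := by
  induction k with
  | zero =>
    intro f h
    have hc := (diff hΩ (sm h) hp).continuousAt.abs
    refine ⟨|f p₀| + 1, (hc.eventually (gt_mem_nhds (lt_add_one _))).mono fun p h => ?_⟩
    rw [pow_zero, mul_one]
    exact h.le
  | succ k ih =>
    intro f h
    let b := Module.finBasis ℝ V
    obtain ⟨K, hK0, hK⟩ := b.exists_opNorm_le (F := ℝ)
    choose C hC using fun i => ih (h.2.2 (b i))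
    have h1 := (eventually_all.2 hC).and (hΩ.mem_nhds hp)
    obtain ⟨ε, hε, h2⟩ := Metric.eventually_nhds_iff_ball.1 h1
    have hM : 0 ≤ ∑ i, |C i| := Finset.sum_nonneg fun i _ => abs_nonneg _
    refine ⟨K * ∑ i, |C i|, ?_⟩
    filter_upwards [Metric.ball_mem_nhds p₀ hε] with p hpb
    have hs : Metric.closedBall p₀ ‖p - p₀‖ ⊆ Metric.ball p₀ ε :=
      Metric.closedBall_subset_ball (by rwa [mem_ball_iff_norm] at hpb)
    have h3 := (convex_closedBall p₀ ‖p - p₀‖).norm_image_sub_le_of_norm_fderiv_le (𝕜 := ℝ)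
      (f := f) (C := K * ((∑ i, |C i|) * ‖p - p₀‖ ^ k))
      (fun q hq => diff hΩ h.1 (h2 q (hs hq)).2)
      (fun q hq => hK (by positivity) fun i => ((h2 q (hs hq)).1 i).trans (mul_le_mul
        ((le_abs_self _).trans (Finset.single_le_sum (f := fun i => |C i|)
          (fun i _ => abs_nonneg _) (Finset.mem_univ i)))
        (pow_le_pow_left₀ (norm_nonneg _) (mem_closedBall_iff_norm.1 hq) k) (by positivity) hM))
      (Metric.mem_closedBall_self (norm_nonneg _)) (mem_closedBall_iff_norm.2 le_rfl)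
    rw [h.2.1, sub_zero, Real.norm_eq_abs] at h3
    refine h3.trans_eq ?_
    ring

lemma frame {ι : Type} [Fintype ι] (b : Module.Basis ι ℝ V) {y : V → V}
    (hy : ContDiffOn ℝ ∞ y Ω) (hi : ∀ p ∈ Ω, (fderiv ℝ y p).IsInvertible) (k : ℕ) :
    ∀ {f : V → ℝ}, ContDiffOn ℝ ∞ f Ω →
      (∀ is : List ι, itr (fun p => (fderiv ℝ y p).inverse) (is.map b) f p₀ = 0) →
      FlatK Ω p₀ k f := by
  induction k with
  | zero => exact fun hf _ => hf
  | succ k ih =>
    intro f hf h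
    refine ⟨hf, h [], fun v => congr hΩ hp k (sum hΩ hp k Finset.univ fun i _ =>
      mul hΩ hp k (repr_sm (X := fun p => fderiv ℝ y p v) b i
        ((hy.fderiv_of_isOpen (m := ∞) hΩ (by simp)).clm_apply contDiffOn_const))
        (ih (dN_sm hΩ (inv_sm hΩ hy hi) hf) fun is => h (i :: is))) fun q hq => ?_⟩
    have e := expand b (fderiv ℝ f q ∘L (fderiv ℝ y q).inverse) (fderiv ℝ y q v)
    rw [ContinuousLinearMap.comp_apply, (hi q hq).inverse_apply_eq.2 rfl] at e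
    exact e.symm

omit hp in
/-- commutation with the linear field -/
lemma comm {y : V → V} (hy : ContDiffOn ℝ ∞ y Ω) (hi : ∀ p ∈ Ω, (fderiv ℝ y p).IsInvertible)
    (𝔸 : V →L[ℝ] V) (hg : ContDiffOn ℝ ∞ g Ω) (w : V) {p : V} (hp : p ∈ Ω) :
    dN (fun p => (fderiv ℝ y p).inverse) w
        (dX (fun p => (fderiv ℝ y p).inverse (𝔸 (y p))) g) p =
      dX (fun p => (fderiv ℝ y p).inverse (𝔸 (y p))) (dN (fun p => (fderiv ℝ y p).inverse) w g) p +
        dN (fun p => (fderiv ℝ y p).inverse) (𝔸 w) g p := by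
  have := FiniteDimensional.complete ℝ V
  have hN := inv_sm hΩ hy hi
  have h1 := dX_comm hΩ (X := fun p => (fderiv ℝ y p).inverse w)
    (Y := fun p => (fderiv ℝ y p).inverse (𝔸 (y p))) (hN.clm_apply contDiffOn_const)
    (hN.clm_apply (𝔸.contDiff.comp_contDiffOn hy)) hg hp
  have h2 := VectorField.pullback_lieBracket (𝕜 := ℝ) (n := ∞) (by
      rw [minSmoothness_of_isRCLikeNormedField]; exact WithTop.coe_le_coe.2 le_top)
    (V := fun _ => w) (W := 𝔸) (hy.contDiffAt (hΩ.mem_nhds hp)) (differentiableAt_const w)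
    𝔸.differentiableAt
  have h3 : VectorField.lieBracket ℝ (fun p => (fderiv ℝ y p).inverse w)
      (fun p => (fderiv ℝ y p).inverse (𝔸 (y p))) p = (fderiv ℝ y p).inverse (𝔸 w) := by
    refine h2.symm.trans ?_
    simp [VectorField.pullback, VectorField.lieBracket]
  rw [h3] at h1
  exact sub_eq_iff_eq_add'.1 h1

omit hp in
lemma itr_comm {ι : Type} (b : ι → V) {y : V → V} (hy : ContDiffOn ℝ ∞ y Ω)
    (hi : ∀ p ∈ Ω, (fderiv ℝ y p).IsInvertible) (r : ι → ℝ) (𝔸 : V →L[ℝ] V)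
    (hb : ∀ i, 𝔸 (b i) = r i • b i) {p : V} (hp : p ∈ Ω) (is : List ι) :
    ∀ {g : V → ℝ}, ContDiffOn ℝ ∞ g Ω →
      itr (fun p => (fderiv ℝ y p).inverse) (is.map b)
          (dX (fun p => (fderiv ℝ y p).inverse (𝔸 (y p))) g) p =
        dX (fun p => (fderiv ℝ y p).inverse (𝔸 (y p)))
            (itr (fun p => (fderiv ℝ y p).inverse) (is.map b) g) p +
          (is.map r).sum * itr (fun p => (fderiv ℝ y p).inverse) (is.map b) g p := by
  have hN := inv_sm hΩ hy hi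
  induction is with
  | nil => intro g _; simp
  | cons i is ih =>
    intro g hg
    have h1 := dN_sm hΩ hN (w := b i) hg
    have h2 := dX_sm hΩ (X := fun p => (fderiv ℝ y p).inverse (𝔸 (y p)))
      (hN.clm_apply (𝔸.contDiff.comp_contDiffOn hy)) h1
    have e : EqOn (dN (fun p => (fderiv ℝ y p).inverse) (b i)
        (dX (fun p => (fderiv ℝ y p).inverse (𝔸 (y p))) g))
        (fun q => dX (fun p => (fderiv ℝ y p).inverse (𝔸 (y p)))
          (dN (fun p => (fderiv ℝ y p).inverse) (b i) g) q +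
          r i * dN (fun p => (fderiv ℝ y p).inverse) (b i) g q) Ω := fun q hq => by
      rw [comm hΩ hy hi 𝔸 hg (b i) hq, hb]
      simp only [dN, map_smul, smul_eq_mul]
    simp only [List.map_cons, itr_cons, List.sum_cons]
    rw [itr_congr hΩ _ e hp, itr_add hΩ hN _ h2 (contDiffOn_const.mul h1) hp,
      itr_cmul hΩ hN _ _ h1 hp, ih h1]
    ring

end FlP

variable (hΩ : IsOpen Ω) (hp : p₀ ∈ Ω)
include hΩ hp

lemma Flat.congr (h : Flat Ω p₀ f) (e : EqOn f g Ω) : Flat Ω p₀ g :=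
  fun k => FlP.congr hΩ hp k (h k) e

lemma Flat.add (h : Flat Ω p₀ f) (h' : Flat Ω p₀ g) : Flat Ω p₀ (fun q => f q + g q) :=
  fun k => FlP.add hΩ hp k (h k) (h' k)

lemma Flat.mul (hφ : ContDiffOn ℝ ∞ φ Ω) (h : Flat Ω p₀ f) : Flat Ω p₀ (fun q => φ q * f q) :=
  fun k => FlP.mul hΩ hp k hφ (h k)

lemma Flat.sum {ι : Type} (s : Finset ι) {F : ι → V → ℝ} (h : ∀ i ∈ s, Flat Ω p₀ (F i)) :
    Flat Ω p₀ (fun q => ∑ i ∈ s, F i q) :=
  fun k => FlP.sum hΩ hp k s fun i hi => h i hi k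

lemma Flat.derX (hX : ContDiffOn ℝ ∞ X Ω) (h : Flat Ω p₀ f) : Flat Ω p₀ (dX X f) :=
  fun k => FlP.congr hΩ hp k (FlP.sum hΩ hp k Finset.univ fun i _ =>
    FlP.mul hΩ hp k (FlP.repr_sm (Module.finBasis ℝ V) i hX)
      ((h (k + 1)).2.2 (Module.finBasis ℝ V i)))
    fun q _ => (FlP.expand (Module.finBasis ℝ V) (fderiv ℝ f q) (X q)).symm

lemma Flat.derN {N : V → W →L[ℝ] V} (hN : ContDiffOn ℝ ∞ N Ω) (w : W) (h : Flat Ω p₀ f) :
    Flat Ω p₀ (dN N w f) :=
  Flat.derX hΩ hp (X := fun p => N p w) (hN.clm_apply contDiffOn_const) h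

/-- Taylor: induction on `k` for all `FlatK k f`, mean value inequality on a ball -/
lemma Flat.bound (h : Flat Ω p₀ f) (k : ℕ) :
    ∃ C : ℝ, ∀ᶠ p in 𝓝 p₀, |f p| ≤ C * ‖p - p₀‖ ^ k :=
  FlP.bound hΩ hp k (h k)

/-- flatness can be tested in the frame dual to `dy` -/
lemma flat_of_frame {ι : Type} [Fintype ι] (b : Module.Basis ι ℝ V) {y : V → V}
    (hy : ContDiffOn ℝ ∞ y Ω) (hi : ∀ p ∈ Ω, (fderiv ℝ y p).IsInvertible)
    (hf : ContDiffOn ℝ ∞ f Ω)
    (h : ∀ is : List ι, itr (fun p => (fderiv ℝ y p).inverse) (is.map b) f p₀ = 0) :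
    Flat Ω p₀ f :=
  fun k => FlP.frame hΩ hp b hy hi k hf h

/-- **jet theorem**: `f` is invariant under `G`, which is the linear map `Λ` in the coordinates
`y`; then the derivative of `f` along the linear field `𝔸` ("`log |Λ|`") is flat at the fixed
point. -/
theorem flat_jet {ι : Type} [Fintype ι] (b : Module.Basis ι ℝ V) {y G : V → V}
    (hy : ContDiffOn ℝ ∞ y Ω) (hi : ∀ p ∈ Ω, (fderiv ℝ y p).IsInvertible)
    (hG : ContDiffOn ℝ ∞ G Ω) (hm : MapsTo G Ω Ω) (h0 : G p₀ = p₀) (Λ : V ≃L[ℝ] V)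
    (hΛ : ∀ p ∈ Ω, y (G p) = Λ (y p)) (hf : ContDiffOn ℝ ∞ f Ω) (hfG : ∀ p ∈ Ω, f (G p) = f p)
    (r : ι → ℝ) (𝔸 : V →L[ℝ] V) (hb : ∀ i, Gr Λ (r i) (b i) ∧ 𝔸 (b i) = r i • b i)
    (hA : 𝔸 (y p₀) = 0) :
    Flat Ω p₀ (fun p => fderiv ℝ f p ((fderiv ℝ y p).inverse (𝔸 (y p)))) := by
  have hN := FlP.inv_sm hΩ hy hi
  have e : ∀ p ∈ Ω, ∀ w, fderiv ℝ G p ((fderiv ℝ y p).inverse w) =
      (fderiv ℝ y (G p)).inverse (Λ w) := fun p hp w => by
    have h1 := (FlP.diff hΩ hy (hm hp)).hasFDerivAt.comp p (FlP.diff hΩ hG hp).hasFDerivAt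
    have h2 := ((Λ : V →L[ℝ] V).hasFDerivAt.comp p
      (FlP.diff hΩ hy hp).hasFDerivAt).congr_of_eventuallyEq (f₁ := y ∘ G)
      (eventually_of_mem (hΩ.mem_nhds hp) hΛ)
    have h3 := DFunLike.congr_fun (h1.unique h2) ((fderiv ℝ y p).inverse w)
    simp only [ContinuousLinearMap.comp_apply, (hi p hp).self_apply_inverse] at h3
    exact ((hi _ (hm hp)).inverse_apply_eq.2 h3.symm).symm
  set I : List V → ℝ := fun ws => itr (fun p => (fderiv ℝ y p).inverse) ws f p₀ with hI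
  have i1 : ∀ ws, I ws = I (ws.map Λ) := fun ws => by
    have h1 := itr_nat hΩ hN hΩ hN hG hm Λ e hf ws hp
    rw [h0, itr_congr hΩ ws (g := f) hfG hp] at h1
    exact h1
  have i2 : ∀ ws, I ws = I (ws.map Λ.symm) := fun ws => by
    rw [i1 (ws.map Λ.symm), List.map_map, Λ.self_comp_symm, List.map_id]
  have i3 : ∀ k : ℕ, ∃ C : ℝ, 0 ≤ C ∧ ∀ ws : List V, ws.length = k → |I ws| ≤ C * nprod ws := by
    intro k
    obtain ⟨C, hC, h1⟩ := itr_bound hΩ hN (𝒞 := {g | ContDiffOn ℝ ∞ g Ω})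
      (fun g hg => ⟨hg, fun w => dN_sm hΩ hN hg⟩) (L := pure p₀) (by simpa using hp)
      (wt := fun _ => 1) (fun _ => zero_le_one) (fun g _ => ⟨|g p₀|, by simp⟩) k hf
    exact ⟨C, hC, by simpa using h1⟩
  refine flat_of_frame hΩ hp b hy hi
    (dX_sm hΩ (hN.clm_apply (𝔸.contDiff.comp_contDiffOn hy)) hf) fun is => ?_
  refine (FlP.itr_comm hΩ b hy hi r 𝔸 (fun i => (hb i).2) hp is hf).trans ?_
  rw [dX, hA, map_zero, map_zero, zero_add]
  rcases lt_trichotomy (is.map r).sum 0 with h | h | h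
  · exact mul_eq_zero_of_right _ (FlP.van I (fun j => Λ^[j]) b r is (FlP.iter I Λ i1) (i3 _)
      (fun ε hε i => ((hb i).1 ε hε).imp fun C hC j => (hC j).1) h)
  · rw [h, zero_mul]
  · refine mul_eq_zero_of_right _ (FlP.van I (fun j => Λ.symm^[j]) b (fun i => -r i) is
      (FlP.iter I Λ.symm i2) (i3 _) (fun ε hε i => ((hb i).1 ε hε).imp fun C hC j => (hC j).2) ?_)
    have := List.sum_neg (is.map r)
    rw [List.map_map] at this
    exact this.symm.trans_lt (neg_neg_of_pos h)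

end Crest.Agent.N221.K
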