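import Crest.Agent.N221.K.Ext

/-! Row 221, block K: step P3, global extension (leaf K-Glue). -/

set_option autoImplicit false
set_option linter.unusedSectionVars false
set_option linter.unusedVariables false

open Set Filter Topology
open scoped ContDiff RealInnerProductSpace
open Crest.GeometryTopology.Submanifold

noncomputable section

namespace Crest.Agent.N221.K

variable {n : ℕ} {O : Set (Euc n)} {Y Y' : Euc n → Euc n}

namespace Cone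

variable (B : Cone n) (hO : IsOpen O) (h0 : O ⊆ {0}ᶜ) (hY : ContDiffOn ℝ ∞ Y' O)
include hO h0 hY

namespace Gl

/-- `ext` agrees over `η` and `η'` -/
def R (B : Cone n) (Y' : Euc n → Euc n) (η η' : Euc n) : Prop :=
  ∀ ξ ∈ sl η ∩ sl η', B.ext Y' (ξ, η) = B.ext Y' (ξ, η')

lemma slice {η : Euc n} (hη : η ∈ O) : ContDiffOn ℝ ∞ (fun ξ => B.ext Y' (ξ, η)) (sl η) :=
  (B.ext_sm hO h0 hY).comp (contDiffOn_id.prodMk contDiffOn_const) fun _ hξ => ⟨hξ, hη⟩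

lemma of_dense {η η' : Euc n} (hη : η ∈ O) (hη' : η' ∈ O) {D : Set (Euc n)} (hD : Dense D)
    (h : ∀ ξ ∈ sl η ∩ sl η' ∩ D, B.ext Y' (ξ, η) = B.ext Y' (ξ, η')) : R B Y' η η' :=
  EqOn.of_subset_closure (s := sl η ∩ sl η' ∩ D) h
    ((slice B hO h0 hY hη).continuousOn.mono inter_subset_left)
    ((slice B hO h0 hY hη').continuousOn.mono inter_subset_right) inter_subset_left
    (hD.open_subset_closure_inter ((isOpen_sl η).inter (isOpen_sl η')))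

lemma loc (hD : ∀ p ∈ Om O, ∀ u u', B.DD Y' u u' p = 0) {η η' : Euc n} (h : segment ℝ η η' ⊆ O) :
    R B Y' η η' := by
  refine of_dense B hO h0 hY (h (left_mem_segment ℝ η η')) (h (right_mem_segment ℝ η η'))
    (dense_plane B.hn η η') fun ξ hξ => ?_
  have key : ∀ z ∈ segment ℝ η η', HasFDerivWithinAt (fun z => B.ext Y' (ξ, z))
      (0 : Euc n →L[ℝ] Euc n) (segment ℝ η η') z := fun z hz => by
    have hp : (ξ, z) ∈ Om O := by
      refine ⟨(mem_sl_iff (h0 (h hz))).2 ?_, h hz⟩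
      obtain ⟨a, b, -, -, -, rfl⟩ := hz
      rintro ⟨r, -, e⟩
      exact hξ.2 (r * a) (r * b) (by rw [e, smul_add, smul_smul, smul_smul])
    have h1 := (((B.ext_sm hO h0 hY).contDiffAt ((isOpen_Om hO).mem_nhds hp)).differentiableAt
      (by simp)).hasFDerivAt.comp z (hasFDerivAt_prodMk_right ξ z)
    refine (h1.congr_fderiv (ContinuousLinearMap.ext fun u => ?_)).hasFDerivWithinAt
    have h2 : MM B.F (ξ, z) (fderiv ℝ (B.ext Y') (ξ, z) (0, u)) = 0 :=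
      inner_self_eq_zero.1 (hD _ hp u _)
    simpa [h2] using (B.Mi_MM hp.1 (fderiv ℝ (B.ext Y') (ξ, z) (0, u))).symm
  have := (convex_segment η η').norm_image_sub_le_of_norm_hasFDerivWithin_le (C := 0) key
    (fun _ _ => norm_zero.le) (right_mem_segment ℝ η η') (left_mem_segment ℝ η η')
  simpa [sub_eq_zero] using this

lemma all (hc : IsPreconnected O) (hD : ∀ p ∈ Om O, ∀ u u', B.DD Y' u u' p = 0) {η η' : Euc n}
    (hη : η ∈ O) (hη' : η' ∈ O) : R B Y' η η' := by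
  refine hc.induction₂ (R B Y') (fun x hx => ?_) (fun x y z hx hy hz h1 h2 => ?_)
    (fun x y _ _ h ξ hξ => (h ξ ⟨hξ.2, hξ.1⟩).symm) hη hη'
  · obtain ⟨ε, hε, hb⟩ := Metric.isOpen_iff.1 hO x hx
    exact mem_nhdsWithin_of_mem_nhds (mem_of_superset (Metric.ball_mem_nhds x hε) fun y hy =>
      loc B hO h0 hY hD (((convex_ball x ε).segment_subset (Metric.mem_ball_self hε) hy).trans hb))
  · refine of_dense B hO h0 hY hx hz (dense_plane B.hn y y) fun ξ hξ => ?_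
    have := (mem_sl_of_plane (h0 hy) (h0 hy) hξ.2).1
    exact (h1 ξ ⟨hξ.1.1, this⟩).trans (h2 ξ ⟨this, hξ.1.2⟩)

/-- Euler's identity for `psi` in the second variable -/
lemma euler_psi {ξ η : Euc n} (hp : (ξ, η) ∈ Om O) (hE : fderiv ℝ Y' η η = Y' η) :
    fderiv ℝ (B.psi Y') (ξ, η) (0, η) = B.psi Y' (ξ, η) := by
  have h1 := (((zz_sm Cov.isOpen_GO B.sm).contDiffAt (Cov.isOpen_GO.mem_nhds hp.1)).differentiableAt
    (by simp)).hasFDerivAt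
  have h2 : HasFDerivAt (fun q : PE n => Y' q.2) _ (ξ, η) :=
    ((hY.contDiffAt (hO.mem_nhds hp.2)).differentiableAt (by simp)).hasFDerivAt.comp
      (ξ, η) hasFDerivAt_snd
  have h3 := B.QQ_self hp.1 (Y' η)
  rw [B.QQ_eq hp.1] at h3
  rw [funext (B.psi_eq Y'), (h1.inner ℝ h2).fderiv]
  simp [hE, h3]

end Gl

/-- vanishing defect: `ext Y' (ξ, η)` does not depend on `η` -/
theorem glue (hc : IsPreconnected O) (hne : O.Nonempty)
    (hE : ∀ η ∈ O, fderiv ℝ Y' η η = Y' η) (hD : ∀ p ∈ Om O, ∀ u u', B.DD Y' u u' p = 0) :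
    ∃ Y, ContDiffOn ℝ ∞ Y {0}ᶜ ∧ Hom1 Y ∧ (∀ p ∈ Om O, Y p.1 = B.ext Y' p) ∧
      ∀ p ∈ Om O, B.del Y Y' p = 0 := by
  classical
  obtain ⟨Y, hz, h1⟩ : ∃ Y : Euc n → Euc n, Y 0 = 0 ∧ ∀ p ∈ Om O, Y p.1 = B.ext Y' p := by
    refine ⟨fun ξ => if h : ∃ η ∈ O, ξ ∈ sl η then B.ext Y' (ξ, h.choose) else 0,
      dif_neg fun ⟨η, _, h⟩ => sl_sub η h rfl, fun p hp => ?_⟩
    have h : ∃ η ∈ O, p.1 ∈ sl η := ⟨p.2, hp.2, hp.1⟩
    simp only [dif_pos h]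
    exact Gl.all B hO h0 hY hc hD h.choose_spec.1 hp.2 _ ⟨h.choose_spec.2, hp.1⟩
  have h2 : ∀ ξ : Euc n, ξ ≠ 0 → ∃ η, (ξ, η) ∈ Om O := fun ξ hξ =>
    (exists_mem_sl B.hn hO hne hξ hξ).imp fun η h => ⟨Cov.GO_symm h.2.1, h.1⟩
  refine ⟨Y, fun ξ hξ => ?_, fun t ht ξ => ?_, h1, fun p hp => ?_⟩
  · obtain ⟨η, hη⟩ := h2 ξ hξ
    have := (isOpen_sl η).mem_nhds hη.1
    exact (((Gl.slice B hO h0 hY hη.2).contDiffAt this).congr_of_eventuallyEq
      (mem_of_superset this fun x hx => h1 (x, η) ⟨hx, hη.2⟩)).contDiffWithinAt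
  · by_cases hξ : ξ = 0
    · simp [hξ, hz]
    obtain ⟨η, hη⟩ := h2 ξ hξ
    have h3 := GO_smul ht one_pos hη.1
    rw [one_smul] at h3
    rw [h1 (t • ξ, η) ⟨h3, hη.2⟩, h1 (ξ, η) hη, B.ext_smul hO h0 hY ht hη]
  · obtain ⟨ξ, η⟩ := p
    have h3 : B.del Y Y' (ξ, η) = fderiv ℝ B.F (ξ, η) (Y ξ, 0) + B.psi Y' (ξ, η) := by
      rw [del, psi, ← map_add]; simp
    rw [h3, ← B.inner_MM_self hp.1, h1 (ξ, η) hp, ext, map_neg, B.MM_Mi hp.1, inner_neg_left,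
      inner_zz, Gl.euler_psi B hO h0 hY hp (hE η hp.2), neg_add_cancel]

theorem global (hQ : B.PolQ) (hne : O.Nonempty) (hs : ContDiffOn ℝ ∞ Y {0}ᶜ) (hh : Hom1 Y)
    (e : ∀ p ∈ Om O, B.del Y Y' p = 0) : ∃ Y'', B.Kil Y Y'' ∧ EqOn Y'' Y' O := by
  have o1 : IsOpen ({0}ᶜ : Set (Euc n)) := isOpen_compl_singleton
  have oV : IsOpen (GO n ∩ Prod.fst ⁻¹' O) := Cov.isOpen_GO.inter (hO.preimage continuous_fst)
  have dY : ∀ η ∈ O, DifferentiableAt ℝ Y' η := fun η hη =>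
    (hY.contDiffAt (hO.mem_nhds hη)).differentiableAt (by simp)
  have h1 : ∀ p ∈ GO n ∩ Prod.fst ⁻¹' O, B.ext Y p = Y' p.1 := fun p hp => by
    have a1 : B.del Y' Y =ᶠ[𝓝 p] fun _ => 0 := mem_of_superset (oV.mem_nhds hp) fun q hq =>
      (B.del_swap (Cov.GO_symm hq.1)).trans (e (q.2, q.1) ⟨Cov.GO_symm hq.1, hq.2⟩)
    have a2 := B.zz_del o1 subset_rfl hs (Om_compl.ge hp.1) (dY _ hp.2)
    have a3 := B.Mi_MM hp.1 (Y' p.1 - B.ext Y p)
    rw [← a2, zz, a1.fderiv_eq] at a3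
    simpa [eq_comm (a := (0 : Euc n)), sub_eq_zero, eq_comm (a := Y' p.1)] using a3
  have h2 : ∀ p ∈ GO n ∩ Prod.fst ⁻¹' O, ∀ u u', B.DD Y u u' p = 0 := fun p hp u u' => by
    have a1 : B.ext Y =ᶠ[𝓝 p] Y' ∘ Prod.fst := mem_of_superset (oV.mem_nhds hp) h1
    rw [DD, a1.fderiv_eq, ((dY _ hp.2).hasFDerivAt.comp p hasFDerivAt_fst).fderiv]
    simp
  obtain ⟨k, hk⟩ := B.DD_pol o1 subset_rfl hs hQ
  obtain ⟨Y'', s1, s2, s3, s4⟩ := B.glue o1 subset_rfl hs (isPreconnected_ne B.hn) (hne.mono h0)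
    (fun η hη => hh.euler ((hs.contDiffAt (o1.mem_nhds hη)).differentiableAt (by simp)))
    fun p hp u u' => by
      obtain ⟨η, a1, a2, -⟩ := exists_mem_sl B.hn hO hne hp.2 hp.2
      exact B.ident_open ((hk u u').2 _ hp.2).2 ((hk u u').2 _ hp.2).1 a2
        (mem_of_superset (((isOpen_sl p.2).inter hO).mem_nhds ⟨a2, a1⟩) fun x hx =>
          h2 (x, p.2) hx u u') _ hp.1
  refine ⟨Y'', Kil.swap B ⟨s1, hs, s2, hh, fun p hp => s4 p (Om_compl.ge hp)⟩, fun η hη => ?_⟩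
  obtain ⟨ξ, -, a1, -⟩ := exists_mem_sl B.hn hO hne (h0 hη) (h0 hη)
  exact (s3 (η, ξ) (Om_compl.ge (Cov.GO_symm a1))).trans (h1 (η, ξ) ⟨Cov.GO_symm a1, hη⟩)

end Cone

end Crest.Agent.N221.K
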