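import Crest.Agent.N221.K.Nat
import Crest.Agent.N221.Bd.Nu
import Crest.Agent.N221.Bd.Rate

/-! Row 221, block K: the cone function of the cover (leaf K-In1). -/

set_option autoImplicit false
set_option linter.unusedSectionVars false
set_option linter.unusedVariables false

open MeasureTheory Set Filter Topology
open scoped ContDiff RealInnerProductSpace
open Crest.GeometryTopology.Submanifold
open Crest.Agent.R241.DDefs Crest.Agent.R241.D2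
open Crest.Agent.R208.J Crest.Agent.R208.L
open Crest.Agent.N221.K

noncomputable section

namespace Crest.Agent.N221

variable {n N : ℕ} {a : ℝ} {S : Set (Euc N)} {G : Geo n N (-(a ^ 2)) S}

namespace In1

open Matrix

lemma det_one_sub (u v : Fin n → ℝ) (h : v ⬝ᵥ u = 0) : (1 - vecMulVec u v).det = 1 := by
  rw [sub_eq_add_neg, ← neg_vecMulVec, vecMulVec_eq Unit, det_one_add_replicateCol_mul_replicateRow,
    dotProduct_neg, h, neg_zero, add_zero]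

lemma det_aux (M : Matrix (Fin n) (Fin n) ℝ) (x y u v : Fin n → ℝ) (hx : x ⬝ᵥ x = 1)
    (hy : y ⬝ᵥ y = 1) (hu : x ⬝ᵥ u = 0) (hv : v ⬝ᵥ y = 0) (h1 : x ᵥ* M = 0) (h2 : M *ᵥ y = 0) :
    (M - vecMulVec (x - u) (y - v)).det = (M - vecMulVec x y).det := by
  have e : M - vecMulVec (x - u) (y - v) =
      (1 - vecMulVec u x) * (M - vecMulVec x y) * (1 - vecMulVec y v) := by
    simp only [sub_mul, mul_sub, one_mul, mul_one, vecMulVec_mul, mul_vecMulVec, h1, h2,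
      vecMulVec_mulVec, hx, hy, one_smul, vecMulVec_zero, zero_vecMulVec, zero_mulVec,
      sub_vecMulVec, vecMulVec_sub, MulOpposite.op_one]
    abel
  rw [e, det_mul, det_mul, det_one_sub _ _ hu, det_one_sub _ _ hv, one_mul, mul_one]

lemma sum_ee (L : Euc n →L[ℝ] ℝ) (x : Euc n) : ∑ i, x i * L (ee i) = L x := by
  conv_rhs => rw [← (EuclideanSpace.basisFun (Fin n) ℝ).sum_repr x]
  simp

lemma dot_self {x : Euc n} (h : ‖x‖ = 1) : (fun i => x i) ⬝ᵥ (fun i => x i) = 1 := by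
  have := sum_ee (innerSL ℝ x) x
  simpa [EuclideanSpace.inner_single_right, h, dotProduct] using this

lemma d_norm {x : Euc n} (h : x ≠ 0) : HasFDerivAt (fun y : Euc n => ‖y‖) (‖x‖⁻¹ • innerSL ℝ x) x := by
  have h0 := norm_ne_zero_iff.2 h
  have h1 := (hasStrictFDerivAt_norm_sq x).hasFDerivAt.sqrt (pow_ne_zero 2 h0)
  simp only [Real.sqrt_sq (norm_nonneg _)] at h1
  refine h1.congr_fderiv (ContinuousLinearMap.ext fun u => ?_)
  simp
  field_simp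

end In1

open In1

namespace Cov

variable (C : Cov G) {ξ η u : Euc n} {g : Euc n → Euc n} {t : ℝ}

/-- the cone function -/
def Fc (p : PE n) : ℝ := ‖p.1‖ * ‖p.2‖ * Real.exp (-C.cc p.1 p.2)

/-- the action on the cone -/
def hat (g : Euc n → Euc n) (ξ : Euc n) : Euc n := (‖ξ‖ * Real.exp (C.be g ξ)) • C.act g ξ

variable (h : SH G)
include h

lemma Fc_sm : ContDiffOn ℝ ∞ C.Fc (GO n) := fun p hp =>
  (((contDiffAt_fst.norm ℝ hp.1).mul (contDiffAt_snd.norm ℝ hp.2.1)).mul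
    (C.contDiffAt_cc h (ξ := p.1) (η := p.2) hp).neg.exp).contDiffWithinAt

lemma Fc_pos (hp : (ξ, η) ∈ GO n) : 0 < C.Fc (ξ, η) :=
  mul_pos (mul_pos (norm_pos_iff.2 hp.1) (norm_pos_iff.2 hp.2.1)) (Real.exp_pos _)

lemma Fc_symm (hp : (ξ, η) ∈ GO n) : C.Fc (η, ξ) = C.Fc (ξ, η) := by
  simp only [Fc, C.cc_symm h.hyp.a_pos hp, mul_comm ‖η‖]

lemma Fc_hom (ht : 0 < t) (hp : (ξ, η) ∈ GO n) : C.Fc (t • ξ, η) = t * C.Fc (ξ, η) := by
  have := C.cc_smul ht one_pos ξ η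
  rw [one_smul] at this
  simp only [Fc, this, norm_smul, Real.norm_of_nonneg ht.le, mul_assoc]

lemma fderiv_Fc' (hp : (ξ, η) ∈ GO n) (u u' : Euc n) : fderiv ℝ C.Fc (ξ, η) (u, u') =
    C.Fc (ξ, η) * (⟪ξ, u⟫ / ‖ξ‖ ^ 2 + ⟪η, u'⟫ / ‖η‖ ^ 2 - C.c1 ξ η u - C.c2 ξ η u') := by
  have h1 := norm_ne_zero_iff.2 (Ft.n1 hp)
  have h2 := norm_ne_zero_iff.2 (Ft.n2 hp)
  have := ((((d_norm (Ft.n1 hp)).comp (ξ, η) hasFDerivAt_fst).mul
    ((d_norm (Ft.n2 hp)).comp (ξ, η) hasFDerivAt_snd)).mul (C.hasFDerivAt_cc h hp).neg.exp).fderiv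
  rw [show fderiv ℝ C.Fc (ξ, η) = _ from this]
  simp [Fc]
  field_simp
  ring

lemma fderiv_Fc (hp : (ξ, η) ∈ GG n) (u u' : Euc n) : fderiv ℝ C.Fc (ξ, η) (u, u') =
    C.Fc (ξ, η) * (⟪ξ, u⟫ + ⟪η, u'⟫ - C.c1 ξ η u - C.c2 ξ η u') := by
  rw [C.fderiv_Fc' h (GG_sub hp), show ‖ξ‖ = 1 from hp.1, show ‖η‖ = 1 from hp.2.1, one_pow, div_one,
    div_one]

lemma inner_MM_Fc (hp : (ξ, η) ∈ GG n) (u u' : Euc n) : ⟪K.MM C.Fc (ξ, η) u, u'⟫ =
    C.Fc (ξ, η) * ((⟪ξ, u⟫ - C.c1 ξ η u) * (⟪η, u'⟫ - C.c2 ξ η u') - C.MMb ξ η u u') := by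
  have ho := GG_sub hp
  have d : ∀ {f : PE n → ℝ}, ContDiffOn ℝ ∞ f (GO n) → DifferentiableAt ℝ f (ξ, η) := fun hf =>
    (hf.contDiffAt (isOpen_GO.mem_nhds ho)).differentiableAt (by simp)
  have h1 := (((d (C.Fc_sm h)).comp ξ (f := fun ξ => (ξ, η)) (by fun_prop)).hasFDerivAt.mul
    ((C.hasFDerivAt_c2 h ho u').const_sub ⟪η, u'⟫)).congr_of_eventuallyEq
    (f₁ := fun ξ => d2 u' C.Fc (ξ, η)) ((Ft.ev1 ho).mono fun ξ' hξ' => by
      simp [d2, C.fderiv_Fc' h hξ', show ‖η‖ = 1 from hp.2.1])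
  have h2 := fderiv_slice (d (C.Fc_sm h)) u
  rw [C.fderiv_Fc h hp] at h2
  rw [K.inner_MM isOpen_GO (C.Fc_sm h) ho, ← fderiv_slice (d (d2_sm isOpen_GO (C.Fc_sm h) u')),
    h1.fderiv]
  simp [Function.comp_def, h2]
  ring

/-- `(l ⊗ l' - M) = -(1 - c1 ⊗ ξ)ᵀ (M - ξ ⊗ η) (1 - η ⊗ c2)`, both factors unipotent -/
lemma det_Fc (hp : (ξ, η) ∈ GG n) :
    |(K.MM C.Fc (ξ, η)).det| = C.Fc (ξ, η) ^ n * |C.Mdet ξ η| := by
  have ho := GG_sub hp
  have h1 := det_aux (Matrix.of fun i j => C.MMb ξ η (ee i) (ee j)) (fun i => ξ i) (fun i => η i)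
    (fun i => C.c1 ξ η (ee i)) (fun i => C.c2 ξ η (ee i)) (dot_self hp.1) (dot_self hp.2.1)
    ((sum_ee _ ξ).trans (C.c1_self h ho))
    ((dotProduct_comm _ _).trans ((sum_ee _ η).trans (C.c2_self h ho)))
    (funext fun j => (sum_ee ((C.MMb ξ η).flip (ee j)) ξ).trans (by simp [(C.MM_self h ho).1]))
    (funext fun i => (dotProduct_comm _ _).trans ((sum_ee _ η).trans ((C.MM_self h ho).2 _)))
  have h2 : ∀ (c : ℝ) (M : Matrix (Fin n) (Fin n) ℝ), c ^ n * M.det = (c • M).det := by simp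
  rw [← NuAux.det_entries, ← Matrix.det_transpose, show C.Mdet ξ η = _ from h1.symm,
    ← abs_of_pos (C.Fc_pos h ho), ← abs_neg (C.Fc _), ← abs_pow, ← abs_mul, h2]
  congr 2
  ext i j
  simp [real_inner_comm (K.MM _ _ _), C.inner_MM_Fc h hp, Matrix.vecMulVec_apply,
    EuclideanSpace.inner_single_right]
  ring

lemma iso_hat (hg : C.Deck g) : Iso C.Fc (C.hat g) (C.hat g) := by
  have ha := h.hyp.a_pos
  have s1 : ContDiffOn ℝ ∞ (C.hat g) {0}ᶜ := fun ξ hξ => (((contDiffAt_id.norm ℝ hξ).mul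
    (C.contDiffAt_be h hg hξ).exp).smul (C.contDiffAt_act h hg hξ)).contDiffWithinAt
  have s2 : Hom1 (C.hat g) := fun t ht ξ => by
    simp only [hat, C.act_smul ht, C.be_smul ht, norm_smul, Real.norm_of_nonneg ht.le, smul_smul,
      mul_assoc]
  have p : ∀ {ξ}, ξ ≠ 0 → 0 < ‖ξ‖ * Real.exp (C.be g ξ) := fun hξ =>
    mul_pos (norm_pos_iff.2 hξ) (Real.exp_pos _)
  refine ⟨s1, s1, s2, s2, fun ξ η hp => GO_smul (p hp.1) (p hp.2.1) (GG_sub (C.act_GO ha hg hp)),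
    fun ξ η hp => ?_⟩
  simp only [Fc, hat, C.cc_smul (p (Ft.n1 hp)) (p (Ft.n2 hp)), C.cc_act ha hg hp, norm_smul,
    C.norm_act ha hg (Ft.n1 hp), C.norm_act ha hg (Ft.n2 hp), Real.norm_of_nonneg (p (Ft.n1 hp)).le,
    Real.norm_of_nonneg (p (Ft.n2 hp)).le, Real.exp_neg, Real.exp_add]
  field_simp

lemma hat_unit (hξ : ‖ξ‖ = 1) : C.hat g ξ = Real.exp (C.be g ξ) • C.act g ξ := by
  rw [hat, hξ, one_mul]

lemma fderiv_hat (hg : C.Deck g) (hξ : ‖ξ‖ = 1) (u : Euc n) : ∃ r : ℝ,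
    fderiv ℝ (C.hat g) ξ u = Real.exp (C.be g ξ) • C.Da g ξ u + r • C.act g ξ := by
  have h0 := bas_ne0 hξ
  have h1 := (((contDiffAt_id.norm ℝ h0).mul (C.contDiffAt_be h hg h0).exp).differentiableAt
    (by simp)).hasFDerivAt.smul (C.hasFDerivAt_Da h hg h0)
  exact ⟨_, by rw [show fderiv ℝ (C.hat g) ξ = _ from h1.fderiv]; simp [hξ]; rfl⟩

end Cov

end Crest.Agent.N221
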