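import Crest.Agent.N221.K.In1
import Crest.Agent.N221.D.Dyn

/-! Row 221, block K: the cover gives a `Cone` (leaf K-In2). -/

set_option autoImplicit false
set_option linter.unusedSectionVars false
set_option linter.unusedVariables false

open MeasureTheory Set Filter Topology
open scoped ContDiff RealInnerProductSpace
open Crest.GeometryTopology.Submanifold
open Crest.Agent.R241.DDefs Crest.Agent.R241.D2
open Crest.Agent.R208.J Crest.Agent.R208.L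
open Crest.Agent.N221.K

noncomputable section

namespace Crest.Agent.N221

variable {n N : ℕ} {a : ℝ} {S : Set (Euc N)} {G : Geo n N (-(a ^ 2)) S}

namespace Cov

variable (C : Cov G) {ξ η : Euc n} {g : Euc n → Euc n} (h : SH G)
include h

lemma iso_smul {G₁ G₂ : Euc n → Euc n} (hi : Iso C.Fc G₁ G₂) {t : ℝ} (ht : 0 < t) :
    Iso C.Fc (fun ξ => t⁻¹ • G₁ ξ) (fun η => t • G₂ η) := by
  refine ⟨hi.sm₁.const_smul _, hi.sm₂.const_smul _, fun s hs ξ => ?_, fun s hs ξ => ?_,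
    fun ξ η hp => GO_smul (inv_pos.2 ht) ht (hi.maps ξ η hp), fun ξ η hp => ?_⟩
  · simp only [hi.hom₁ s hs, smul_comm s]
  · simp only [hi.hom₂ s hs, smul_comm s]
  · rw [← hi.inv ξ η hp]
    simp only [Fc, C.cc_smul (inv_pos.2 ht) ht, norm_smul, norm_inv, Real.norm_of_nonneg ht.le]
    field_simp

/-- the rescaled action -/
lemma In2.sc (hg : C.Deck g) (hη : ‖η‖ = 1) :
    Real.exp (-C.be g η) • C.hat g η = C.act g η ∧ ∀ u, ∃ r : ℝ,
      fderiv ℝ (fun x => Real.exp (-C.be g η) • C.hat g x) η u = C.Da g η u + r • C.act g η := by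
  have e : Real.exp (-C.be g η) * Real.exp (C.be g η) = 1 := by rw [← Real.exp_add]; simp
  refine ⟨by rw [C.hat_unit h hη, smul_smul, e, one_smul], fun u => ?_⟩
  obtain ⟨r, hr⟩ := C.fderiv_hat h hg hη u
  have h0 : η ≠ 0 := norm_ne_zero_iff.1 (by rw [hη]; exact one_ne_zero)
  have hd : DifferentiableAt ℝ (C.hat g) η :=
    ((C.iso_hat h hg).sm₂.contDiffAt (isOpen_compl_singleton.mem_nhds h0)).differentiableAt
      (by simp)
  refine ⟨Real.exp (-C.be g η) * r, ?_⟩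
  rw [fderiv_fun_const_smul hd, _root_.smul_apply, hr, smul_add, smul_smul, smul_smul,
    e, one_smul]

lemma In2.sc' (hξ : ‖ξ‖ = 1) (s : ℝ) :
    (Real.exp (-s))⁻¹ • C.hat g ξ = Real.exp (s + C.be g ξ) • C.act g ξ := by
  rw [C.hat_unit h hξ, smul_smul, Real.exp_neg, inv_inv, Real.exp_add]

/-- a power of `g`, `rates` with `K = {(ξ, η)}`, `G₂ = e^{-be} hat`, `G₁ = e^{be} hat` -/
lemma perD (hp : C.Per g ξ η) : PerD C.Fc ξ η := by
  have ha := h.hyp.a_pos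
  have hG := Per.GG C h.hyp hp
  obtain ⟨y, w, l, hA, rfl, rfl⟩ := hp
  obtain ⟨b, -, hr⟩ := C.rates h
  obtain ⟨B, hB, hr⟩ := hr {(C.ep y w, C.ep y (-w))} isCompact_singleton (singleton_subset_iff.2 hG)
  have hl := mul_pos ha hA.pos
  obtain ⟨j, hj⟩ := exists_nat_gt (Real.log B / (a * l))
  have hA' := hA.iterate C j
  have a1 := hA'.act_pos C ha
  have a2 := hA'.act_neg C ha
  have b1 := hA'.be_pos C ha
  have b2 := hA'.be_neg C ha
  obtain ⟨s1, s2⟩ := In2.sc C h hA'.deck hG.1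
  refine ⟨GO_symm (GG_sub hG), _, _, B * Real.exp (-(a * ((j + 1) * l))),
    C.iso_smul h (C.iso_hat h hA'.deck) (Real.exp_pos (-C.be g^[j + 1] (C.ep y w))), ?_,
    s1.trans a1, by positivity, ?_, fun u hu => ?_⟩
  · beta_reduce
    rw [In2.sc' C h hG.2.1, b1, b2, a2, add_neg_cancel, Real.exp_zero, one_smul]
  · rw [div_lt_iff₀ hl] at hj
    rw [← Real.exp_log hB, ← Real.exp_add, Real.exp_lt_one_iff]
    linarith
  · obtain ⟨r, e⟩ := s2 u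
    refine ⟨r, ?_⟩
    rw [e, a1, add_sub_cancel_right, ← b1]
    exact (((hr _ hA'.deck _ _ rfl (by rw [a1, a2]; rfl)).2 u (by rwa [real_inner_comm])).1
      (b1 ▸ hA'.pos.le)).1

/-- `cocompact` with `s → -∞`, `rates` for the swapped pair, `t = -be g η` -/
lemma rate_Fc : ∃ a' b : ℝ, 0 < a' ∧ ∀ ξ η, (ξ, η) ∈ GG n → ∃ (K : Set (PE n)) (c : ℝ),
    IsCompact K ∧ K ⊆ GO n ∧ 0 < c ∧ ∀ T : ℝ, ∃ t, T ≤ t ∧ ∃ G₁ G₂, Iso C.Fc G₁ G₂ ∧
      (G₁ ξ, G₂ η) ∈ K ∧ Expd G₂ η (Real.exp (a' * t) / c) (c * Real.exp (b * t)) := by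
  have ha := h.hyp.a_pos
  obtain ⟨b, -, hr⟩ := C.rates h
  obtain ⟨K₀, k1, k2, k3⟩ := C.cocompact ha
  obtain ⟨B', hB'⟩ := k1.exists_bound_of_continuousOn continuous_snd.continuousOn
  refine ⟨a, b, ha, fun ξ η hp => ?_⟩
  obtain ⟨B, hB, hr⟩ := hr (insert (η, ξ) ((fun q => (q.1.2, q.1.1)) '' K₀))
    ((k1.image (by fun_prop)).insert _) (by
      rintro _ (rfl | ⟨q, hq, rfl⟩)
      · exact ⟨hp.2.1, hp.1, hp.2.2.symm⟩
      · exact ⟨(k2 hq).1.2.1, (k2 hq).1.1, (k2 hq).1.2.2.symm⟩)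
  refine ⟨(fun q => (Real.exp q.2 • q.1.1.1, q.1.1.2)) '' (K₀ ×ˢ Icc (-B) B), B,
    (k1.prod isCompact_Icc).image (by fun_prop), ?_, hB, fun T => ?_⟩
  · rintro _ ⟨q, hq, rfl⟩
    simpa using GO_smul (Real.exp_pos q.2) one_pos (GG_sub (k2 hq.1).1)
  obtain ⟨g, hg, hK⟩ := k3 ξ η (-(|T| + B + B')) hp
  obtain ⟨r1, r2⟩ := hr g hg η ξ (mem_insert _ _) (mem_insert_of_mem _ ⟨_, hK, rfl⟩)
  have r3 := abs_le.1 (hB' _ hK)
  rw [abs_le] at r1
  have r4 : |T| ≤ -C.be g η := by linarith [r1.2, r3.1]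
  obtain ⟨s1, s2⟩ := In2.sc C h hg hp.2.1
  refine ⟨-C.be g η, (le_abs_self T).trans r4, _, _,
    C.iso_smul h (C.iso_hat h hg) (Real.exp_pos (-C.be g η)),
    ⟨(_, C.be g η + C.be g ξ), ⟨hK, r1⟩, Prod.ext (In2.sc' C h hp.1 _).symm s1.symm⟩,
    fun u hu => ?_⟩
  obtain ⟨r, e⟩ := s2 u
  obtain ⟨u1, u2⟩ := (r2 u (by rwa [real_inner_comm])).2 (by linarith [abs_nonneg T])
  beta_reduce
  rw [e, s1, mul_neg, mul_neg]
  refine ⟨fun r' => ?_, r, by rwa [add_sub_cancel_right]⟩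
  rw [div_mul_eq_mul_div, div_le_iff₀' hB]
  refine u2.trans (mul_le_mul_of_nonneg_left ?_ hB.le)
  rw [add_sub_assoc, ← sub_smul, ← sq_le_sq₀ (norm_nonneg _) (norm_nonneg _), norm_add_sq_real,
    inner_smul_right, real_inner_comm, C.inner_Da h hg (GG_sub hp).2.1]
  nlinarith [sq_nonneg ‖(r - r') • C.act g η‖]

theorem exists_cone (hSp : H.SplitS) (hT : TrS) (hc : Cob G) :
    ∃ B : Cone n, B.F = C.Fc ∧ B.h ≠ 0 := by
  obtain ⟨hh, ν, h0, h1, h2, h3, h4, -⟩ := C.exists_nu h hSp hc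
  refine ⟨⟨C.Fc, fun ξ => ‖ξ‖ ^ (hh - n) * ν ξ, hh, h.hyp.hn, C.Fc_sm h,
    fun p hp => C.Fc_pos h hp, fun ξ η => C.Fc_symm h, fun t ht ξ η => C.Fc_hom h ht,
    fun ξ hξ => ?_, fun ξ hξ => mul_pos (Real.rpow_pos_of_pos (norm_pos_iff.2 hξ) _) (h1 ξ),
    fun t ht ξ hξ => ?_, fun ξ η hp => ?_, C.rate_Fc h, fun ξ hξ ε hε => ?_⟩, rfl, h0.ne'⟩
  · exact (((contDiffAt_norm ℝ hξ).rpow_const_of_ne (norm_ne_zero_iff.2 hξ)).mul
      (h3 ξ hξ)).contDiffWithinAt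
  · rw [h2 t ht, norm_smul, Real.norm_of_nonneg ht.le, Real.mul_rpow ht.le (norm_nonneg _),
      mul_assoc]
  · have e : C.Fc (ξ, η) = Real.exp (-C.cc ξ η) := by
      rw [Fc, show ‖(ξ, η).1‖ = 1 from hp.1, show ‖(ξ, η).2‖ = 1 from hp.2.1, one_mul, one_mul]
    rw [C.det_Fc h hp, h4 ξ η hp, show ‖ξ‖ = 1 from hp.1, show ‖η‖ = 1 from hp.2.1, Real.one_rpow,
      one_mul, one_mul, e, ← Real.exp_nat_mul, ← Real.exp_mul, ← mul_assoc, ← mul_assoc,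
      ← Real.exp_add]
    congr 3; ring
  · obtain ⟨ζ, z1, z2, -⟩ := dyn_third h.hyp ξ ξ
    obtain ⟨g, P, R, p1, p2, -⟩ := C.dense_per h.hyp hT (η := ζ) ⟨hξ, z1, z2.symm⟩ hε
    exact ⟨P, R, p2, C.perD h p1⟩

end Cov

end Crest.Agent.N221
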