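import Crest.Agent.N221.K.Nat
import Crest.Agent.N221.K.Pol

/-! Row 221, block K: step P1 (leaf K-P1). -/

set_option autoImplicit false
set_option linter.unusedSectionVars false
set_option linter.unusedVariables false
set_option maxHeartbeats 400000

open Set Filter Topology
open scoped ContDiff RealInnerProductSpace
open Crest.GeometryTopology.Submanifold

noncomputable section

namespace Crest.Agent.N221.K

variable {n : ℕ}

namespace P1a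

/-- uniform bound on a compact part of `GO` -/
lemma bound (B : Cone n) {K : Set (PE n)} (hK : IsCompact K) (hs : K ⊆ GO n) (k : ℕ) :
    ∃ C : ℝ, 0 ≤ C ∧ ∀ p ∈ K, ∀ (v v' : Euc n) (ws : List (Euc n)), ws.length = k →
      |itr B.Nj ws (B.QQ v v') p| ≤ C * (‖v‖ * ‖v'‖) * nprod ws := by
  have hΩ : IsOpen (GO n) := Cov.isOpen_GO
  have key : ∀ ij : Fin n × Fin n, ∃ C : ℝ, 0 ≤ C ∧ ∀ᶠ p in 𝓟 K, ∀ ws : List (Euc n),
      ws.length = k → |itr B.Nj ws (B.QQ (ee ij.1) (ee ij.2)) p| ≤ C * 1 * nprod ws := by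
    intro ij
    refine itr_bound hΩ B.Nj_sm (𝒞 := {f | ContDiffOn ℝ ∞ f (GO n)}) (wt := fun _ => 1)
      (fun f hf => ⟨hf, fun w => dN_sm hΩ B.Nj_sm hf⟩) (principal_mono.2 hs)
      (fun _ => zero_le_one) (fun f hf => ?_) k (B.QQ_sm _ _)
    obtain ⟨C, hC⟩ := hK.exists_bound_of_continuousOn
      ((ContDiffOn.continuousOn hf).mono hs)
    exact ⟨C, eventually_principal.2 fun p hp => by simpa using hC p hp⟩
  choose C hC0 hC using key
  refine ⟨∑ ij, C ij, Finset.sum_nonneg fun ij _ => hC0 ij, fun p hp v v' ws hws => ?_⟩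
  have e : EqOn (B.QQ v v') (fun q => ∑ ij : Fin n × Fin n,
      (v ij.1 * v' ij.2) * B.QQ (ee ij.1) (ee ij.2) q) (GO n) := fun q hq => B.QQ_sum hq v v'
  rw [itr_congr hΩ ws e (hs hp),
    itr_sum hΩ B.Nj_sm _ ws _ (fun ij _ => B.QQ_sm _ _) (hs hp), Finset.sum_mul, Finset.sum_mul]
  refine (Finset.abs_sum_le_sum_abs _ _).trans (Finset.sum_le_sum fun ij _ => ?_)
  have h1 : |v ij.1| ≤ ‖v‖ := by simpa using PiLp.norm_apply_le v ij.1
  have h2 : |v' ij.2| ≤ ‖v'‖ := by simpa using PiLp.norm_apply_le v' ij.2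
  have h3 := eventually_principal.1 (hC ij) p hp ws hws
  rw [abs_mul, abs_mul]
  refine (mul_le_mul (mul_le_mul h1 h2 (abs_nonneg _) (norm_nonneg _)) h3 (abs_nonneg _)
    (by positivity)).trans (le_of_eq ?_)
  ring

/-- transport along a pair of maps preserving `F` -/
lemma trans {B : Cone n} {G₁ G₂ : Euc n → Euc n} (h : Iso B.F G₁ G₂) {ξ η : Euc n} (hη : η ≠ 0)
    (hξ : ξ ∈ sl η) (u u' : Euc n) (r r' : ℝ) (ws : List (Euc n)) (hl : 2 ≤ ws.length) :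
    itr (B.Ns η) ws (fun ξ => B.QQ u u' (ξ, η)) ξ =
      itr B.Nj (ws.map (adj G₂ η).inverse)
        (B.QQ (fderiv ℝ G₂ η u - r • G₂ η) (fderiv ℝ G₂ η u' - r' • G₂ η)) (G₁ ξ, G₂ η) := by
  have hΩ : IsOpen (GO n) := Cov.isOpen_GO
  obtain ⟨c, hc⟩ := h.QQ_nat hη u u'
  set v := fderiv ℝ G₂ η u - r • G₂ η with hv
  set v' := fderiv ℝ G₂ η u' - r' • G₂ η with hv'
  have hg : ContDiffOn ℝ ∞ (fun ζ => B.QQ v v' (ζ, G₂ η)) (sl (G₂ η)) :=
    slice_sm (B.QQ_sm v v') (G₂ η)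
  have e : EqOn (fun ξ => B.QQ u u' (ξ, η))
      (fun ξ => B.QQ v v' (G₁ ξ, G₂ η) + ⟪zz B.F (ξ, η), c⟫) (sl η) := fun ζ hζ => by
    show B.QQ u u' (ζ, η) = B.QQ v v' (G₁ ζ, G₂ η) + ⟪zz B.F (ζ, η), c⟫
    rw [hc ζ hζ, hv, hv', B.QQ_sub (h.maps ζ η hζ)]
  have h1 : ContDiffOn ℝ ∞ (fun ξ => B.QQ v v' (G₁ ξ, G₂ η)) (sl η) :=
    hg.comp (h.sm₁.mono (sl_sub η)) (h.maps_sl η)
  have h2 : ContDiffOn ℝ ∞ (fun ξ => ⟪zz B.F (ξ, η), c⟫) (sl η) :=
    (B.pol_zz η c).sm (isOpen_sl η)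
  rw [itr_congr (isOpen_sl η) ws e hξ, itr_add (isOpen_sl η) (B.Ns_sm η) ws h1 h2 hξ,
    B.itr_zz hξ c ws hl, add_zero, h.itr_nat hξ hg ws,
    B.itr_slice hΩ subset_rfl (B.QQ_sm v v') (h.maps ξ η hξ)]

lemma zero_of_le {x D : ℝ} (h : ∀ T : ℝ, ∃ t, T ≤ t ∧ |x| ≤ D * Real.exp (-t)) : x = 0 := by
  have h0 : Tendsto (fun t : ℝ => D * Real.exp (-t)) atTop (𝓝 (D * 0)) :=
    Real.tendsto_exp_neg_atTop_nhds_zero.const_mul D
  rw [mul_zero] at h0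
  by_contra hx
  obtain ⟨T, hT⟩ := eventually_atTop.1 (h0.eventually (gt_mem_nhds (abs_pos.2 hx)))
  obtain ⟨t, ht, e⟩ := h T
  exact absurd (hT t ht) (not_lt.2 e)

end P1a

/-- **P1** -/
theorem Cone.polQ (B : Cone n) : B.PolQ := by
  obtain ⟨a, b, ha, H⟩ := B.rate'
  obtain ⟨m, hm⟩ := exists_nat_ge ((2 * b + 1) / a)
  have hk : 2 * b + 1 ≤ ((m + 2 : ℕ) : ℝ) * a := by
    rw [div_le_iff₀ ha] at hm
    push_cast
    nlinarith
  refine ⟨m + 2, fun η hη u u' => (polN_iff (isOpen_sl η) (B.Ns_sm η)).2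
    ⟨slice_sm (B.QQ_sm u u') η, fun ws hl hws ξ hξ => ?_⟩⟩
  obtain ⟨K, C, hK, hs, hC, H⟩ := H ξ η hξ
  obtain ⟨D, hD, hb⟩ := P1a.bound B hK hs (m + 2)
  have e : EqOn (fun ξ => B.QQ u u' (ξ, η)) (fun ξ => B.QQ (prj η u) (prj η u') (ξ, η)) (sl η) :=
    fun ζ hζ => (B.QQ_sub hζ u u' _ _).symm
  rw [itr_congr (isOpen_sl η) ws e hξ]
  refine P1a.zero_of_le
    (D := D * (C * ‖prj η u‖ * (C * ‖prj η u'‖)) * (C ^ (m + 2) * nprod ws)) fun T => ?_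
  obtain ⟨t, ht, G₁, G₂, hI, hp, hE⟩ := H (max T 0)
  have ht0 : 0 ≤ t := (le_max_right _ _).trans ht
  refine ⟨t, (le_max_left _ _).trans ht, ?_⟩
  obtain ⟨r, hr⟩ := (hE _ (prj_mem hη u)).2
  obtain ⟨r', hr'⟩ := (hE _ (prj_mem hη u')).2
  have hα : 0 < Real.exp (a * t) / C := by positivity
  have hn := nprod_map_le ws (adj G₂ η).inverse (inv_pos.2 hα).le
    fun w hw => hI.adj_le hη hα hE (hws w hw)
  rw [P1a.trans hI hη hξ _ _ r r' ws (by omega)]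
  refine (hb _ hp _ _ _ (by simpa using hl)).trans ?_
  have hnn := nprod_nonneg ws
  refine (mul_le_mul (mul_le_mul_of_nonneg_left
    (mul_le_mul hr hr' (norm_nonneg _) (by positivity)) hD) hn (nprod_nonneg _)
    (by positivity)).trans ?_
  have h1 : Real.exp (b * t) * Real.exp (b * t) * (Real.exp (a * t))⁻¹ ^ (m + 2) ≤
      Real.exp (-t) := by
    rw [← Real.exp_neg, ← Real.exp_nat_mul, ← Real.exp_add, ← Real.exp_add]
    refine Real.exp_le_exp.2 ?_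
    nlinarith
  rw [hl, inv_div, div_eq_mul_inv, mul_pow]
  refine le_trans (le_of_eq ?_) (mul_le_mul_of_nonneg_left h1 (by positivity))
  ring

end Crest.Agent.N221.K
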