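import Crest.Agent.N221.K.Per0

/-! Row 221, block K: step P2, Killing pairs at periodic pairs (helper11). -/

set_option autoImplicit false
set_option linter.unusedSectionVars false
set_option linter.unusedVariables false

open Set Filter Topology
open scoped ContDiff RealInnerProductSpace
open Crest.GeometryTopology.Submanifold

noncomputable section

namespace Crest.Agent.N221.K

variable {n : ℕ} {P R ξ η : Euc n} {G₁ G₂ Y' : Euc n → Euc n} {k : ℕ} {c K θ : ℝ}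

namespace Cone

variable (B : Cone n)

/-- bound for the jets of the defect at `(R, η)` -/
def Bd (Y' : Euc n → Euc n) (R : Euc n) (k : ℕ) (η : Euc n) (c : ℝ) : Prop :=
  ∀ ws : List (Euc n), ws.length = k → ∀ u u',
    |itr (B.Ns η) ws (fun ξ => B.DD Y' u u' (ξ, η)) R| ≤ c * nprod ws * (‖u‖ * ‖u'‖)

lemma DD_sl (hY : ContDiffOn ℝ ∞ Y' (sl R)) (hη : η ∈ sl R) (u u' : Euc n) :
    ContDiffOn ℝ ∞ (fun ξ => B.DD Y' u u' (ξ, η)) (sl η) :=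
  (slice_sm (B.DD_sm (isOpen_sl R) (sl_sub R) hY u u') η).mono fun _ h => ⟨h, hη⟩

lemma bd_step (hG : Iso B.F G₁ G₂) (hR : G₁ R = R) (hY : ContDiffOn ℝ ∞ Y' (sl R))
    (e : ∀ η ∈ sl R, Y' (G₂ η) = fderiv ℝ G₂ η (Y' η)) (hη : η ∈ sl R) (hc : 0 ≤ c)
    (h1 : ‖fderiv ℝ G₂ η‖ ≤ K) (h2 : ‖(adj G₂ η).inverse‖ ≤ K) (h : B.Bd Y' R k (G₂ η) c) :
    B.Bd Y' R k η (c * K ^ (k + 2)) := by
  intro ws hk u u'
  have hK : 0 ≤ K := (norm_nonneg _).trans h1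
  have hm : MapsTo G₂ (sl R) (sl R) := by
    have := hG.swap.maps_sl R
    rwa [hR] at this
  have hp : (R, η) ∈ GO n := Cov.GO_symm hη
  have e1 : EqOn (fun ξ => B.DD Y' u u' (ξ, η)) (fun ξ => (fun ξ' =>
      B.DD Y' (fderiv ℝ G₂ η u) (fderiv ℝ G₂ η u') (ξ', G₂ η)) (G₁ ξ)) (sl η) := fun ξ hξ =>
    (B.DD_nat (isOpen_sl R) (sl_sub R) hY hG hm e ⟨hξ, hη⟩ u u').symm
  rw [itr_congr (isOpen_sl η) ws e1 hp, hG.itr_nat hp (B.DD_sl hY (hm hη) _ _), hR]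
  refine (h _ (by simpa using hk) _ _).trans ?_
  have h3 := nprod_map_le ws (adj G₂ η).inverse hK fun w _ =>
    ((adj G₂ η).inverse.le_opNorm w).trans (mul_le_mul_of_nonneg_right h2 (norm_nonneg _))
  have h4 : ∀ u, ‖fderiv ℝ G₂ η u‖ ≤ K * ‖u‖ := fun u =>
    ((fderiv ℝ G₂ η).le_opNorm u).trans (mul_le_mul_of_nonneg_right h1 (norm_nonneg _))
  have h5 := nprod_nonneg ws
  rw [hk] at h3
  calc _ ≤ c * (K ^ k * nprod ws) * (K * ‖u‖ * (K * ‖u'‖)) := by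
        gcongr
        · exact h4 u
        · exact h4 u'
    _ = _ := by ring

lemma bd_flat (h : (R, P) ∈ GO n) (hf : ∀ u u', Flat (Om0 P R) (R, P) (B.DD Y' u u')) (k m : ℕ) :
    ∃ C : ℝ, 0 ≤ C ∧ ∀ᶠ η in 𝓝 P, B.Bd Y' R k η (C * ‖η - P‖ ^ m) := by
  have hp : (R, P) ∈ Om0 P R := ⟨h, h, Cov.GO_symm h⟩
  have ho := isOpen_Om0 P R
  have hN : ContDiffOn ℝ ∞ B.Nj (Om0 P R) := B.Nj_sm.mono fun _ h => h.1
  have key : ∀ ij : Fin n × Fin n, ∃ C : ℝ, 0 ≤ C ∧ ∀ᶠ p in 𝓝 (R, P), ∀ ws : List (Euc n),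
      ws.length = k → |itr B.Nj ws (B.DD Y' (ee ij.1) (ee ij.2)) p| ≤
        C * ‖p - (R, P)‖ ^ m * nprod ws := fun ij =>
    itr_bound ho hN (𝒞 := {f | Flat (Om0 P R) (R, P) f})
      (fun f hf => ⟨Flat.sm hf, fun w => Flat.derN ho hp hN w hf⟩)
      (le_principal_iff.2 (ho.mem_nhds hp)) (wt := fun p => ‖p - (R, P)‖ ^ m)
      (fun p => by positivity) (fun f hf => Flat.bound ho hp hf m) k (hf _ _)
  choose C h0 hC using key
  refine ⟨∑ ij, C ij, Finset.sum_nonneg fun ij _ => h0 ij, ?_⟩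
  have ht : Tendsto (fun η : Euc n => (R, η)) (𝓝 P) (𝓝 (R, P)) :=
    (Continuous.prodMk_right R).continuousAt
  filter_upwards [ht.eventually (eventually_all.2 hC), ht.eventually (ho.mem_nhds hp)]
    with η h1 h2 ws hk u u'
  have e1 : B.DD Y' u u' = fun q => ∑ ij : Fin n × Fin n,
      u ij.1 * u' ij.2 * B.DD Y' (ee ij.1) (ee ij.2) q := funext fun q => B.DD_sum Y' u u' q
  have e2 : ‖(R, η) - (R, P)‖ = ‖η - P‖ := by simp
  rw [B.itr_slice ho (fun _ h => h.1) (hf u u').sm h2, e1,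
    itr_sum ho hN Finset.univ ws _ (fun ij _ => (hf _ _).sm) h2]
  refine (Finset.abs_sum_le_sum_abs _ _).trans ?_
  rw [Finset.sum_mul, Finset.sum_mul, Finset.sum_mul]
  refine Finset.sum_le_sum fun ij _ => ?_
  have h3 := h1 ij ws hk
  rw [e2] at h3
  rw [abs_mul, abs_mul, mul_comm]
  have h4 : ∀ (v : Euc n) i, |v i| ≤ ‖v‖ := fun v i => by
    simpa using PiLp.norm_apply_le v i
  have h5 := nprod_nonneg ws
  have h6 := h0 ij
  gcongr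
  · exact h4 _ _
  · exact h4 _ _

/-- the jets of the defect vanish along orbits converging to `P` -/
lemma jets_zero (hG : Iso B.F G₁ G₂) (h : (R, P) ∈ GO n) (hR : G₁ R = R)
    (hY : ContDiffOn ℝ ∞ Y' (sl R)) (e : ∀ η ∈ sl R, Y' (G₂ η) = fderiv ℝ G₂ η (Y' η))
    (hf : ∀ u u', Flat (Om0 P R) (R, P) (B.DD Y' u u')) (h0 : 0 ≤ θ) (h1 : θ < 1)
    (ho : ∀ j : ℕ, (G₂^[j] η ∈ sl R ∧ ‖fderiv ℝ G₂ (G₂^[j] η)‖ ≤ K ∧
      ‖(adj G₂ (G₂^[j] η)).inverse‖ ≤ K) ∧ ‖G₂^[j] η - P‖ ≤ θ ^ j)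
    (ws : List (Euc n)) (u u' : Euc n) :
    itr (B.Ns η) ws (fun ξ => B.DD Y' u u' (ξ, η)) R = 0 := by
  set k := ws.length
  have hK : 0 ≤ K := (norm_nonneg _).trans (ho 0).1.2.1
  have hθ := tendsto_pow_atTop_nhds_zero_of_lt_one h0 h1
  obtain ⟨m, hm⟩ := ((hθ.mul_const (K ^ (k + 2))).eventually
    (gt_mem_nhds (by simp : 0 * K ^ (k + 2) < 1))).exists
  obtain ⟨C, hC0, hC⟩ := B.bd_flat h hf k m
  have ht : Tendsto (fun j : ℕ => G₂^[j] η) atTop (𝓝 P) :=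
    tendsto_iff_norm_sub_tendsto_zero.2 (squeeze_zero (fun _ => norm_nonneg _) (fun j => (ho j).2) hθ)
  have back : ∀ (j i : ℕ) (c : ℝ), 0 ≤ c → B.Bd Y' R k (G₂^[j + i] η) c →
      B.Bd Y' R k (G₂^[i] η) (c * (K ^ (k + 2)) ^ j) := by
    intro j
    induction j with
    | zero => intro i c _ hb; simpa using hb
    | succ j ih =>
      intro i c hc hb
      rw [show j + 1 + i = j + (i + 1) by ring] at hb
      have h2 := ih (i + 1) c hc hb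
      rw [Function.iterate_succ_apply'] at h2
      have h3 := B.bd_step hG hR hY e (ho i).1.1 (by positivity) (ho i).1.2.1 (ho i).1.2.2 h2
      rwa [mul_assoc, ← pow_succ] at h3
  have lim := ((tendsto_pow_atTop_nhds_zero_of_lt_one (by positivity) hm).const_mul C).mul_const
    (nprod ws * (‖u‖ * ‖u'‖))
  rw [mul_zero, zero_mul] at lim
  refine abs_nonpos_iff.1 (ge_of_tendsto lim ?_)
  filter_upwards [ht.eventually hC] with j hj
  have h2 := back j 0 _ (by positivity) hj ws rfl u u'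
  refine h2.trans ?_
  have h3 := nprod_nonneg ws
  have h4 : ‖G₂^[j] η - P‖ ^ m ≤ (θ ^ m) ^ j := by
    rw [← pow_mul, mul_comm, pow_mul]
    exact pow_le_pow_left₀ (norm_nonneg _) (ho j).2 m
  calc _ ≤ C * (θ ^ m) ^ j * (K ^ (k + 2)) ^ j * nprod ws * (‖u‖ * ‖u'‖) := by gcongr
    _ = _ := by rw [mul_pow]; ring

/-- contraction modulo the fixed vector in the coordinates `zz F (·, R)` -/
lemma contr (hG : Iso B.F G₁ G₂) (h : (P, R) ∈ GO n) (hP : G₂ P = P) (h0 : 0 ≤ θ)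
    (hc : ∀ u, ⟪u, P⟫ = 0 → ∃ r : ℝ, ‖fderiv ℝ G₂ P u - r • P‖ ≤ θ * ‖u‖)
    {L : Euc n ≃L[ℝ] Euc n}
    (hL : ∀ w, fderiv ℝ G₂ P (B.Mi (P, R) w) = B.Mi (P, R) (L w)) (j : ℕ) (v : Euc n) :
    ∃ s : ℝ, ‖(⇑L)^[j] v - s • zz B.F (P, R)‖ ≤
      ‖MM B.F (P, R)‖ * ‖B.Mi (P, R)‖ * θ ^ j * ‖v‖ := by
  have h1 : B.Mi (P, R) ((⇑L)^[j] v) = (⇑(fderiv ℝ G₂ P))^[j] (B.Mi (P, R) v) := by
    induction j with
    | zero => rfl
    | succ j ih => rw [Function.iterate_succ_apply', Function.iterate_succ_apply', ← hL, ih]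
  have h2 := prj_iter h.1 ((hG.euler₂ h.1).trans hP) h0 hc (B.Mi (P, R) v) j
  rw [← h1] at h2
  refine ⟨⟪B.Mi (P, R) ((⇑L)^[j] v), P⟫ / ‖P‖ ^ 2, ?_⟩
  have h3 := (MM B.F (P, R)).le_opNorm (prj P (B.Mi (P, R) ((⇑L)^[j] v)))
  rw [prj, map_sub, map_smul, B.MM_Mi h, B.MM_self h] at h3
  have h4 := (B.Mi (P, R)).le_opNorm v
  calc _ ≤ ‖MM B.F (P, R)‖ * (θ ^ j * (‖B.Mi (P, R)‖ * ‖v‖)) :=
        h3.trans (mul_le_mul_of_nonneg_left (h2.trans (by gcongr)) (norm_nonneg _))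
    _ = _ := by ring

lemma decay {L : Euc n → Euc n} {y : Euc n} {C : ℝ} (hy : 0 < ⟪y, R⟫)
    (hL : ∀ w ∈ perp R, L w ∈ perp R)
    (h : ∀ (j : ℕ) v, ∃ s : ℝ, ‖L^[j] v - s • y‖ ≤ C * θ ^ j * ‖v‖) {w : Euc n} (hw : w ∈ perp R)
    (j : ℕ) : ‖L^[j] w‖ ≤ C * (1 + ‖R‖ * ‖y‖ / ⟪y, R⟫) * θ ^ j * ‖w‖ := by
  obtain ⟨s, hs⟩ := h j w
  have h1 : ⟪L^[j] w, R⟫ = 0 := (MapsTo.iterate hL j) hw
  have h2 := abs_real_inner_le_norm (L^[j] w - s • y) R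
  rw [inner_sub_left, h1, real_inner_smul_left, zero_sub, abs_neg, abs_mul, abs_of_pos hy] at h2
  have h3 : |s| ≤ C * θ ^ j * ‖w‖ * ‖R‖ / ⟪y, R⟫ :=
    (le_div_iff₀ hy).2 (h2.trans (mul_le_mul_of_nonneg_right hs (norm_nonneg _)))
  calc ‖L^[j] w‖ = ‖(L^[j] w - s • y) + s • y‖ := by simp
    _ ≤ C * θ ^ j * ‖w‖ + C * θ ^ j * ‖w‖ * ‖R‖ / ⟪y, R⟫ * ‖y‖ := by
        refine (norm_add_le _ _).trans (add_le_add hs ?_)
        rw [norm_smul]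
        exact mul_le_mul_of_nonneg_right h3 (norm_nonneg _)
    _ = _ := by ring

theorem perS (hQ : B.PolQ) : B.PerS := by
  rintro P R ⟨h, G₁, G₂, θ, hG, hR, hP, h0, h1, hc⟩
  have h' : (P, R) ∈ GO n := Cov.GO_symm h
  obtain ⟨L, -, hL2, hL3⟩ := B.lin (P := P) hG h'.1 hP
  obtain ⟨L', hL1', hL2', hL3'⟩ := B.lin (P := R) hG.swap h.1 hR
  obtain ⟨A, b, r, hb, -, hA2, -⟩ := exists_log L
  obtain ⟨A', b', r', hb', hA1', hA2', hA3'⟩ := exists_log L'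
  have f1 : L (zz B.F (R, P)) = zz B.F (R, P) := by rw [← hL2 R h, hR]
  have f2 : L' (zz B.F (P, R)) = zz B.F (P, R) := by rw [← hL2' P h', hP]
  have hcon := B.contr hG h' hP h0 hc (L := L') fun w => by rw [hL3' P h', hP]
  obtain ⟨hsp, htr⟩ := hA3' _ _ θ f2 h0 h1 hcon
  have hY := B.fld_sm P A
  have hY' := B.fld_sm R A'
  have hfl := B.flat_del hG h hR hP hL2 hL2' hb hb' (hA2 _ f1) (hA2' _ f2)
  have hDD := B.flat_DD h hY hY' hfl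
  have hinv : ∀ η ∈ sl R, B.fld R A' (G₂ η) = fderiv ℝ G₂ η (B.fld R A' η) := fun η hη =>
    B.fld_nat hL2' hL3' hA1' hη
  have hR0 : sl R ∈ 𝓝 P := (isOpen_sl R).mem_nhds h'
  have hP0 : ({0}ᶜ : Set (Euc n)) ∈ 𝓝 P := isOpen_compl_singleton.mem_nhds h'.1
  -- a neighbourhood with bounded differentials
  obtain ⟨K, hK⟩ : ∃ K : ℝ, ∀ᶠ η in 𝓝 P, η ∈ sl R ∧ ‖fderiv ℝ G₂ η‖ ≤ K ∧
      ‖(adj G₂ η).inverse‖ ≤ K := by
    have c1 : ContinuousAt (fun η => ‖fderiv ℝ G₂ η‖) P :=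
      ((hG.sm₂.contDiffAt hP0).fderiv_right (m := 0) (by simp)).continuousAt.norm
    have c2 : ContinuousAt (fun η => ‖(adj G₂ η).inverse‖) P :=
      (hG.adj_sm.contDiffAt hP0).continuousAt.norm
    refine ⟨‖fderiv ℝ G₂ P‖ + ‖(adj G₂ P).inverse‖ + 1, ?_⟩
    filter_upwards [hR0, c1.eventually (gt_mem_nhds (lt_add_one _)),
      c2.eventually (gt_mem_nhds (lt_add_one _))] with η a1 a2 a3
    exact ⟨a1, by linarith [norm_nonneg (adj G₂ P).inverse], by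
      linarith [norm_nonneg (fderiv ℝ G₂ P)]⟩
  have hyR : ∀ η ∈ sl R, ⟪zz B.F (η, R), R⟫ = B.F (η, R) := fun η hη => by
    rw [inner_zz, B.euler₂ hη]
  have horb := orbit_near (H := G₂) (z := fun η => zz B.F (η, R)) (B.MM_inv h')
    (B.hasFDerivAt_zz h') (hG.sm₂.contDiffAt hP0).continuousAt hP (L := L') hK
    (fun η hη => by rw [hL2' η hη.1, map_sub, f2])
    (C := ‖MM B.F (P, R)‖ * ‖B.Mi (P, R)‖ *
      (1 + ‖R‖ * ‖zz B.F (P, R)‖ / ⟪zz B.F (P, R), R⟫)) h0 h1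
  obtain ⟨k, hk⟩ := B.DD_pol (isOpen_sl R) (sl_sub R) hY' hQ
  have hz1 : ∀ᶠ η in 𝓝 P, B.F (η, R) = B.F (P, R) →
      ∀ u u', ∀ ξ ∈ sl η, B.DD (B.fld R A') u u' (ξ, η) = 0 := by
    filter_upwards [horb, hR0] with η a1 a2 a3 u u'
    have a4 : zz B.F (η, R) - zz B.F (P, R) ∈ perp R := by
      show ⟪_, R⟫ = 0
      rw [inner_sub_left, hyR η a2, hyR P h', a3, sub_self]
    have a5 := a1 fun j => decay ((hyR P h').symm ▸ B.pos _ h') (fun w hw => by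
      have := hG.swap.adj_perp h.1 hw
      rwa [hR, ← hL1'] at this) hcon a4 j
    exact B.ident_jet ((hk u u').2 η a2).2 ((hk u u').2 η a2).1 (ξ₀ := R) (Cov.GO_symm a2)
      fun ws _ => B.jets_zero hG h hR hY' hinv hDD h0 h1 a5 ws u u'
  have hz2 : ∀ᶠ η in 𝓝 P, η ∈ sl R ∧
      ∀ u u', ∀ ξ ∈ sl η, B.DD (B.fld R A') u u' (ξ, η) = 0 := by
    have c1 : ContinuousAt (fun η => B.F (η, R)) P :=
      ((slice_sm B.sm R).contDiffAt hR0).continuousAt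
    have c2 : Tendsto (fun η => (B.F (P, R) / B.F (η, R)) • η) (𝓝 P) (𝓝 P) := by
      have : ContinuousAt (fun η => (B.F (P, R) / B.F (η, R)) • η) P :=
        ((continuousAt_const (y := B.F (P, R))).div c1 (B.pos _ h').ne').smul continuousAt_id
      simpa [ContinuousAt, div_self (B.pos _ h').ne'] using this
    filter_upwards [c2.eventually hz1, hR0] with η a1 a2
    refine ⟨a2, fun u u' ξ hξ => ?_⟩
    have ht : 0 < B.F (P, R) / B.F (η, R) := div_pos (B.pos _ h') (B.pos _ a2)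
    have a3 := a1 (by rw [B.hom _ ht _ _ a2, div_mul_cancel₀ _ (B.pos _ a2).ne'])
    set t := B.F (P, R) / B.F (η, R)
    rw [← B.DD_nat (isOpen_sl R) (sl_sub R) hY' (iso_scal B ht)
      (fun η hη => by simpa [sl] using GO_smul ht one_pos hη) (fun η hη => by
        rw [B.fld_smul ht hη, show fderiv ℝ (fun η : Euc n => t • η) η = _ from
          ((hasFDerivAt_id η).const_smul t).fderiv]; simp) ⟨hξ, a2⟩]
    exact a3 _ _ _ (GO_smul (inv_pos.2 ht) ht hξ)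
  obtain ⟨δ, hδ, hb0⟩ := Metric.mem_nhds_iff.1 hz2
  have hs : Metric.ball P δ ⊆ sl R := fun η hη => (hb0 hη).1
  have hne : (Metric.ball P δ).Nonempty := ⟨P, Metric.mem_ball_self hδ⟩
  obtain ⟨Y, g1, g2, g3, g4⟩ := B.glue Metric.isOpen_ball (hs.trans (sl_sub R)) (hY'.mono hs)
    (convex_ball P δ).isPreconnected hne (fun η hη => B.fld_euler (hs hη))
    fun p hp u u' => (hb0 hp.2).2 u u' p.1 hp.1
  obtain ⟨Z, hZ, hZe⟩ := B.global Metric.isOpen_ball (hs.trans (sl_sub R)) (hY'.mono hs) hQ hne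
    g1 g2 g4
  have hD : fderiv ℝ Z P = B.Mi (P, R) ∘L A' ∘L MM B.F (P, R) := by
    rw [(hZe.eventuallyEq_of_mem (Metric.ball_mem_nhds P hδ)).fderiv_eq,
      B.fderiv_fld h' (hA2' _ f2)]
  refine ⟨Z, Y, hZ.swap, ?_, ?_, fun v => ?_, ?_⟩
  · rw [hZe (Metric.mem_ball_self hδ), fld, hA2' _ f2, map_zero]
  · have hp : (R, P) ∈ Om0 P R := ⟨h, h, h'⟩
    have e : zz (B.del (B.fld P A) (B.fld R A')) (R, P) = 0 := by
      ext i
      rw [zz_apply]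
      exact (hfl.derX (isOpen_Om0 P R) hp (X := fun _ => (0, ee i)) contDiffOn_const).zero
    have := g3 (R, P) ⟨h, Metric.mem_ball_self hδ⟩
    rw [B.ext_eq hY hY' hp, e] at this
    simpa [fld, hA2 _ f1] using this
  · obtain ⟨v', s, e⟩ := hsp (MM B.F (P, R) v)
    refine ⟨B.Mi (P, R) v', s, ?_⟩
    have := congrArg (B.Mi (P, R)) e
    rw [B.Mi_MM h', map_add, map_smul, ← B.MM_self h', B.Mi_MM h'] at this
    simpa [hD, B.MM_Mi h'] using this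
  · have e : (MM B.F (P, R) : Euc n →ₗ[ℝ] Euc n) ∘ₗ (B.Mi (P, R) : Euc n →ₗ[ℝ] Euc n) =
        LinearMap.id := LinearMap.ext fun w => B.MM_Mi h' w
    have e' : (fderiv ℝ Z P : Euc n →ₗ[ℝ] Euc n) = (B.Mi (P, R) : Euc n →ₗ[ℝ] Euc n) ∘ₗ
        ((A' : Euc n →ₗ[ℝ] Euc n) ∘ₗ (MM B.F (P, R) : Euc n →ₗ[ℝ] Euc n)) := by rw [hD]; rfl
    rw [e', LinearMap.trace_comp_comm', LinearMap.comp_assoc, e, LinearMap.comp_id]
    exact htr (by have := B.hn; simp; omega)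

end Cone

end Crest.Agent.N221.K
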