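import Crest.Agent.N221.K.In2
import Crest.Agent.N221.K.Fam
import Crest.Agent.N221.K.Per
import Crest.Agent.N221.K.P1
import Crest.Agent.N221.T6.Defs
import Crest.Agent.N221.Bd.Fin
import Crest.Agent.N221.C.Ex

/-! Row 221, block K: back to the sphere; step A2 (leaf K-In3). -/

set_option autoImplicit false
set_option linter.unusedSectionVars false
set_option linter.unusedVariables false

open MeasureTheory Set Filter Topology
open scoped ContDiff RealInnerProductSpace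
open Crest.GeometryTopology.Submanifold
open Crest.Agent.R241.DDefs Crest.Agent.R241.D2
open Crest.Agent.R208.J Crest.Agent.R208.L
open Crest.Agent.N221.K

noncomputable section

namespace Crest.Agent.N221

variable {n N : ℕ} {a : ℝ} {S : Set (Euc N)} {G : Geo n N (-(a ^ 2)) S}

/-- tangential part -/
def tanY (Y : Euc n → Euc n) (ξ : Euc n) : Euc n := Y ξ - ⟪ξ, Y ξ⟫ • ξ

/-- radial part -/
def radY (Y : Euc n → Euc n) (ξ : Euc n) : ℝ := ⟪ξ, Y ξ⟫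

namespace In3

variable {Y : Euc n → Euc n} {ξ : Euc n}

lemma sm_at {F : Type} [NormedAddCommGroup F] [NormedSpace ℝ F] {f : Euc n → F}
    (hf : ContDiffOn ℝ ∞ f {0}ᶜ) (hξ : ‖ξ‖ = 1) : ContDiffAt ℝ ∞ f ξ :=
  hf.contDiffAt (isOpen_compl_singleton.mem_nhds (Cov.bas_ne0 hξ))

lemma sm_rad (hY : ContDiffOn ℝ ∞ Y {0}ᶜ) (hξ : ‖ξ‖ = 1) : ContDiffAt ℝ ∞ (radY Y) ξ :=
  contDiffAt_id.inner ℝ (sm_at hY hξ)

lemma sm_tan (hY : ContDiffOn ℝ ∞ Y {0}ᶜ) (hξ : ‖ξ‖ = 1) : ContDiffAt ℝ ∞ (tanY Y) ξ :=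
  (sm_at hY hξ).sub ((sm_rad hY hξ).smul contDiffAt_id)

lemma inner_tan (Y : Euc n → Euc n) (hξ : ‖ξ‖ = 1) : ⟪ξ, tanY Y ξ⟫ = 0 := by
  rw [tanY, inner_sub_right, real_inner_smul_right, real_inner_self_eq_norm_sq, hξ]
  ring

lemma map_tan (L : Euc n →L[ℝ] ℝ) (Y : Euc n → Euc n) (ξ : Euc n) :
    L (tanY Y ξ) = L (Y ξ) - radY Y ξ * L ξ := by
  rw [tanY, map_sub, map_smul]; rfl

lemma euler {φ : Euc n → ℝ} {d : ℝ} (hφ : DifferentiableAt ℝ φ ξ)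
    (e : ∀ t : ℝ, 0 < t → φ (t • ξ) = t ^ d * φ ξ) : fderiv ℝ φ ξ ξ = d * φ ξ := by
  have h1 : HasDerivAt (fun t : ℝ => t • ξ) ξ 1 := by simpa using (hasDerivAt_id (1 : ℝ)).smul_const ξ
  have h2 := hφ.hasFDerivAt.comp_hasDerivAt_of_eq (1 : ℝ) h1 (one_smul ℝ ξ).symm
  have h3 := (Real.hasDerivAt_rpow_const (x := 1) (p := d) (Or.inl one_ne_zero)).mul_const (φ ξ)
  have h4 := h3.congr_of_eventuallyEq (f₁ := φ ∘ fun t : ℝ => t • ξ) (by
    filter_upwards [lt_mem_nhds (zero_lt_one (α := ℝ))] with t ht using e t ht)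
  simpa using h2.unique h4

end In3

open In3

namespace Cov

variable (C : Cov G) {Y Y' g : Euc n → Euc n} {x P : Euc n} {w : Euc N} (h : SH G) (B : Cone n)
  (hB : B.F = C.Fc)
include h hB

lemma kill_of (hK : B.Kil Y Y') : C.Kill (tanY Y) (radY Y) (tanY Y') (radY Y') := by
  refine ⟨fun ξ => sm_tan hK.sm, fun ξ => sm_rad hK.sm, fun ξ => sm_tan hK.sm',
    fun ξ => sm_rad hK.sm', fun ξ => inner_tan Y, fun ξ => inner_tan Y', fun ξ η hp => ?_⟩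
  have h1 : fderiv ℝ B.F (ξ, η) (Y ξ, Y' η) = 0 := hK.eq _ (GG_sub hp)
  rw [hB, C.fderiv_Fc h hp] at h1
  have h2 := (mul_eq_zero.1 h1).resolve_left (C.Fc_pos h (GG_sub hp)).ne'
  rw [map_tan, map_tan, C.c1_self h (GG_sub hp), C.c2_self h (GG_sub hp), radY, radY]
  linarith

lemma muK_eq (hw : C.Un x w) : C.muK (tanY Y) (radY Y) x w =
    fderiv ℝ B.F (C.ep x w, C.ep x (-w)) (Y (C.ep x w), 0) / B.F (C.ep x w, C.ep x (-w)) := by
  have hp := C.ep_GG h.hyp.a_pos hw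
  rw [hB, C.fderiv_Fc h hp, mul_div_cancel_left₀ _ (C.Fc_pos h (GG_sub hp)).ne', muK, map_tan,
    C.c1_self h (GG_sub hp), radY]
  simp

/-- the quotient is `0`-homogeneous and natural under `hat g` -/
lemma muK_deck (hK : B.Kil Y Y') (hg : C.Deck g) (hw : C.Un x w) :
    C.muK (tanY Y) (radY Y) (g x) w =
      fderiv ℝ B.F (C.ep x w, C.ep x (-w))
        ((fderiv ℝ (C.hat g) (C.ep x w)).inverse (Y (C.hat g (C.ep x w))), 0) /
        B.F (C.ep x w, C.ep x (-w)) := by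
  have ha := h.hyp.a_pos
  have hp := C.ep_GG ha hw
  have hi : Iso B.F (C.hat g) (C.hat g) := hB ▸ C.iso_hat h hg
  rw [C.muK_eq h B hB ((hg.un C).2 hw), ← C.act_ep ha hg hw, ← C.act_ep ha hg (hw.neg C)]
  generalize C.ep x w = ξ at hp
  generalize C.ep x (-w) = η at hp
  have hq := GG_sub (C.act_GG ha hg hp)
  have hs := Real.exp_pos (C.be g ξ)
  have ht := Real.exp_pos (C.be g η)
  have h1 := B.fderiv_smul hs ht hq (Y (C.act g ξ)) 0
  rw [← hi.fderiv_F (GG_sub hp), ← hi.inv ξ η (GG_sub hp), map_zero,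
    (hi.inv₁ (bas_ne0 hp.1)).self_apply_inverse, C.hat_unit h hp.1, C.hat_unit h hp.2.1,
    hK.hom _ hs, B.hom _ hs _ _ (by simpa using GO_smul one_pos ht hq), B.hom₂ ht hq]
  rw [smul_zero] at h1
  rw [h1, ← mul_assoc, mul_div_mul_left _ _ (mul_pos hs ht).ne']

lemma trace_tanY (hK : B.Kil Y Y') (hP : ‖P‖ = 1) (h0 : Y P = 0) :
    LinearMap.trace ℝ (Euc n) ((fderiv ℝ (tanY Y) P ∘L piO P : Euc n →L[ℝ] Euc n) :
      Euc n →ₗ[ℝ] Euc n) = LinearMap.trace ℝ (Euc n) (fderiv ℝ Y P : Euc n →ₗ[ℝ] Euc n) := by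
  have hd := (sm_at hK.sm hP).differentiableAt (by simp)
  have h1 := hd.hasFDerivAt.sub
    (((hasFDerivAt_id P).inner ℝ hd.hasFDerivAt).smul (hasFDerivAt_id P))
  have h2 : fderiv ℝ (tanY Y) P = piO P ∘L fderiv ℝ Y P := by
    refine (HasFDerivAt.fderiv h1).trans ?_
    ext1 u
    simp [piO, h0]
  have h3 : fderiv ℝ Y P ∘L piO P = fderiv ℝ Y P := by
    ext1 u
    simp [piO, hK.hom.euler hd, h0]
  rw [h2, ContinuousLinearMap.comp_assoc, h3]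
  conv_rhs => rw [← h3]
  exact LinearMap.trace_comp_comm' _ _

/-- `T6S` for the family `Option ι` (`none ↦ Y`) -/
theorem lin_of (hT6 : T6.T6S) (hh : B.h ≠ 0) (hO : B.OutS) (hK : B.Kil Y Y') :
    ∃ Z c, C.Lin (tanY Y) (radY Y) Z c := by
  obtain ⟨ι, κ, _, _, X, φ, h1, h2, h3, h4, h5, h6, h7⟩ := hO
  have ha := h.hyp.a_pos
  have hX : ∀ o : Option ι, B.Kf (o.elim Y X) := by
    rintro (_ | i)
    exacts [⟨Y', hK⟩, h1 i]
  have hi : ∀ g, C.Deck g → Iso B.F (C.hat g) (C.hat g) := fun g hg => hB ▸ C.iso_hat h hg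
  refine hT6 n N a S G C h B.h hh (Option ι) (fun o => tanY (o.elim Y X))
    (fun o => radY (o.elim Y X)) (fun o => ?_) (fun g hg o => ?_) κ φ (fun j ξ => sm_at (h3 j)) h5
    (fun g hg j => ?_) (fun o j => ?_) none
  · obtain ⟨Z, hZ⟩ := hX o
    exact ⟨_, _, C.kill_of h B hB hZ⟩
  · obtain ⟨Z, hZ⟩ := hX o
    obtain ⟨c, hc⟩ := h2 _ ⟨_, hZ.pull B (hi g hg)⟩
    refine ⟨fun o => o.elim 0 c, fun x w hw => ?_⟩
    have e : ∀ u : Euc n, ((u, 0) : PE n) = ContinuousLinearMap.inl ℝ (Euc n) (Euc n) u :=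
      fun u => rfl
    rw [C.muK_deck h B hB hZ hg hw, hc, Fintype.sum_option]
    simp only [C.muK_eq h B hB hw, Option.elim, e, map_sum, map_smul, smul_eq_mul, Finset.sum_div,
      zero_mul, zero_add, mul_div_assoc]
  · obtain ⟨c, hc⟩ := h6 _ (hi g hg) j
    refine ⟨c, fun ξ hξ => ?_⟩
    rw [← hc ξ (bas_ne0 hξ), C.hat_unit h hξ,
      h4 j _ (Real.exp_pos _) _ (C.act_ne_zero ha hg (bas_ne0 hξ)), ← Real.exp_mul, mul_comm B.h]
  · obtain ⟨c, hc⟩ := h7 _ (hX o) j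
    refine ⟨c, fun ξ hξ => ?_⟩
    rw [← hc ξ (bas_ne0 hξ), map_tan, euler ((sm_at (h3 j) hξ).differentiableAt (by simp))
      fun t ht => h4 j t ht ξ (bas_ne0 hξ)]
    ring

end Cov

/-- **A2** -/
theorem a2S (hT6 : T6.T6S) (hH : H.HorS) (hD : H.DHorS) (hSp : H.SplitS) (hT : TrS) : A2S := by
  intro n N a S G H hc hs
  obtain ⟨C⟩ := covS n N a S G H
  have h : SH G := ⟨H, hs, hH, hD⟩
  obtain ⟨B, hB, hh⟩ := C.exists_cone h hSp hT hc
  have hP := B.perS B.polQ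
  refine C.par_of_per H hT fun g ξ η hp k s t => ?_
  obtain ⟨Y, Y', hK, h1, h2, -, h3⟩ := hP ξ η (hB ▸ C.perD h hp)
  obtain ⟨Z, c, hL⟩ := C.lin_of h B hB hT6 hh (B.outS hP) hK
  obtain ⟨y, w, l, hA, rfl, rfl⟩ := hp
  have hG : (C.ep y w, C.ep y (-w)) ∈ GG n :=
    ⟨C.norm_ep H.a_pos hA.un, C.norm_ep H.a_pos (hA.un.neg C), C.ep_ne_neg H.a_pos hA.un⟩
  refine C.p7 h (C.kill_of h B hB hK) hL hG (by simp [tanY, h1]) (by simp [tanY, h2]) ?_ k s t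
  rw [C.trace_tanY h B hB hK hG.1 h1]
  exact h3.ne

end Crest.Agent.N221
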