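import Crest.Agent.N221.K.Bas

/-! Row 221, block K: naturality under pairs of maps preserving `F` (leaf K-Nat). -/

set_option autoImplicit false
set_option linter.unusedSectionVars false
set_option linter.unusedVariables false

open Set Filter Topology
open scoped ContDiff RealInnerProductSpace
open Crest.GeometryTopology.Submanifold

noncomputable section

namespace Crest.Agent.N221.K

variable {n : ℕ} {ξ η u u' w a b : Euc n} {t s : ℝ} {G₁ G₂ : Euc n → Euc n} {B : Cone n}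

/-- transposed differential -/
abbrev adj (G : Euc n → Euc n) (η : Euc n) : Euc n →L[ℝ] Euc n :=
  ContinuousLinearMap.adjoint (fderiv ℝ G η)

namespace NatP

lemma neg_GO (hη : η ≠ 0) : (-η, η) ∈ GO n := by
  refine (mem_sl_iff hη).2 ?_
  rintro ⟨r, hr, h⟩
  have : (r + 1) • η = 0 := by rw [add_smul, one_smul, ← h, neg_add_cancel]
  rcases smul_eq_zero.1 this with h | h
  · linarith
  · exact hη h

lemma dif {G : Euc n → Euc n} (h : ContDiffOn ℝ ∞ G {0}ᶜ) (hη : η ≠ 0) : DifferentiableAt ℝ G η :=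
  sm_dif isOpen_compl_singleton h hη

lemma inv_of_inj {L : Euc n →L[ℝ] Euc n} (h : ∀ a, L a = 0 → a = 0) : L.IsInvertible :=
  ⟨(LinearEquiv.ofInjectiveEndo (L : Euc n →ₗ[ℝ] Euc n)
    ((injective_iff_map_eq_zero _).2 h)).toContinuousLinearEquiv, rfl⟩

lemma det_adj (L : Euc n →L[ℝ] Euc n) : (ContinuousLinearMap.adjoint L).det = L.det := by
  have b := EuclideanSpace.basisFun (Fin n) ℝ
  rw [ContinuousLinearMap.det, ContinuousLinearMap.det, ← ContinuousLinearMap.adjoint_toLinearMap,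
    ← LinearMap.det_toMatrix b.toBasis, LinearMap.toMatrix_adjoint, Matrix.det_conjTranspose,
    LinearMap.det_toMatrix, star_trivial]

lemma det_comp (L M : Euc n →L[ℝ] Euc n) : (L ∘L M).det = L.det * M.det :=
  LinearMap.det_comp (L : Euc n →ₗ[ℝ] Euc n) M

lemma ev₂ (hp : (ξ, η) ∈ GO n) : ∀ᶠ y in 𝓝 η, (ξ, y) ∈ GO n :=
  (Continuous.prodMk_right ξ).continuousAt.eventually (Cov.isOpen_GO.mem_nhds hp)

lemma zz_der (B : Cone n) (hp : (ξ, η) ∈ GO n) : HasFDerivAt (fun y => zz B.F (ξ, y))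
    (fderiv ℝ (zz B.F) (ξ, η) ∘L ContinuousLinearMap.inr ℝ (Euc n) (Euc n)) η :=
  (sm_dif Cov.isOpen_GO (zz_sm Cov.isOpen_GO B.sm) hp).hasFDerivAt.comp η
    (hasFDerivAt_prodMk_right ξ η)

end NatP

open NatP

lemma Iso.swap (h : Iso B.F G₁ G₂) : Iso B.F G₂ G₁ :=
  ⟨h.sm₂, h.sm₁, h.hom₂, h.hom₁, fun ξ η hp => Cov.GO_symm (h.maps η ξ (Cov.GO_symm hp)),
    fun ξ η hp => by
      rw [B.symm _ _ (h.maps η ξ (Cov.GO_symm hp)), h.inv η ξ (Cov.GO_symm hp), B.symm ξ η hp]⟩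

lemma Iso.smul (h : Iso B.F G₁ G₂) (ht : 0 < t) :
    Iso B.F (fun ξ => t⁻¹ • G₁ ξ) (fun η => t • G₂ η) :=
  ⟨h.sm₁.const_smul _, h.sm₂.const_smul _,
    fun s hs ξ => by simp only [h.hom₁ s hs ξ, smul_comm s],
    fun s hs ξ => by simp only [h.hom₂ s hs ξ, smul_comm s],
    fun ξ η hp => GO_smul (inv_pos.2 ht) ht (h.maps ξ η hp), fun ξ η hp => by
      have h1 := GO_smul one_pos ht (h.maps ξ η hp)
      rw [one_smul] at h1
      rw [B.hom _ (inv_pos.2 ht) _ _ h1, B.hom₂ ht (h.maps ξ η hp), h.inv ξ η hp,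
        inv_mul_cancel_left₀ ht.ne']⟩

lemma iso_scal (B : Cone n) (ht : 0 < t) : Iso B.F (fun ξ => t⁻¹ • ξ) (fun η => t • η) :=
  Iso.smul (G₁ := id) (G₂ := id) ⟨contDiffOn_id, contDiffOn_id, fun _ _ _ => rfl, fun _ _ _ => rfl,
    fun _ _ h => h, fun _ _ _ => rfl⟩ ht

lemma Iso.ne₂ (h : Iso B.F G₁ G₂) (hη : η ≠ 0) : G₂ η ≠ 0 := (h.maps _ _ (neg_GO hη)).2.1

lemma Iso.euler₂ (h : Iso B.F G₁ G₂) (hη : η ≠ 0) : fderiv ℝ G₂ η η = G₂ η :=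
  h.hom₂.euler (dif h.sm₂ hη)

lemma Iso.maps_sl (h : Iso B.F G₁ G₂) (η : Euc n) : MapsTo G₁ (sl η) (sl (G₂ η)) :=
  fun ξ hξ => h.maps ξ η hξ

lemma Iso.fderiv_F (h : Iso B.F G₁ G₂) (hp : (ξ, η) ∈ GO n) (a b : Euc n) :
    fderiv ℝ B.F (G₁ ξ, G₂ η) (fderiv ℝ G₁ ξ a, fderiv ℝ G₂ η b) = fderiv ℝ B.F (ξ, η) (a, b) := by
  have h1 : HasFDerivAt (fun p : PE n => B.F (Prod.map G₁ G₂ p)) _ (ξ, η) :=
    (sm_dif Cov.isOpen_GO B.sm (h.maps ξ η hp)).hasFDerivAt.comp (ξ, η)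
      (HasFDerivAt.prodMap (ξ, η) (dif h.sm₁ hp.1).hasFDerivAt (dif h.sm₂ hp.2.1).hasFDerivAt)
  rw [← fderiv_congr_open Cov.isOpen_GO (f := fun p : PE n => B.F (Prod.map G₁ G₂ p))
    (fun p hp => h.inv p.1 p.2 hp) hp, h1.fderiv]
  rfl

lemma Iso.zz_nat (h : Iso B.F G₁ G₂) (hp : (ξ, η) ∈ GO n) :
    adj G₂ η (zz B.F (G₁ ξ, G₂ η)) = zz B.F (ξ, η) := by
  refine ext_inner_right ℝ fun w => ?_
  rw [ContinuousLinearMap.adjoint_inner_left, inner_zz, inner_zz, ← h.fderiv_F hp 0 w, map_zero]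

lemma Iso.MM_nat (h : Iso B.F G₁ G₂) (hp : (ξ, η) ∈ GO n) (a : Euc n) :
    adj G₂ η (MM B.F (G₁ ξ, G₂ η) (fderiv ℝ G₁ ξ a)) = MM B.F (ξ, η) a := by
  have h1 : HasFDerivAt (fun x => adj G₂ η (zz B.F (G₁ x, G₂ η))) _ ξ :=
    (adj G₂ η).hasFDerivAt.comp ξ ((B.hasFDerivAt_zz (h.maps ξ η hp)).comp ξ
      (dif h.sm₁ hp.1).hasFDerivAt)
  have h2 := (h1.congr_of_eventuallyEq (Filter.eventuallyEq_of_mem ((isOpen_sl η).mem_nhds hp)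
    fun x hx => (h.zz_nat hx).symm)).unique (B.hasFDerivAt_zz hp)
  exact congrArg (fun L : Euc n →L[ℝ] Euc n => L a) h2

lemma Iso.inv₁ (h : Iso B.F G₁ G₂) (hξ : ξ ≠ 0) : (fderiv ℝ G₁ ξ).IsInvertible :=
  inv_of_inj fun a ha => by
    have hp := Cov.GO_symm (neg_GO hξ)
    rw [← B.Mi_MM hp a, ← h.MM_nat hp, ha, map_zero, map_zero, map_zero]

lemma Iso.inv₂ (h : Iso B.F G₁ G₂) (hη : η ≠ 0) : (fderiv ℝ G₂ η).IsInvertible := h.swap.inv₁ hη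

lemma Iso.adj_inv (h : Iso B.F G₁ G₂) (hη : η ≠ 0) : (adj G₂ η).IsInvertible :=
  inv_of_inj fun w hw => by
    obtain ⟨u, hu⟩ := (h.inv₂ hη).surjective w
    rw [← inner_self_eq_zero (𝕜 := ℝ)]
    nth_rw 2 [← hu]
    rw [← ContinuousLinearMap.adjoint_inner_left, hw, inner_zero_left]

lemma Iso.Mi_nat (h : Iso B.F G₁ G₂) (hp : (ξ, η) ∈ GO n) (w : Euc n) :
    fderiv ℝ G₁ ξ (B.Mi (ξ, η) w) = B.Mi (G₁ ξ, G₂ η) ((adj G₂ η).inverse w) := by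
  have h1 := h.MM_nat hp (B.Mi (ξ, η) w)
  rw [B.MM_Mi hp] at h1
  nth_rw 2 [← h1]
  rw [(h.adj_inv hp.2.1).inverse_apply_self, B.Mi_MM (h.maps ξ η hp)]

lemma Iso.adj_perp (h : Iso B.F G₁ G₂) (hη : η ≠ 0) (hw : w ∈ perp η) :
    (adj G₂ η).inverse w ∈ perp (G₂ η) := by
  change ⟪_, _⟫ = 0
  nth_rw 1 [← h.euler₂ hη]
  rw [← ContinuousLinearMap.adjoint_inner_left, (h.adj_inv hη).self_apply_inverse]
  exact hw

lemma Iso.adj_sm (h : Iso B.F G₁ G₂) : ContDiffOn ℝ ∞ (fun η => (adj G₂ η).inverse) {0}ᶜ := by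
  have h1 : ContDiffOn ℝ ∞ (adj G₂) {0}ᶜ :=
    (ContinuousLinearMap.adjoint (𝕜 := ℝ) (E := Euc n)
      (F := Euc n)).toContinuousLinearEquiv.contDiff.comp_contDiffOn
      (h.sm₂.fderiv_of_isOpen isOpen_compl_singleton (by simp))
  exact fun η hη => (h.adj_inv hη).contDiffAt_map_inverse.comp_contDiffWithinAt η (h1 η hη)

lemma Iso.itr_nat (h : Iso B.F G₁ G₂) (hp : (ξ, η) ∈ GO n) {g : Euc n → ℝ}
    (hg : ContDiffOn ℝ ∞ g (sl (G₂ η))) (ws : List (Euc n)) :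
    itr (B.Ns η) ws (fun ξ => g (G₁ ξ)) ξ =
      itr (B.Ns (G₂ η)) (ws.map (adj G₂ η).inverse) g (G₁ ξ) :=
  K.itr_nat (isOpen_sl η) (B.Ns_sm η) (isOpen_sl _) (B.Ns_sm _) (h.sm₁.mono (sl_sub η))
    (h.maps_sl η) _ (fun _ hq w => h.Mi_nat hq w) hg ws hp

/-- differentiate `zz_nat` in `η`; `c = (fderiv G₂ η)⁻¹ (D² G₂ η (u, u'))` -/
lemma Iso.QQ_nat (h : Iso B.F G₁ G₂) (hη : η ≠ 0) (u u' : Euc n) : ∃ c : Euc n, ∀ ξ ∈ sl η,
    B.QQ u u' (ξ, η) = B.QQ (fderiv ℝ G₂ η u) (fderiv ℝ G₂ η u') (G₁ ξ, G₂ η) +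
      ⟪zz B.F (ξ, η), c⟫ := by
  have d1 : DifferentiableAt ℝ (fun y => fderiv ℝ G₂ y u') η :=
    dif ((h.sm₂.fderiv_of_isOpen isOpen_compl_singleton (by simp)).clm_apply contDiffOn_const) hη
  refine ⟨(fderiv ℝ G₂ η).inverse (fderiv ℝ (fun y => fderiv ℝ G₂ y u') η u), fun ξ hξ => ?_⟩
  have hp : (ξ, η) ∈ GO n := hξ
  have hq := h.maps ξ η hp
  have d2 : HasFDerivAt (fun y => zz B.F (G₁ ξ, G₂ y)) _ η :=
    (zz_der B hq).comp η (dif h.sm₂ hη).hasFDerivAt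
  have e : (fun y => ⟪zz B.F (G₁ ξ, G₂ y), fderiv ℝ G₂ y u'⟫) =ᶠ[𝓝 η]
      fun y => ⟪zz B.F (ξ, y), u'⟫ := (ev₂ hp).mono fun y hy => by
    beta_reduce
    rw [← h.zz_nat hy, ContinuousLinearMap.adjoint_inner_left]
  have e1 := congrArg (fun L : Euc n →L[ℝ] ℝ => L u) e.fderiv_eq
  beta_reduce at e1
  rw [fderiv_inner_apply ℝ d2.differentiableAt d1, d2.fderiv,
    fderiv_inner_apply ℝ (zz_der B hp).differentiableAt (differentiableAt_const _),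
    (zz_der B hp).fderiv, fderiv_fun_const, Pi.zero_apply, zero_apply,
    inner_zero_right, zero_add] at e1
  rw [B.QQ_eq hp, B.QQ_eq hq, ← h.zz_nat hp, ContinuousLinearMap.adjoint_inner_left,
    (h.inv₂ hη).self_apply_inverse, add_comm]
  exact e1.symm

/-- `|ρ (g ξ) det Dg ξ / ρ ξ| = 1` by three points, constant sign by connectedness -/
lemma Iso.rho (h : Iso B.F G₁ G₁) : ∃ σ : ℝ, ∀ ξ, ξ ≠ 0 →
    B.ρ (G₁ ξ) * (fderiv ℝ G₁ ξ).det = σ * B.ρ ξ := by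
  set r : Euc n → ℝ := fun ξ => B.ρ (G₁ ξ) * (fderiv ℝ G₁ ξ).det / B.ρ ξ with hr
  have key : ∀ ξ η, (ξ, η) ∈ GO n → |r ξ| * |r η| = 1 := fun ξ η hp => by
    have hq := h.maps ξ η hp
    have e : adj G₁ η ∘L MM B.F (G₁ ξ, G₁ η) ∘L fderiv ℝ G₁ ξ = MM B.F (ξ, η) :=
      ContinuousLinearMap.ext fun a => h.MM_nat hp a
    have e1 := B.det_eq hp
    rw [← e, det_comp, det_comp, det_adj, abs_mul, abs_mul, B.det_eq hq, h.inv ξ η hp] at e1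
    have p0 := Real.rpow_pos_of_pos (B.pos _ hp) ((n : ℝ) - B.h)
    have p1 := B.ρpos ξ hp.1
    have p2 := B.ρpos η hp.2.1
    simp only [hr, abs_div, abs_mul, abs_of_pos p1, abs_of_pos p2, abs_of_pos (B.ρpos _ hq.1),
      abs_of_pos (B.ρpos _ hq.2.1)]
    rw [div_mul_div_comm, div_eq_one_iff_eq (mul_pos p1 p2).ne']
    refine mul_left_cancel₀ p0.ne' ?_
    linarith
  have sq : EqOn (r ^ 2) 1 {0}ᶜ := fun ξ hξ => by
    obtain ⟨ζ, -, h1, h2⟩ := exists_mem_sl B.hn isOpen_univ univ_nonempty hξ (neg_ne_zero.2 hξ)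
    have k1 := key _ _ h1
    have k2 := key _ _ h2
    have k3 := key _ _ (neg_GO hξ)
    have k4 : |r ξ| = |r (-ξ)| := mul_left_cancel₀ (left_ne_zero_of_mul_eq_one k1) (k1.trans k2.symm)
    rw [← k4, abs_mul_abs_self] at k3
    rw [Pi.pow_apply, pow_two, k3, Pi.one_apply]
  have cr : ContinuousOn r {0}ᶜ :=
    ((B.ρsm.continuousOn.comp h.sm₁.continuousOn fun ξ hξ => h.ne₂ hξ).mul
      (ContinuousLinearMap.continuous_det.comp_continuousOn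
        (h.sm₁.continuousOn_fderiv_of_isOpen isOpen_compl_singleton (by simp)))).div
      B.ρsm.continuousOn fun ξ hξ => (B.ρpos ξ hξ).ne'
  rcases (isPreconnected_ne B.hn).eq_one_or_eq_neg_one_of_sq_eq cr sq with h1 | h1
  · exact ⟨1, fun ξ hξ => (div_eq_iff (B.ρpos ξ hξ).ne').1 (h1 hξ)⟩
  · exact ⟨-1, fun ξ hξ => (div_eq_iff (B.ρpos ξ hξ).ne').1 (h1 hξ)⟩

/-- transposed form of the lower bound in `Expd` -/
lemma Iso.adj_le (h : Iso B.F G₁ G₂) (hη : η ≠ 0) {α β : ℝ} (hα : 0 < α) (e : Expd G₂ η α β)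
    (hw : w ∈ perp η) : ‖(adj G₂ η).inverse w‖ ≤ α⁻¹ * ‖w‖ := by
  have h0 := (h.adj_inv hη).self_apply_inverse w
  generalize (adj G₂ η).inverse w = v at h0 ⊢
  obtain ⟨u, hu⟩ := (h.inv₂ hη).surjective v
  have h1 := (e _ (prj_mem hη u)).1 (-(⟪u, η⟫ / ‖η‖ ^ 2))
  nth_rw 2 [prj] at h1
  rw [map_sub, map_smul, h.euler₂ hη, neg_smul, sub_neg_eq_add, sub_add_cancel, hu] at h1
  have h2 : ‖v‖ * ‖v‖ = ⟪w, prj η u⟫ := by
    rw [prj, inner_sub_right, inner_smul_right, show ⟪w, η⟫ = 0 from hw, mul_zero, sub_zero, ← h0,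
      ContinuousLinearMap.adjoint_inner_left, hu, real_inner_self_eq_norm_mul_norm]
  have h3 := real_inner_le_norm w (prj η u)
  rw [le_inv_mul_iff₀ hα]
  rcases (norm_nonneg v).eq_or_lt with h4 | h4
  · rw [← h4, mul_zero]; exact norm_nonneg _
  · refine le_of_mul_le_mul_right ?_ h4
    nlinarith [mul_le_mul_of_nonneg_left h1 (norm_nonneg w)]

/-- `Cone.rate` on all of `GO` (scale with `Iso.smul`) -/
lemma Cone.rate' (B : Cone n) : ∃ a b : ℝ, 0 < a ∧ ∀ ξ η, (ξ, η) ∈ GO n →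
    ∃ (K : Set (PE n)) (C : ℝ), IsCompact K ∧ K ⊆ GO n ∧ 0 < C ∧ ∀ T : ℝ, ∃ t, T ≤ t ∧
      ∃ G₁ G₂, Iso B.F G₁ G₂ ∧ (G₁ ξ, G₂ η) ∈ K ∧
        Expd G₂ η (Real.exp (a * t) / C) (C * Real.exp (b * t)) := by
  obtain ⟨a, b, ha, h⟩ := B.rate
  refine ⟨a, b, ha, fun ξ η hp => ?_⟩
  obtain ⟨K, C, hK, hs, hC, h⟩ := h _ _ (Cov.GO_normalize hp)
  have p1 := norm_pos_iff.2 hp.1
  have p2 := norm_pos_iff.2 hp.2.1
  refine ⟨(fun p : PE n => (‖ξ‖ • p.1, ‖η‖ • p.2)) '' K, C, hK.image (by fun_prop), ?_, hC,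
    fun T => ?_⟩
  · rintro _ ⟨p, hp, rfl⟩
    exact GO_smul p1 p2 (hs hp)
  obtain ⟨t, ht, G₁, G₂, hI, hm, he⟩ := h T
  refine ⟨t, ht, G₁, G₂, hI, ⟨_, hm, ?_⟩, fun u hu => ?_⟩
  · simp only [hI.hom₁ _ (inv_pos.2 p1), hI.hom₂ _ (inv_pos.2 p2), smul_inv_smul₀ p1.ne',
      smul_inv_smul₀ p2.ne']
  · obtain ⟨h1, r, h2⟩ := he u (by rw [inner_smul_right, hu, mul_zero])
    rw [hI.hom₂.fderiv_smul (inv_pos.2 p2), hI.hom₂ _ (inv_pos.2 p2)] at h1 h2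
    refine ⟨fun r => ?_, r * ‖η‖⁻¹, by rwa [mul_smul]⟩
    have := h1 (r * ‖η‖)
    rwa [mul_smul, smul_inv_smul₀ p2.ne'] at this

end Crest.Agent.N221.K
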