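import Crest.Agent.N221.K.Glue
import Crest.Agent.N221.K.Flat
import Crest.Agent.N221.K.LA

/-! Row 221, block K: step P2, the local fields and flatness of the defect (helper11). -/

set_option autoImplicit false
set_option linter.unusedSectionVars false
set_option linter.unusedVariables false

open Set Filter Topology
open scoped ContDiff RealInnerProductSpace
open Crest.GeometryTopology.Submanifold

noncomputable section

namespace Crest.Agent.N221.K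

variable {n : ℕ} {P R ξ η : Euc n} {G₁ G₂ : Euc n → Euc n} {A A' : Euc n →L[ℝ] Euc n} {t : ℝ}

/-- orbits near an attracting fixed point which is linear in the coordinates `z` -/
lemma orbit_near {E : Type} [NormedAddCommGroup E] [NormedSpace ℝ E] {H z : E → E} {P : E}
    {M : E →L[ℝ] E} (hM : M.IsInvertible) (hz : HasFDerivAt z M P) (hH : ContinuousAt H P)
    (hP : H P = P) {L : E → E} {U : Set E} (hU : U ∈ 𝓝 P)
    (e : ∀ η ∈ U, z (H η) - z P = L (z η - z P)) {C θ : ℝ} (h0 : 0 ≤ θ) (h1 : θ < 1) :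
    ∀ᶠ η in 𝓝 P, (∀ j : ℕ, ‖L^[j] (z η - z P)‖ ≤ C * θ ^ j * ‖z η - z P‖) →
      ∀ j : ℕ, H^[j] η ∈ U ∧ ‖H^[j] η - P‖ ≤ θ ^ j := by
  obtain ⟨m, rfl⟩ := hM
  obtain ⟨c, hc0, hc⟩ := (hz.isTheta_sub m.toHomeomorph.isInducing).symm.isBigO.exists_pos
  have h2 : U ∩ {η | ‖η - P‖ ≤ c * ‖z η - z P‖} ∈ 𝓝 P := inter_mem hU hc.bound
  have h3 := inter_mem h2 (hH.preimage_mem_nhds
    (t := U ∩ {η | ‖η - P‖ ≤ c * ‖z η - z P‖}) (by rwa [hP]))
  obtain ⟨δ, hδ, hb⟩ := Metric.mem_nhds_iff.1 h3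
  have h4 : ∀ᶠ η in 𝓝 P, c * |C| * ‖z η - z P‖ < min δ 1 := by
    have : ContinuousAt (fun η => c * |C| * ‖z η - z P‖) P :=
      continuousAt_const.mul (hz.continuousAt.sub continuousAt_const).norm
    exact this.eventually_lt continuousAt_const (by simp [hδ])
  filter_upwards [h4, h2] with η h5 h6 h7
  have key : ∀ j : ℕ, H^[j] η ∈ U ∩ {η | ‖η - P‖ ≤ c * ‖z η - z P‖} →
      z (H^[j] η) - z P = L^[j] (z η - z P) → ‖H^[j] η - P‖ ≤ θ ^ j * (c * |C| * ‖z η - z P‖) := by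
    intro j h8 h9
    have h10 : ‖H^[j] η - P‖ ≤ c * ‖z (H^[j] η) - z P‖ := h8.2
    rw [h9] at h10
    have h11 : C * θ ^ j * ‖z η - z P‖ ≤ |C| * θ ^ j * ‖z η - z P‖ := by
      gcongr; exact le_abs_self C
    calc _ ≤ c * (|C| * θ ^ j * ‖z η - z P‖) :=
          h10.trans (mul_le_mul_of_nonneg_left ((h7 j).trans h11) hc0.le)
      _ = _ := by ring
  have hp : ∀ j : ℕ, θ ^ j ≤ 1 := fun j => pow_le_one₀ h0 h1.le
  have hn : 0 ≤ c * |C| * ‖z η - z P‖ := by positivity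
  have ind : ∀ j : ℕ, H^[j] η ∈ U ∩ {η | ‖η - P‖ ≤ c * ‖z η - z P‖} ∧
      z (H^[j] η) - z P = L^[j] (z η - z P) := by
    intro j
    induction j with
    | zero => exact ⟨h6, rfl⟩
    | succ j ih =>
      have h8 : H^[j] η ∈ Metric.ball P δ := by
        rw [mem_ball_iff_norm]
        exact ((key j ih.1 ih.2).trans (mul_le_of_le_one_left hn (hp j))).trans_lt
          (h5.trans_le (min_le_left _ _))
      rw [Function.iterate_succ_apply', Function.iterate_succ_apply']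
      exact ⟨(hb h8).2, by rw [e _ ih.1.1, ih.2]⟩
  refine fun j => ⟨(ind j).1.1, (key j (ind j).1 (ind j).2).trans ?_⟩
  exact mul_le_of_le_one_right (pow_nonneg h0 j) (h5.le.trans (min_le_right _ _))

lemma prj_add_smul (hP : P ≠ 0) (e : Euc n) (c : ℝ) : prj P (e + c • P) = prj P e := by
  have : ‖P‖ ^ 2 ≠ 0 := by positivity
  simp only [prj, inner_add_left, real_inner_smul_left, real_inner_self_eq_norm_sq, add_div,
    mul_div_assoc, div_self this, mul_one, add_smul]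
  abel

lemma prj_iter (hP : P ≠ 0) {T : Euc n →L[ℝ] Euc n} (hT : T P = P) {θ : ℝ} (h0 : 0 ≤ θ)
    (h : ∀ u, ⟪u, P⟫ = 0 → ∃ r : ℝ, ‖T u - r • P‖ ≤ θ * ‖u‖) (v : Euc n) (j : ℕ) :
    ‖prj P ((⇑T)^[j] v)‖ ≤ θ ^ j * ‖v‖ := by
  induction j with
  | zero => simpa using norm_prj_le P v
  | succ j ih =>
    rw [Function.iterate_succ_apply']
    set x := (⇑T)^[j] v
    obtain ⟨r, hr⟩ := h (prj P x) (prj_mem hP x)
    have e : T x = (T (prj P x) - r • P) + (r + ⟪x, P⟫ / ‖P‖ ^ 2) • P := by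
      simp only [prj, map_sub, map_smul, hT, add_smul]; abel
    rw [e, prj_add_smul hP]
    calc _ ≤ θ * (θ ^ j * ‖v‖) :=
          (norm_prj_le _ _).trans (hr.trans (mul_le_mul_of_nonneg_left ih h0))
      _ = _ := by ring

/-- the domain of the local pair -/
def Om0 (P R : Euc n) : Set (PE n) := {p | p ∈ GO n ∧ p.1 ∈ sl P ∧ p.2 ∈ sl R}

lemma isOpen_Om0 (P R : Euc n) : IsOpen (Om0 P R) :=
  Cov.isOpen_GO.inter (((isOpen_sl P).preimage continuous_fst).inter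
    ((isOpen_sl R).preimage continuous_snd))

namespace Cone

variable (B : Cone n)

/-- the linear field `A` in the coordinates `zz F (·, P)` -/
def fld (P : Euc n) (A : Euc n →L[ℝ] Euc n) (ξ : Euc n) : Euc n := B.Mi (ξ, P) (A (zz B.F (ξ, P)))

lemma zsl_sm (P : Euc n) : ContDiffOn ℝ ∞ (fun ξ => zz B.F (ξ, P)) (sl P) :=
  (zz_sm Cov.isOpen_GO B.sm).comp (contDiff_prodMk_left P).contDiffOn fun _ h => h

lemma fld_sm (P : Euc n) (A : Euc n →L[ℝ] Euc n) : ContDiffOn ℝ ∞ (B.fld P A) (sl P) :=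
  (B.Ns_sm P).clm_apply (A.contDiff.comp_contDiffOn (B.zsl_sm P))

lemma fld_smul (ht : 0 < t) (h : ξ ∈ sl P) : B.fld P A (t • ξ) = t • B.fld P A ξ := by
  have h1 := B.Mi_smul ht one_pos h
  have h2 := B.zz_smul ht one_pos h
  rw [one_smul] at h1 h2
  simp only [fld, h1, h2, map_smul]

lemma fld_euler (h : ξ ∈ sl P) : fderiv ℝ (B.fld P A) ξ ξ = B.fld P A ξ := by
  have hd : DifferentiableAt ℝ (B.fld P A) ((1 : ℝ) • ξ) := by
    rw [one_smul]
    exact ((B.fld_sm P A).contDiffAt ((isOpen_sl P).mem_nhds h)).differentiableAt (by simp)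
  have h1 := hd.hasFDerivAt.comp_hasDerivAt (1 : ℝ) ((hasDerivAt_id (1 : ℝ)).smul_const ξ)
  have h2 := (hasDerivAt_id (1 : ℝ)).smul_const (B.fld P A ξ)
  have h3 : (B.fld P A ∘ fun y : ℝ => id y • ξ) =ᶠ[𝓝 1] fun y : ℝ => id y • B.fld P A ξ := by
    filter_upwards [lt_mem_nhds (zero_lt_one' ℝ)] with y hy using B.fld_smul hy h
  simpa using (h1.congr_of_eventuallyEq h3.symm).unique h2

lemma fderiv_fld (h : ξ ∈ sl P) (h0 : A (zz B.F (ξ, P)) = 0) :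
    fderiv ℝ (B.fld P A) ξ = B.Mi (ξ, P) ∘L A ∘L MM B.F (ξ, P) := by
  have h1 := ((B.Ns_sm P).contDiffAt ((isOpen_sl P).mem_nhds h)).differentiableAt (by simp)
  have h2 := A.hasFDerivAt.comp ξ (B.hasFDerivAt_zz h)
  have h3 := h1.hasFDerivAt.clm_apply h2
  refine (HasFDerivAt.fderiv h3).trans ?_
  ext1 v
  simp [h0, Ns]

/-- the action of a pair fixing `P` is linear in the coordinates `zz F (·, P)` -/
lemma lin (hG : Iso B.F G₁ G₂) (h0 : P ≠ 0) (hP : G₂ P = P) : ∃ L : Euc n ≃L[ℝ] Euc n,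
    (∀ w, L w = (adj G₂ P).inverse w) ∧ (∀ ξ ∈ sl P, zz B.F (G₁ ξ, P) = L (zz B.F (ξ, P))) ∧
    ∀ ξ ∈ sl P, ∀ w, fderiv ℝ G₁ ξ (B.Mi (ξ, P) w) = B.Mi (G₁ ξ, P) (L w) := by
  obtain ⟨e, he⟩ := hG.adj_inv h0
  have h1 : ∀ w, e.symm w = (adj G₂ P).inverse w := fun w => by rw [← he]; simp
  refine ⟨e.symm, h1, fun ξ h => ?_, fun ξ h w => ?_⟩
  · have := hG.zz_nat h
    rw [hP, ← he] at this
    rw [← this]; simp
  · rw [h1, hG.Mi_nat h, hP]

lemma fld_nat {L : Euc n ≃L[ℝ] Euc n} (h1 : ∀ ξ ∈ sl P, zz B.F (G₁ ξ, P) = L (zz B.F (ξ, P)))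
    (h2 : ∀ ξ ∈ sl P, ∀ w, fderiv ℝ G₁ ξ (B.Mi (ξ, P) w) = B.Mi (G₁ ξ, P) (L w))
    (hA : ∀ v, A (L v) = L (A v)) (h : ξ ∈ sl P) :
    B.fld P A (G₁ ξ) = fderiv ℝ G₁ ξ (B.fld P A ξ) := by
  rw [fld, fld, h1 ξ h, hA, h2 ξ h]

/-- the jet of `dF (Y, Y')` vanishes at the fixed pair -/
lemma flat_del (hG : Iso B.F G₁ G₂) (h : (R, P) ∈ GO n) (hR : G₁ R = R) (hP : G₂ P = P)
    {L L' : Euc n ≃L[ℝ] Euc n} (h1 : ∀ ξ ∈ sl P, zz B.F (G₁ ξ, P) = L (zz B.F (ξ, P)))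
    (h2 : ∀ η ∈ sl R, zz B.F (G₂ η, R) = L' (zz B.F (η, R))) {ι ι' : Type} [Fintype ι]
    [Fintype ι'] {b : Module.Basis ι ℝ (Euc n)} {b' : Module.Basis ι' ℝ (Euc n)} {r : ι → ℝ}
    {r' : ι' → ℝ} (hb : ∀ i, Gr L (r i) (b i) ∧ A (b i) = r i • b i)
    (hb' : ∀ i, Gr L' (r' i) (b' i) ∧ A' (b' i) = r' i • b' i)
    (hA : A (zz B.F (R, P)) = 0) (hA' : A' (zz B.F (P, R)) = 0) :
    Flat (Om0 P R) (R, P) (B.del (B.fld P A) (B.fld R A')) := by
  have hp : (R, P) ∈ Om0 P R := ⟨h, h, Cov.GO_symm h⟩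
  let y : PE n → PE n := Prod.map (fun ξ => zz B.F (ξ, P)) fun η => zz B.F (η, R)
  have hd : ∀ p ∈ Om0 P R, fderiv ℝ y p = (MM B.F (p.1, P)).prodMap (MM B.F (p.2, R)) :=
    fun p hp => (HasFDerivAt.prodMap p (B.hasFDerivAt_zz hp.2.1) (B.hasFDerivAt_zz hp.2.2)).fderiv
  have hi : ∀ p ∈ Om0 P R, (fderiv ℝ y p).IsInvertible := fun p hp => by
    obtain ⟨m₁, e₁⟩ := B.MM_inv (p := (p.1, P)) hp.2.1
    obtain ⟨m₂, e₂⟩ := B.MM_inv (p := (p.2, R)) hp.2.2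
    rw [hd p hp, ← e₁, ← e₂]
    exact ⟨m₁.prodCongr m₂, rfl⟩
  have hy : ContDiffOn ℝ ∞ y (Om0 P R) :=
    ((B.zsl_sm P).comp contDiffOn_fst fun _ h => h.2.1).prodMk
      ((B.zsl_sm R).comp contDiffOn_snd fun _ h => h.2.2)
  have hGs : ContDiffOn ℝ ∞ (Prod.map G₁ G₂) (Om0 P R) :=
    (hG.sm₁.comp contDiffOn_fst fun _ h => h.1.1).prodMk
      (hG.sm₂.comp contDiffOn_snd fun _ h => h.1.2.1)
  have hm : MapsTo (Prod.map G₁ G₂) (Om0 P R) (Om0 P R) := fun p hp =>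
    ⟨hG.maps _ _ hp.1, hP ▸ hG.maps_sl P hp.2.1, hR ▸ hG.swap.maps_sl R hp.2.2⟩
  have key := flat_jet (isOpen_Om0 P R) hp (b.prod b') hy hi hGs hm (by simp [hR, hP])
    (L.prodCongr L') (fun p hp => Prod.ext (h1 _ hp.2.1) (h2 _ hp.2.2))
    (B.sm.mono fun _ h => h.1) (fun p hp => hG.inv _ _ hp.1) (Sum.elim r r') (A.prodMap A')
    (by
      rintro (i | i)
      · have e : (b.prod b') (Sum.inl i) = (b i, 0) := by simp [Module.Basis.prod_apply]
        rw [e]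
        exact ⟨(hb i).1.inl L', by simp [(hb i).2]⟩
      · have e : (b.prod b') (Sum.inr i) = (0, b' i) := by simp [Module.Basis.prod_apply]
        rw [e]
        exact ⟨Gr.inr L (hb' i).1, by simp [(hb' i).2]⟩)
    (by simp [y, hA, hA'])
  refine key.congr (isOpen_Om0 P R) hp fun p hp => ?_
  have : (fderiv ℝ y p).inverse ((A.prodMap A') (y p)) = (B.fld P A p.1, B.fld R A' p.2) := by
    rw [(hi p hp).inverse_apply_eq, hd p hp]
    exact Prod.ext (B.MM_Mi (p := (p.1, P)) hp.2.1 _).symm (B.MM_Mi (p := (p.2, R)) hp.2.2 _).symm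
  simp only [this, del]

lemma ext_eq {Y Y' : Euc n → Euc n} (hY : ContDiffOn ℝ ∞ Y (sl P)) (hY' : ContDiffOn ℝ ∞ Y' (sl R))
    {p : PE n} (hp : p ∈ Om0 P R) : B.ext Y' p = Y p.1 - B.Mi p (zz (B.del Y Y') p) := by
  rw [B.zz_del (isOpen_sl R) (sl_sub R) hY' ⟨hp.1, hp.2.2⟩
    ((hY.contDiffAt ((isOpen_sl P).mem_nhds hp.2.1)).differentiableAt (by simp)), B.Mi_MM hp.1]
  abel

lemma flat_DD {Y Y' : Euc n → Euc n} (h : (R, P) ∈ GO n) (hY : ContDiffOn ℝ ∞ Y (sl P))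
    (hY' : ContDiffOn ℝ ∞ Y' (sl R)) (hf : Flat (Om0 P R) (R, P) (B.del Y Y')) (u u' : Euc n) :
    Flat (Om0 P R) (R, P) (B.DD Y' u u') := by
  have hp : (R, P) ∈ Om0 P R := ⟨h, h, Cov.GO_symm h⟩
  have ho := isOpen_Om0 P R
  have hMi : ContDiffOn ℝ ∞ B.Mi (Om0 P R) := B.Mi_sm.mono fun _ h => h.1
  have hMM : ContDiffOn ℝ ∞ (MM B.F) (Om0 P R) := (MM_sm Cov.isOpen_GO B.sm).mono fun _ h => h.1
  let V : PE n → Euc n := fun q => B.Mi q (zz (B.del Y Y') q)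
  have hV : ContDiffOn ℝ ∞ V (Om0 P R) := hMi.clm_apply (zz_sm ho hf.sm)
  have h1 : ∀ i, Flat (Om0 P R) (R, P) fun q => V q i := fun i => by
    refine (Flat.sum ho hp Finset.univ fun j _ => Flat.mul ho hp
      (φ := fun q => B.Mi q (ee j) i) ?_ (hf.derX ho hp (X := fun _ => (0, ee j))
        contDiffOn_const)).congr ho hp fun q hq => ?_
    · exact (EuclideanSpace.proj (𝕜 := ℝ) i).contDiff.comp_contDiffOn
        (hMi.clm_apply contDiffOn_const)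
    · have e : zz (B.del Y Y') q = ∑ j, zz (B.del Y Y') q j • ee j := by
        simpa using ((EuclideanSpace.basisFun (Fin n) ℝ).sum_repr _).symm
      show _ = B.Mi q (zz (B.del Y Y') q) i
      rw [e, map_sum]
      simp [zz_apply, d2, dX, mul_comm]
  refine (Flat.sum ho hp Finset.univ fun i _ => Flat.mul ho hp
    (φ := fun q => -⟪MM B.F q (ee i), u'⟫) ?_ ((h1 i).derX ho hp (X := fun _ => (0, u))
      contDiffOn_const)).congr ho hp fun q hq => ?_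
  · exact ((hMM.clm_apply contDiffOn_const).inner ℝ contDiffOn_const).neg
  · have hVd := (hV.contDiffAt (ho.mem_nhds hq)).differentiableAt (by simp)
    have hYd := (hY.contDiffAt ((isOpen_sl P).mem_nhds hq.2.1)).differentiableAt (by simp)
    have e1 : B.ext Y' =ᶠ[𝓝 q] fun p => Y p.1 - V p := by
      filter_upwards [ho.mem_nhds hq] with p hp using B.ext_eq hY hY' hp
    have e2 : fderiv ℝ (B.ext Y') q (0, u) = -fderiv ℝ V q (0, u) := by
      rw [e1.fderiv_eq, show fderiv ℝ (fun p : PE n => Y p.1 - V p) q = _ from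
        ((hYd.hasFDerivAt.comp q hasFDerivAt_fst).sub hVd.hasFDerivAt).fderiv]
      simp
    have e3 : ∀ i, dX (fun _ => ((0 : Euc n), u)) (fun q => V q i) q = fderiv ℝ V q (0, u) i :=
      fun i => by
        have := ((EuclideanSpace.proj (𝕜 := ℝ) i).hasFDerivAt.comp q hVd.hasFDerivAt).fderiv
        exact congrArg (fun T : PE n →L[ℝ] ℝ => T (0, u)) this
    have e4 : fderiv ℝ V q (0, u) = ∑ j, fderiv ℝ V q (0, u) j • ee j := by
      simpa using ((EuclideanSpace.basisFun (Fin n) ℝ).sum_repr _).symm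
    show ∑ i, _ = ⟪MM B.F q (fderiv ℝ (B.ext Y') q (0, u)), u'⟫
    rw [e2, map_neg, inner_neg_left, e4, map_sum, sum_inner, ← Finset.sum_neg_distrib]
    refine Finset.sum_congr rfl fun i _ => ?_
    rw [e3, map_smul, real_inner_smul_left]
    ring

end Cone

end Crest.Agent.N221.K
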